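import Vale.Agent.P074.Prekopa

/-!
Barycentres of cells are stable under perturbations of the source.
-/

noncomputable section

open MeasureTheory Set
open scoped RealInnerProductSpace

namespace Vale.Agent.P074

variable {d : ℕ}

/-- The concave weight. -/
def weight (L : ℝ) (x : Space d) : ℝ := L - ‖x‖ ^ 2

variable {L R : ℝ}

lemma weight_bounds (hR : 1 ≤ R) (hL : 65536 * R ^ 2 ≤ L) {x : Space d} (hx : ‖x‖ ≤ R) :
    L / 2 ≤ weight L x ∧ weight L x ≤ L := by
  have := pow_le_pow_left₀ (norm_nonneg x) hx 2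
  unfold weight
  constructor <;> nlinarith [sq_nonneg ‖x‖]

lemma weight_diff_le {x y : Space d} (hx : ‖x‖ ≤ R) (hy : ‖y‖ ≤ R) :
    |weight L x - weight L y| ≤ 2 * R * ‖x - y‖ := by
  have h1 := abs_norm_sub_norm_le x y
  have h : weight L x - weight L y = (‖y‖ - ‖x‖) * (‖y‖ + ‖x‖) := by unfold weight; ring
  rw [h, abs_mul, abs_sub_comm, abs_of_nonneg (by positivity : (0:ℝ) ≤ ‖y‖ + ‖x‖)]
  calc |‖x‖ - ‖y‖| * (‖y‖ + ‖x‖) ≤ ‖x - y‖ * (2 * R) :=
        mul_le_mul h1 (by linarith) (by positivity) (norm_nonneg _)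
    _ = _ := by ring

lemma weight_midpoint (hR : 1 ≤ R) (hL : 65536 * R ^ 2 ≤ L) {x y : Space d} (hx : ‖x‖ ≤ R)
    (hy : ‖y‖ ≤ R) : weight L x * weight L y * Real.exp (‖x - y‖ ^ 2 / (4 * L)) ≤
      weight L ((1/2 : ℝ) • (x + y)) ^ 2 := by
  obtain ⟨hx0, hx1⟩ := weight_bounds hR hL hx
  obtain ⟨hy0, hy1⟩ := weight_bounds hR hL hy
  have hLpos : 0 < L := by nlinarith
  set z := ‖x - y‖ ^ 2 / (4 * L) with hz
  have hxy : ‖x - y‖ ≤ 2 * R := (norm_sub_le _ _).trans (by linarith)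
  have hxy2 := pow_le_pow_left₀ (norm_nonneg (x - y)) hxy 2
  have hz0 : 0 ≤ z := by positivity
  have hz1 : z ≤ 1 / 2 := by
    rw [hz, div_le_iff₀ (by linarith)]
    nlinarith
  have hexp : Real.exp z ≤ 1 + 2 * z := by
    refine (Real.exp_bound_div_one_sub_of_interval hz0 (by linarith)).trans ?_
    rw [div_le_iff₀ (by linarith)]
    nlinarith
  have hm : weight L ((1/2 : ℝ) • (x + y)) =
      (weight L x + weight L y) / 2 + ‖x - y‖ ^ 2 / 4 := by
    unfold weight
    rw [norm_smul, mul_pow, norm_add_sq_real, norm_sub_sq_real]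
    norm_num; ring
  rw [hm]
  set p := weight L x
  set q := weight L y
  calc p * q * Real.exp z ≤ p * q * (1 + 2 * z) := by
        apply mul_le_mul_of_nonneg_left hexp; nlinarith
    _ ≤ ((p + q) / 2) ^ 2 + (p + q) / 2 * (‖x - y‖ ^ 2 / 2) := by
        have h1 : p * q ≤ ((p + q) / 2) ^ 2 := by nlinarith [sq_nonneg (p - q)]
        have h2 : p * q / L ≤ (p + q) / 2 := by
          rw [div_le_iff₀ hLpos]
          nlinarith
        have h3 : p * q * (2 * z) = p * q / L * (‖x - y‖ ^ 2 / 2) := by rw [hz]; field_simp; ring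
        have h4 := mul_le_mul_of_nonneg_right h2 (by positivity : (0:ℝ) ≤ ‖x - y‖ ^ 2 / 2)
        nlinarith
    _ ≤ _ := by nlinarith [sq_nonneg (‖x - y‖ ^ 2)]

/-- A lower bound for the integral of an exponential by Jensen. -/
lemma jensen_exp {α : Type*} [MeasurableSpace α] {m : Measure α} {w q : α → ℝ}
    (hw : ∀ᵐ x ∂m, 0 ≤ w x) (hwi : Integrable w m) (hqi : Integrable (fun x => w x * q x) m)
    (hei : Integrable (fun x => w x * Real.exp (q x)) m) :
    (∫ x, w x ∂m) * Real.exp ((∫ x, w x * q x ∂m) / ∫ x, w x ∂m) ≤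
      ∫ x, w x * Real.exp (q x) ∂m := by
  set U := ∫ x, w x ∂m with hU
  set a := (∫ x, w x * q x ∂m) / U with ha
  rcases eq_or_ne U 0 with h0 | h0
  · rw [h0, zero_mul]
    exact integral_nonneg_of_ae (hw.mono fun x hx => mul_nonneg hx (Real.exp_nonneg _))
  have hint : Integrable (fun x => Real.exp a * (w x * q x) + (Real.exp a - Real.exp a * a) * w x) m :=
    (hqi.const_mul _).fun_add (hwi.const_mul _)
  have hval : ∫ x, (Real.exp a * (w x * q x) + (Real.exp a - Real.exp a * a) * w x) ∂m =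
      U * Real.exp a := by
    rw [integral_add (hqi.const_mul _) (hwi.const_mul _), integral_const_mul, integral_const_mul,
      ← hU]
    have : ∫ x, w x * q x ∂m = a * U := by rw [ha, div_mul_cancel₀ _ h0]
    rw [this]; ring
  rw [← hval]
  refine integral_mono_ae hint hei (hw.mono fun x hx => ?_)
  have hk : Real.exp a * (1 + (q x - a)) ≤ Real.exp (q x) := by
    calc Real.exp a * (1 + (q x - a)) ≤ Real.exp a * Real.exp (q x - a) :=
          mul_le_mul_of_nonneg_left (by linarith [Real.add_one_le_exp (q x - a)]) (Real.exp_nonneg a)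
      _ = _ := by rw [← Real.exp_add]; congr 1; ring
  have := mul_le_mul_of_nonneg_left hk hx
  simp only
  linarith

section Cell

variable {A B C : Set (Space d)}

/-- Weighted integral of `q` over a set. -/
def moment (L : ℝ) (S : Set (Space d)) (q : Space d → ℝ) : ℝ := ∫ x in S, weight L x * q x

/-- The weighted volume. -/
def mass (L : ℝ) (S : Set (Space d)) : ℝ := ∫ x in S, weight L x

lemma integrableOn_of_bound' {S : Set (Space d)} (hS : MeasurableSet S) (hSR : ∀ x ∈ S, ‖x‖ ≤ R)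
    {f : Space d → ℝ} (hf : Measurable f) {M : ℝ} (hM : ∀ x ∈ S, |f x| ≤ M) :
    IntegrableOn f S volume := by
  have hfin : volume S < ⊤ := lt_of_le_of_lt
    (measure_mono fun x hx => mem_closedBall_zero_iff.mpr (hSR x hx)) measure_closedBall_lt_top
  have : IsFiniteMeasure (volume.restrict S) := isFiniteMeasure_restrict.mpr hfin.ne
  exact Integrable.of_bound hf.aestronglyMeasurable M ((ae_restrict_mem hS).mono fun x hx =>
    (Real.norm_eq_abs _).le.trans (hM x hx))

lemma measurable_weight : Measurable (weight (d := d) L) :=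
  measurable_const.sub (measurable_norm.pow_const 2)

variable (hR : 1 ≤ R) (hL : 65536 * R ^ 2 ≤ L)
  (hA : MeasurableSet A) (hB : MeasurableSet B) (hC : MeasurableSet C)
  (hbd : ∀ x ∈ A ∪ B ∪ C, ‖x‖ ≤ R) (hAB : ∀ x ∈ A, ∀ y ∈ B, (1/2 : ℝ) • (x + y) ∈ C)
  (hA0 : 0 < mass L A) (hB0 : 0 < mass L B)

include hR hL hA hB hC hbd hAB hA0 hB0

/-- Tilted Prekopa-Leindler. -/
lemma tilt_le {q : Space d → ℝ} (hq : Measurable q) {qb : ℝ}
    (hqb : ∀ x ∈ A ∪ B ∪ C, |q x| ≤ qb) {Λ : ℝ}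
    (hlip : ∀ x ∈ A, ∀ y ∈ B, q x - q y ≤ Λ * ‖x - y‖) :
    0 < mass L C ∧ moment L A q / mass L A - moment L B q / mass L B ≤
      L * Λ ^ 2 + (2 * Real.log (mass L C) - Real.log (mass L A) - Real.log (mass L B)) := by
  have hLpos : 0 < L := by nlinarith
  have hsA : A ⊆ A ∪ B ∪ C := subset_union_left.trans subset_union_left
  have hsB : B ⊆ A ∪ B ∪ C := subset_union_right.trans subset_union_left
  have hsC : C ⊆ A ∪ B ∪ C := subset_union_right
  set E := Real.exp (L * Λ ^ 2 / 2) with hE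
  have hwb : ∀ x ∈ A ∪ B ∪ C, 0 ≤ weight L x ∧ weight L x ≤ L := fun x hx => by
    obtain ⟨h1, h2⟩ := weight_bounds hR hL (hbd x hx); exact ⟨by linarith, h2⟩
  have hbound : ∀ x ∈ A ∪ B ∪ C, ∀ s : ℝ, |s| ≤ qb →
      0 ≤ weight L x * Real.exp s ∧ weight L x * Real.exp s ≤ L * (Real.exp qb + E) := by
    intro x hx s hs
    obtain ⟨h1, h2⟩ := hwb x hx
    refine ⟨mul_nonneg h1 (Real.exp_nonneg _), mul_le_mul h2 ?_ (Real.exp_nonneg _) hLpos.le⟩
    have := Real.exp_le_exp.mpr ((le_abs_self s).trans hs)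
    linarith [Real.exp_pos (L * Λ ^ 2 / 2)]
  have hp := prekopa hA hB hC hbd
    (a := fun x => weight L x * Real.exp (q x)) (b := fun x => weight L x * Real.exp (-q x))
    (c := fun x => weight L x * E)
    (measurable_weight.mul hq.exp) (measurable_weight.mul hq.neg.exp) (measurable_weight.mul_const E)
    (M := L * (Real.exp qb + E)) (fun x hx => hbound x (hsA hx) _ (hqb x (hsA hx)))
    (fun x hx => hbound x (hsB hx) _ (by rw [abs_neg]; exact hqb x (hsB hx)))
    (fun x hx => ?_) fun x hx y hy => ⟨hAB x hx y hy, ?_⟩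
  swap
  · obtain ⟨h1, h2⟩ := hwb x (hsC hx)
    exact ⟨mul_nonneg h1 (Real.exp_nonneg _),
      mul_le_mul h2 (le_add_of_nonneg_left (Real.exp_nonneg _)) (Real.exp_nonneg _) hLpos.le⟩
  swap
  · obtain ⟨hx1, -⟩ := hwb x (hsA hx)
    obtain ⟨hy1, -⟩ := hwb y (hsB hy)
    have hsq : q x - q y ≤ ‖x - y‖ ^ 2 / (4 * L) + L * Λ ^ 2 := by
      refine (hlip x hx y hy).trans ?_
      rw [div_add' _ _ _ (by positivity), le_div_iff₀ (by positivity)]
      nlinarith [sq_nonneg (‖x - y‖ - 2 * L * Λ)]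
    calc weight L x * Real.exp (q x) * (weight L y * Real.exp (-q y))
        = weight L x * weight L y * Real.exp (q x - q y) := by
          rw [sub_eq_add_neg, Real.exp_add]; ring
      _ ≤ weight L x * weight L y * Real.exp (‖x - y‖ ^ 2 / (4 * L) + L * Λ ^ 2) :=
          mul_le_mul_of_nonneg_left (Real.exp_le_exp.mpr hsq) (mul_nonneg hx1 hy1)
      _ = weight L x * weight L y * Real.exp (‖x - y‖ ^ 2 / (4 * L)) * E ^ 2 := by
          rw [Real.exp_add, hE, ← Real.exp_nat_mul]; push_cast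
          rw [show (2:ℝ) * (L * Λ ^ 2 / 2) = L * Λ ^ 2 by ring]; ring
      _ ≤ weight L ((1/2 : ℝ) • (x + y)) ^ 2 * E ^ 2 := mul_le_mul_of_nonneg_right
          (weight_midpoint hR hL (hbd x (hsA hx)) (hbd y (hsB hy))) (sq_nonneg _)
      _ = _ := by ring
  have int : ∀ {S : Set (Space d)}, MeasurableSet S → S ⊆ A ∪ B ∪ C → ∀ {f : Space d → ℝ},
      Measurable f → ∀ {M : ℝ}, (∀ x ∈ S, |f x| ≤ M) →
      Integrable (fun x => weight L x * f x) (volume.restrict S) := by
    intro S hS hsub f hf M hM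
    refine integrableOn_of_bound' hS (fun x hx => hbd x (hsub hx)) (measurable_weight.mul hf)
      (M := L * M) fun x hx => ?_
    rw [abs_mul]
    exact mul_le_mul (by rw [abs_of_nonneg (hwb x (hsub hx)).1]; exact (hwb x (hsub hx)).2)
      (hM x hx) (abs_nonneg _) hLpos.le
  have jA := jensen_exp (m := volume.restrict A) (w := weight L) (q := q)
    ((ae_restrict_mem hA).mono fun x hx => (hwb x (hsA hx)).1)
    (by simpa using int hA hsA (f := fun _ => (1:ℝ)) measurable_const (M := 1) fun x _ => by simp)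
    (int hA hsA hq fun x hx => hqb x (hsA hx))
    (int hA hsA hq.exp (M := Real.exp qb) fun x hx => by
      rw [Real.abs_exp]; exact Real.exp_le_exp.mpr ((le_abs_self _).trans (hqb x (hsA hx))))
  have jB := jensen_exp (m := volume.restrict B) (w := weight L) (q := fun x => -q x)
    ((ae_restrict_mem hB).mono fun x hx => (hwb x (hsB hx)).1)
    (by simpa using int hB hsB (f := fun _ => (1:ℝ)) measurable_const (M := 1) fun x _ => by simp)
    (int hB hsB hq.neg fun x hx => by rw [abs_neg]; exact hqb x (hsB hx))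
    (int hB hsB hq.neg.exp (M := Real.exp qb) fun x hx => by
      rw [Real.abs_exp]; exact Real.exp_le_exp.mpr ((neg_le_abs _).trans (hqb x (hsB hx))))
  change mass L A * Real.exp (moment L A q / mass L A) ≤ _ at jA
  rw [show (∫ x in B, weight L x * -q x) = -moment L B q by
    simp [moment, integral_neg], neg_div] at jB
  change mass L B * Real.exp (-(moment L B q / mass L B)) ≤ _ at jB
  rw [integral_mul_const] at hp
  have hprod : mass L A * Real.exp (moment L A q / mass L A) *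
      (mass L B * Real.exp (-(moment L B q / mass L B))) ≤ (mass L C * E) ^ 2 :=
    (mul_le_mul jA jB (by positivity) (le_trans (by positivity) jA)).trans hp
  have hC0 : 0 < mass L C := by
    have h1 : 0 ≤ mass L C := setIntegral_nonneg hC fun x hx => (hwb x (hsC hx)).1
    rcases h1.lt_or_eq with h | h
    · exact h
    · exfalso
      rw [← h] at hprod
      have : 0 < mass L A * Real.exp (moment L A q / mass L A) *
          (mass L B * Real.exp (-(moment L B q / mass L B))) := by positivity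
      linarith [show ((0:ℝ) * E) ^ 2 = 0 by ring]
  refine ⟨hC0, ?_⟩
  have := Real.log_le_log (by positivity) hprod
  rw [Real.log_mul (by positivity) (by positivity), Real.log_mul hA0.ne' (Real.exp_ne_zero _),
    Real.log_mul hB0.ne' (Real.exp_ne_zero _), Real.log_exp, Real.log_exp, Real.log_pow,
    Real.log_mul hC0.ne' (Real.exp_ne_zero _), Real.log_exp] at this
  push_cast at this
  linarith

/-- Means of a Lipschitz function over the two cells differ by the root of the deficit. -/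
lemma mean_sq_le {q : Space d → ℝ} (hq : Measurable q) {qb : ℝ}
    (hqb : ∀ x ∈ A ∪ B ∪ C, |q x| ≤ qb) {Λ : ℝ} (hΛ : 0 < Λ)
    (hlip : ∀ x ∈ A ∪ B ∪ C, ∀ y ∈ A ∪ B ∪ C, |q x - q y| ≤ Λ * ‖x - y‖) :
    (moment L A q / mass L A - moment L B q / mass L B) ^ 2 ≤
      4 * L * Λ ^ 2 * (2 * Real.log (mass L C) - Real.log (mass L A) - Real.log (mass L B)) := by
  set D := moment L A q / mass L A - moment L B q / mass L B with hD
  set τ := D / (2 * L * Λ ^ 2) with hτ
  have hLpos : 0 < L := by nlinarith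
  have hmom : ∀ S : Set (Space d), moment L S (fun x => τ * q x) = τ * moment L S q := fun S => by
    rw [moment, moment, ← integral_const_mul]
    exact integral_congr_ae (Filter.Eventually.of_forall fun x => by ring)
  have h := (tilt_le hR hL hA hB hC hbd hAB hA0 hB0 (hq.const_mul τ) (qb := |τ| * qb)
    (fun x hx => by rw [abs_mul]; exact mul_le_mul_of_nonneg_left (hqb x hx) (abs_nonneg _))
    (Λ := |τ| * Λ) (fun x hx y hy => by
      rw [← mul_sub]
      refine (le_abs_self _).trans ?_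
      rw [abs_mul, mul_assoc]
      exact mul_le_mul_of_nonneg_left (hlip x (Or.inl (Or.inl hx)) y (Or.inl (Or.inr hy)))
        (abs_nonneg _))).2
  rw [hmom, hmom, mul_div_assoc, mul_div_assoc, ← mul_sub, ← hD, mul_pow, sq_abs] at h
  have e1 : τ * D = 2 * (L * (τ ^ 2 * Λ ^ 2)) := by rw [hτ]; field_simp
  have e2 : 4 * L * Λ ^ 2 * (L * (τ ^ 2 * Λ ^ 2)) = D ^ 2 := by rw [hτ]; field_simp; ring
  rw [← e2]
  exact mul_le_mul_of_nonneg_left (by linarith) (by positivity)

end Cell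

/-- Elementary bounds for one cell. -/
lemma cell_bounds (hR : 1 ≤ R) (hL : 65536 * R ^ 2 ≤ L) {A B C : Set (Space d)}
    (hA : MeasurableSet A) (hB : MeasurableSet B) (hC : MeasurableSet C)
    (hbd : ∀ x ∈ A ∪ B ∪ C, ‖x‖ ≤ R) (hAB : ∀ x ∈ A, ∀ y ∈ B, (1/2 : ℝ) • (x + y) ∈ C)
    {g : Space d → ℝ} (hg : Measurable g) (hgb : ∀ x, |g x| ≤ 1 / 2) {M : ℝ} (hM : 0 < M)
    (hMA : volume.real A = M) (hMB : ∫ x in B, (1 + g x) = M) :
    2 * M / 3 ≤ volume.real B ∧ volume.real B ≤ 2 * M ∧ volume.real B + (∫ x in B, g x) = M ∧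
      (∫ x in B, g x) ^ 2 ≤ 2 * M * (∫ x in B, g x ^ 2) ∧
      L / 2 * M ≤ mass L A ∧ mass L A ≤ L * M ∧
      L / 2 * volume.real B ≤ mass L B ∧ mass L B ≤ L * volume.real B ∧
      0 < mass L A ∧ 0 < mass L B := by
  have hLpos : 0 < L := by nlinarith
  have hLR : 65536 * R ≤ L := le_trans (by nlinarith) hL
  have hsA : A ⊆ A ∪ B ∪ C := subset_union_left.trans subset_union_left
  have hsB : B ⊆ A ∪ B ∪ C := subset_union_right.trans subset_union_left
  have hfin : ∀ {S : Set (Space d)}, S ⊆ A ∪ B ∪ C → volume S ≠ ⊤ := fun hS =>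
    (lt_of_le_of_lt (measure_mono fun x hx => mem_closedBall_zero_iff.mpr (hbd x (hS hx)))
      measure_closedBall_lt_top).ne
  have iB : ∀ {f : Space d → ℝ}, Measurable f → ∀ {M' : ℝ}, (∀ x ∈ B, |f x| ≤ M') →
      IntegrableOn f B volume := fun hf _ hM' =>
    integrableOn_of_bound' hB (fun x hx => hbd x (hsB hx)) hf hM'
  set mB := volume.real B with hmB
  set G := ∫ x in B, g x with hG
  set S2 := ∫ x in B, g x ^ 2 with hS2
  have hS20 : 0 ≤ S2 := setIntegral_nonneg hB fun x _ => sq_nonneg _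
  have ig : IntegrableOn g B volume := iB hg fun x _ => hgb x
  have ig2 : IntegrableOn (fun x => g x ^ 2) B volume := iB (hg.pow_const 2) (M' := 1 / 4) fun x _ => by
    rw [abs_pow, show (1:ℝ) / 4 = (1 / 2) ^ 2 by norm_num]
    exact pow_le_pow_left₀ (abs_nonneg _) (hgb x) 2
  have ione : IntegrableOn (fun _ => (1:ℝ)) B volume := iB measurable_const (M' := 1) fun x _ => by simp
  have hsum : mB + G = M := by
    rw [← hMB, integral_add ione ig]
    simp [hmB, hG]
  have hGb : |G| ≤ 1 / 2 * mB := by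
    rw [hG, hmB, ← Real.norm_eq_abs]
    exact norm_setIntegral_le_of_norm_le_const (lt_top_iff_ne_top.mpr (hfin hsB))
      fun x _ => (Real.norm_eq_abs _).le.trans (hgb x)
  have hmB1 : 2 * M / 3 ≤ mB := by linarith [(abs_le.mp hGb).2]
  have hmB2 : mB ≤ 2 * M := by linarith [(abs_le.mp hGb).1]
  have hG2 : G ^ 2 ≤ 2 * M * S2 := by
    have hmBpos : 0 < mB := by linarith
    have h := setIntegral_nonneg (μ := volume) (f := fun x => (g x - G / mB) ^ 2) hB
      fun x _ => sq_nonneg _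
    have e : ∫ x in B, (g x - G / mB) ^ 2 = S2 - G ^ 2 / mB := by
      have : ∀ x, (g x - G / mB) ^ 2 = g x ^ 2 - (2 * (G / mB) * g x - (G / mB) ^ 2) := fun x => by ring
      simp only [this]
      have i1 : Integrable (fun x => 2 * (G / mB) * g x) (volume.restrict B) := ig.const_mul _
      have i2 : Integrable (fun _ => (G / mB) ^ 2) (volume.restrict B) :=
        iB measurable_const (M' := |(G / mB) ^ 2|) fun x _ => le_rfl
      rw [integral_sub ig2 (i1.sub' i2), integral_sub i1 i2, integral_const_mul]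
      simp only [integral_const, measureReal_restrict_apply_univ, ← hmB, ← hG, ← hS2, smul_eq_mul]
      field_simp; ring
    rw [e, sub_nonneg, div_le_iff₀ hmBpos] at h
    nlinarith
  have hint : ∀ {S : Set (Space d)}, MeasurableSet S → S ⊆ A ∪ B ∪ C →
      L / 2 * volume.real S ≤ mass L S ∧ mass L S ≤ L * volume.real S := by
    intro S hS hsub
    have i0 : IntegrableOn (weight L) S volume := integrableOn_of_bound' hS (fun x hx => hbd x (hsub hx))
      measurable_weight (M := L) fun x hx => by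
        obtain ⟨h1, h2⟩ := weight_bounds hR hL (hbd x (hsub hx))
        rw [abs_le]; constructor <;> linarith
    constructor
    · exact setIntegral_ge_of_const_le_real hS (hfin hsub)
        (fun x hx => (weight_bounds hR hL (hbd x (hsub hx))).1) i0
    · have ic : IntegrableOn (fun _ => L) S volume := integrableOn_const (hfin hsub)
      refine (setIntegral_mono_on i0 ic hS fun x hx => (weight_bounds hR hL (hbd x (hsub hx))).2).trans
        (le_of_eq ?_)
      simp [mul_comm]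
  obtain ⟨hA1, hA2⟩ := hint hA hsA
  obtain ⟨hB1, hB2⟩ := hint hB hsB
  rw [hMA] at hA1 hA2
  rw [← hmB] at hB1 hB2
  have hA0 : 0 < mass L A := by nlinarith
  have hB0 : 0 < mass L B := by nlinarith
  exact ⟨hmB1, hmB2, hsum, hG2, hA1, hA2, hB1, hB2, hA0, hB0⟩

/-- Bounds for the reciprocal of the weight. -/
lemma inv_weight_bounds (hR : 1 ≤ R) (hL : 65536 * R ^ 2 ≤ L) {x y : Space d} (hx : ‖x‖ ≤ R)
    (hy : ‖y‖ ≤ R) : |(weight L x)⁻¹| ≤ 2 / L ∧
      |(weight L x)⁻¹ - (weight L y)⁻¹| ≤ 8 * R / L ^ 2 * ‖x - y‖ := by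
  have hLpos : 0 < L := by nlinarith
  obtain ⟨px, -⟩ := weight_bounds hR hL hx
  obtain ⟨py, -⟩ := weight_bounds hR hL hy
  have hpx : 0 < weight L x := by linarith
  have hpy : 0 < weight L y := by linarith
  constructor
  · rw [abs_of_pos (inv_pos.mpr hpx), inv_le_comm₀ hpx (by positivity), inv_div]
    exact px
  · rw [inv_sub_inv hpx.ne' hpy.ne', abs_div, abs_of_pos (mul_pos hpx hpy),
      div_le_iff₀ (mul_pos hpx hpy)]
    refine (weight_diff_le (L := L) hy hx).trans ?_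
    rw [norm_sub_rev y x]
    have h4 : L ^ 2 / 4 ≤ weight L x * weight L y := by
      have := mul_le_mul px py (by positivity) hpx.le
      linarith
    calc 2 * R * ‖x - y‖ = 8 * R / L ^ 2 * ‖x - y‖ * (L ^ 2 / 4) := by field_simp; ring
      _ ≤ _ := mul_le_mul_of_nonneg_left h4 (by positivity)

lemma alg_deficit {L R M df G S2 X : ℝ} (hL0 : 0 < L) (hM : 0 < M) (hdf : 0 ≤ df)
    (hL : 65536 * R ^ 2 ≤ L) (hX : X ≤ 2048 * L * R ^ 2 * M ^ 2 * df + 2 * L ^ 2 * G ^ 2)
    (hG : G ^ 2 ≤ 2 * M * S2) : X ≤ (L * M / 4 * df + 12 * L * S2) * (L * M / 3) := by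
  have h5 : 2048 * R ^ 2 ≤ L / 12 := by linarith [sq_nonneg R]
  have h6 := mul_le_mul_of_nonneg_right h5 (by positivity : 0 ≤ L * M ^ 2 * df)
  have h7 := mul_le_mul_of_nonneg_left hG (by positivity : 0 ≤ 2 * L ^ 2)
  linarith

lemma alg_mass_change {L R M df G S2 X sd sM sS : ℝ} (hL0 : 0 < L) (hM : 0 < M)
    (hL : 65536 * R ^ 2 ≤ L) (hd : sd ^ 2 = df) (hm : sM * sM = M) (hs : sS ^ 2 = S2)
    (hsd : 0 ≤ sd) (hsM : 0 ≤ sM) (hsS : 0 ≤ sS)
    (hX : X ≤ 2048 * L * R ^ 2 * M ^ 2 * df + 2 * L ^ 2 * G ^ 2) (hG : G ^ 2 ≤ 2 * M * S2) :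
    X ≤ (L * M * sd + 2 * L * (sM * sS)) ^ 2 := by
  have h6 : 2048 * R ^ 2 ≤ L := by linarith [sq_nonneg R]
  have hdf : 0 ≤ df := hd ▸ sq_nonneg sd
  have h7 := mul_le_mul_of_nonneg_right h6 (by positivity : 0 ≤ L * M ^ 2 * df)
  have h9 := mul_le_mul_of_nonneg_left hG (by positivity : 0 ≤ 2 * L ^ 2)
  have h11 : 0 ≤ L * M * sd * (2 * L * (sM * sS)) := by positivity
  have e : (L * M * sd + 2 * L * (sM * sS)) ^ 2 =
      L ^ 2 * M ^ 2 * df + 2 * (L * M * sd * (2 * L * (sM * sS))) + 4 * L ^ 2 * (M * S2) := by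
    rw [← hd, ← hs, ← hm]; ring
  rw [e]
  linarith

lemma alg_bary {L R M sd sM sS n a b t u I : ℝ} (hR : 1 ≤ R) (hL : 65536 * R ^ 2 ≤ L)
    (hn : 0 ≤ n) (hM : 0 ≤ M) (hsd : 0 ≤ sd) (hm : sM * sM = M) (hms : 0 ≤ sM * sS)
    (e : a - b = t + u) (ht : t ≤ L * M * (6 * n * sd))
    (hu : u ≤ (L * M * sd + 2 * L * (sM * sS)) * (4 * R * n / L)) (hI : |I| ≤ R * n * (2 * (sM * sS))) :
    a - (b + I) ≤ n * sM * (8 * L * (sM * sd) + 10 * R * sS) := by
  have hLpos : 0 < L := by nlinarith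
  have hu' : (L * M * sd + 2 * L * (sM * sS)) * (4 * R * n / L) =
      4 * R * (n * M * sd) + 8 * R * n * (sM * sS) := by field_simp; ring
  have e2 : n * sM * (8 * L * (sM * sd) + 10 * R * sS) =
      8 * L * (n * M * sd) + 10 * R * n * (sM * sS) := by rw [← hm]; ring
  have h4 : 4 * R ≤ 2 * L := by nlinarith
  have := mul_le_mul_of_nonneg_right h4 (by positivity : 0 ≤ n * M * sd)
  have h3 := abs_le.mp hI
  rw [e2]
  rw [hu'] at hu
  linarith

/-- Cauchy-Schwarz on a set of finite measure. -/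
lemma setIntegral_abs_le_sqrt {B : Set (Space d)} (hB : MeasurableSet B) (hfin : volume B ≠ ⊤)
    {g : Space d → ℝ} (hg : Measurable g) {a : ℝ} (hgb : ∀ x, |g x| ≤ a) :
    ∫ x in B, |g x| ≤ Real.sqrt (volume.real B) * Real.sqrt (∫ x in B, g x ^ 2) := by
  have : IsFiniteMeasure (volume.restrict B) := isFiniteMeasure_restrict.mpr hfin
  have i1 : Integrable (fun x => |g x|) (volume.restrict B) :=
    Integrable.of_bound hg.abs.aestronglyMeasurable a (Filter.Eventually.of_forall fun x => by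
      rw [Real.norm_eq_abs, abs_abs]; exact hgb x)
  have i2 : Integrable (fun x => g x ^ 2) (volume.restrict B) :=
    Integrable.of_bound (hg.pow_const 2).aestronglyMeasurable (a ^ 2)
      (Filter.Eventually.of_forall fun x => by
        rw [Real.norm_eq_abs, abs_pow]; exact pow_le_pow_left₀ (abs_nonneg _) (hgb x) 2)
  set I := ∫ x in B, |g x|
  set S := ∫ x in B, g x ^ 2
  set v := volume.real B
  have hI : 0 ≤ I := setIntegral_nonneg hB fun x _ => abs_nonneg _
  rw [← Real.sqrt_mul measureReal_nonneg]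
  refine Real.le_sqrt_of_sq_le ?_
  rcases eq_or_lt_of_le (measureReal_nonneg : 0 ≤ v) with h0 | h0
  · have hz : volume.restrict B = 0 := by
      rw [Measure.restrict_eq_zero]
      exact (measureReal_eq_zero_iff hfin).mp h0.symm
    have hI0 : I = 0 := by simp [I, hz]
    rw [hI0, zero_pow two_ne_zero]
    exact mul_nonneg measureReal_nonneg (setIntegral_nonneg hB fun x _ => sq_nonneg _)
  · have h := setIntegral_nonneg (μ := volume) (f := fun x => (|g x| - I / v) ^ 2) hB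
      fun x _ => sq_nonneg _
    have e : ∫ x in B, (|g x| - I / v) ^ 2 = S - I ^ 2 / v := by
      have : ∀ x, (|g x| - I / v) ^ 2 = g x ^ 2 - (2 * (I / v) * |g x| - (I / v) ^ 2) := fun x => by
        rw [sub_sq, sq_abs]; ring
      simp only [this]
      rw [integral_sub i2 ((i1.const_mul _).sub' (integrable_const _)),
        integral_sub (i1.const_mul _) (integrable_const _), integral_const_mul]
      simp only [integral_const, measureReal_restrict_apply_univ, smul_eq_mul]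
      show S - (2 * (I / v) * I - v * (I / v) ^ 2) = S - I ^ 2 / v
      field_simp; ring
    rw [e, sub_nonneg, div_le_iff₀ h0] at h
    linarith

/-- The deficit and the change of weighted mass of one cell. -/
lemma cell_deficit (hR : 1 ≤ R) (hL : 65536 * R ^ 2 ≤ L) {A B C : Set (Space d)}
    (hA : MeasurableSet A) (hB : MeasurableSet B) (hC : MeasurableSet C)
    (hbd : ∀ x ∈ A ∪ B ∪ C, ‖x‖ ≤ R) (hAB : ∀ x ∈ A, ∀ y ∈ B, (1/2 : ℝ) • (x + y) ∈ C)
    {g : Space d → ℝ} (hg : Measurable g) (hgb : ∀ x, |g x| ≤ 1 / 2) {M : ℝ} (hM : 0 < M)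
    (hMA : volume.real A = M) (hMB : ∫ x in B, (1 + g x) = M) :
    0 ≤ 2 * Real.log (mass L C) - Real.log (mass L A) - Real.log (mass L B) ∧
      L * M / 4 * (2 * Real.log (mass L C) - Real.log (mass L A) - Real.log (mass L B)) ≤
        2 * (mass L C - mass L A) + (mass L A - mass L B) + 24 * L * ∫ x in B, g x ^ 2 ∧
      (mass L B - mass L A) ^ 2 ≤
        2048 * L * R ^ 2 * M ^ 2 * (2 * Real.log (mass L C) - Real.log (mass L A) - Real.log (mass L B))
          + 2 * L ^ 2 * (∫ x in B, g x) ^ 2 := by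
  have hLpos : 0 < L := by nlinarith
  have hsA : A ⊆ A ∪ B ∪ C := subset_union_left.trans subset_union_left
  have hsB : B ⊆ A ∪ B ∪ C := subset_union_right.trans subset_union_left
  obtain ⟨hmB1, hmB2, hsum, hG2, hA1, hA2, hB1, hB2, hA0, hB0⟩ :=
    cell_bounds hR hL hA hB hC hbd hAB hg hgb hM hMA hMB
  set mB := volume.real B with hmB
  set G := ∫ x in B, g x with hG
  set S2 := ∫ x in B, g x ^ 2 with hS2
  have hS20 : 0 ≤ S2 := setIntegral_nonneg hB fun x _ => sq_nonneg _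
  set UA := mass L A with hUA
  set UB := mass L B with hUB
  set UC := mass L C with hUC
  set df := 2 * Real.log UC - Real.log UA - Real.log UB with hdf
  have hwpos : ∀ x ∈ A ∪ B ∪ C, 0 < weight L x := fun x hx => by
    linarith [(weight_bounds hR hL (hbd x hx)).1]
  have hinv : ∀ x ∈ A ∪ B ∪ C, |(weight L x)⁻¹| ≤ 2 / L := fun x hx =>
    (inv_weight_bounds hR hL (hbd x hx) (hbd x hx)).1
  have hinvlip : ∀ x ∈ A ∪ B ∪ C, ∀ y ∈ A ∪ B ∪ C,
      |(weight L x)⁻¹ - (weight L y)⁻¹| ≤ 8 * R / L ^ 2 * ‖x - y‖ := fun x hx y hy =>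
    (inv_weight_bounds hR hL (hbd x hx) (hbd y hy)).2
  have hminv : ∀ {S : Set (Space d)}, MeasurableSet S → S ⊆ A ∪ B ∪ C →
      moment L S (fun x => (weight L x)⁻¹) = volume.real S := by
    intro S hS hsub
    rw [moment, setIntegral_congr_fun hS (g := fun _ => (1:ℝ))
      fun x hx => mul_inv_cancel₀ (hwpos x (hsub hx)).ne']
    simp
  have hP := mean_sq_le hR hL hA hB hC hbd hAB hA0 hB0 (q := fun x => (weight L x)⁻¹)
    measurable_weight.inv hinv (Λ := 8 * R / L ^ 2) (by positivity) hinvlip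
  rw [hminv hA hsA, hminv hB hsB, hMA, ← hmB, ← hdf, ← hUA, ← hUB] at hP
  have hdf0 : 0 ≤ df := by
    have h4 : (0:ℝ) < 4 * L * (8 * R / L ^ 2) ^ 2 := by positivity
    exact nonneg_of_mul_nonneg_right ((sq_nonneg _).trans hP) h4
  set P := M / UA - mB / UB with hPdef
  have hdiff : UB - UA = UA * UB / M * P - UA * G / M := by
    rw [hPdef]; field_simp; linear_combination UA * hsum
  have hk : UA * UB / M ≤ 2 * L ^ 2 * M := by
    rw [div_le_iff₀ hM]
    calc UA * UB ≤ (L * M) * (L * (2 * M)) :=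
          mul_le_mul hA2 (hB2.trans (mul_le_mul_of_nonneg_left hmB2 hLpos.le)) hB0.le (by positivity)
      _ = _ := by ring
  have hsq : (UB - UA) ^ 2 ≤ 2048 * L * R ^ 2 * M ^ 2 * df + 2 * L ^ 2 * G ^ 2 := by
    have h1 : (UA * UB / M * P) ^ 2 ≤ 1024 * L * R ^ 2 * M ^ 2 * df := by
      rw [mul_pow]
      calc (UA * UB / M) ^ 2 * P ^ 2
          ≤ (2 * L ^ 2 * M) ^ 2 * (4 * L * (8 * R / L ^ 2) ^ 2 * df) :=
            mul_le_mul (pow_le_pow_left₀ (by positivity) hk 2) hP (sq_nonneg _) (sq_nonneg _)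
        _ = _ := by field_simp; ring
    have h2 : (UA * G / M) ^ 2 ≤ L ^ 2 * G ^ 2 := by
      rw [mul_div_right_comm, mul_pow]
      refine mul_le_mul_of_nonneg_right (pow_le_pow_left₀ (by positivity) ?_ 2) (sq_nonneg _)
      rwa [div_le_iff₀ hM]
    rw [hdiff]
    linarith [add_sq_le (a := UA * UB / M * P) (b := -(UA * G / M))]
  have hC0 : 0 < UC := (tilt_le hR hL hA hB hC hbd hAB hA0 hB0 (q := fun _ => 0) measurable_const
    (qb := 0) (fun x _ => by simp) (Λ := 0) (fun x _ y _ => by simp)).1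
  refine ⟨hdf0, ?_, hsq⟩
  have hl1 := Real.log_le_sub_one_of_pos (div_pos hC0 hA0)
  rw [Real.log_div hC0.ne' hA0.ne'] at hl1
  have hl2 := Real.log_le_sub_one_of_pos (div_pos hA0 hB0)
  rw [Real.log_div hA0.ne' hB0.ne'] at hl2
  have hkey : UA * df ≤ 2 * (UC - UA) + (UA - UB) + (UB - UA) ^ 2 / UB := by
    have h1 : df ≤ 2 * (UC / UA - 1) + (UA / UB - 1) := by rw [hdf]; linarith
    calc UA * df ≤ UA * (2 * (UC / UA - 1) + (UA / UB - 1)) := mul_le_mul_of_nonneg_left h1 hA0.le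
      _ = _ := by field_simp; ring
  have h3 : (UB - UA) ^ 2 / UB ≤ (UB - UA) ^ 2 / (L * M / 3) :=
    div_le_div_of_nonneg_left (sq_nonneg _) (by positivity)
      (le_trans (by nlinarith) hB1)
  have h4 : (UB - UA) ^ 2 / (L * M / 3) ≤ L * M / 4 * df + 12 * L * S2 := by
    rw [div_le_iff₀ (by positivity)]
    exact alg_deficit hLpos hM hdf0 hL hsq hG2
  have h8 := mul_le_mul_of_nonneg_right hA1 hdf0
  have h9 := mul_nonneg hLpos.le hS20
  linarith

/-- The estimate for one cell. -/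
lemma cell_estimate (hR : 1 ≤ R) (hL : 65536 * R ^ 2 ≤ L) {A B C : Set (Space d)}
    (hA : MeasurableSet A) (hB : MeasurableSet B) (hC : MeasurableSet C)
    (hbd : ∀ x ∈ A ∪ B ∪ C, ‖x‖ ≤ R) (hAB : ∀ x ∈ A, ∀ y ∈ B, (1/2 : ℝ) • (x + y) ∈ C)
    {g : Space d → ℝ} (hg : Measurable g) (hgb : ∀ x, |g x| ≤ 1 / 2) {M : ℝ} (hM : 0 < M)
    (hMA : volume.real A = M) (hMB : ∫ x in B, (1 + g x) = M) (δ : Space d) :
    ∃ def' : ℝ, 0 ≤ def' ∧
      L * M / 4 * def' ≤ 2 * (mass L C - mass L A) + (mass L A - mass L B) +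
        24 * L * ∫ x in B, g x ^ 2 ∧
      (∫ x in A, ⟪x, δ⟫) - (∫ x in B, ⟪x, δ⟫ * (1 + g x)) ≤
        ‖δ‖ * Real.sqrt M * (8 * L * Real.sqrt (M * def') + 10 * R * Real.sqrt (∫ x in B, g x ^ 2)) := by
  have hLpos : 0 < L := by nlinarith
  have hsA : A ⊆ A ∪ B ∪ C := subset_union_left.trans subset_union_left
  have hsB : B ⊆ A ∪ B ∪ C := subset_union_right.trans subset_union_left
  obtain ⟨hmB1, hmB2, hsum, hG2, hA1, hA2, hB1, hB2, hA0, hB0⟩ :=
    cell_bounds hR hL hA hB hC hbd hAB hg hgb hM hMA hMB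
  set mB := volume.real B with hmB
  set G := ∫ x in B, g x with hG
  set S2 := ∫ x in B, g x ^ 2 with hS2
  have hS20 : 0 ≤ S2 := setIntegral_nonneg hB fun x _ => sq_nonneg _
  set UA := mass L A with hUA
  set UB := mass L B with hUB
  set UC := mass L C with hUC
  set df := 2 * Real.log UC - Real.log UA - Real.log UB with hdf
  have hwpos : ∀ x ∈ A ∪ B ∪ C, 0 < weight L x := fun x hx => by
    linarith [(weight_bounds hR hL (hbd x hx)).1]
  have hinv : ∀ x ∈ A ∪ B ∪ C, |(weight L x)⁻¹| ≤ 2 / L := fun x hx =>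
    (inv_weight_bounds hR hL (hbd x hx) (hbd x hx)).1
  have hinvlip : ∀ x ∈ A ∪ B ∪ C, ∀ y ∈ A ∪ B ∪ C,
      |(weight L x)⁻¹ - (weight L y)⁻¹| ≤ 8 * R / L ^ 2 * ‖x - y‖ := fun x hx y hy =>
    (inv_weight_bounds hR hL (hbd x hx) (hbd y hy)).2
  have hLR : 65536 * R ≤ L := le_trans (by nlinarith) hL
  have hfin : ∀ {S : Set (Space d)}, S ⊆ A ∪ B ∪ C → volume S ≠ ⊤ := fun hS =>
    (lt_of_le_of_lt (measure_mono fun x hx => mem_closedBall_zero_iff.mpr (hbd x (hS hx)))
      measure_closedBall_lt_top).ne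
  have iB : ∀ {f : Space d → ℝ}, Measurable f → ∀ {M' : ℝ}, (∀ x ∈ B, |f x| ≤ M') →
      IntegrableOn f B volume := fun hf _ hM' =>
    integrableOn_of_bound' hB (fun x hx => hbd x (hsB hx)) hf hM'
  have ig : IntegrableOn g B volume := iB hg fun x _ => hgb x
  have ig2 : IntegrableOn (fun x => g x ^ 2) B volume := iB (hg.pow_const 2) (M' := 1 / 4) fun x _ => by
    rw [abs_pow, show (1:ℝ) / 4 = (1 / 2) ^ 2 by norm_num]
    exact pow_le_pow_left₀ (abs_nonneg _) (hgb x) 2
  obtain ⟨hdf0, hdf1, hsq⟩ := cell_deficit hR hL hA hB hC hbd hAB hg hgb hM hMA hMB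
  refine ⟨df, hdf0, hdf1, ?_⟩
  set qv : Space d → ℝ := fun x => ⟪x, δ⟫ * (weight L x)⁻¹ with hqv
  have hinner : ∀ x ∈ A ∪ B ∪ C, |⟪x, δ⟫| ≤ R * ‖δ‖ := fun x hx =>
    (abs_real_inner_le_norm _ _).trans (mul_le_mul_of_nonneg_right (hbd x hx) (norm_nonneg _))
  rcases eq_or_ne δ 0 with rfl | hδ
  · simp
  have hδpos : 0 < ‖δ‖ := norm_pos_iff.mpr hδ
  have hm : ∀ {S : Set (Space d)}, MeasurableSet S → S ⊆ A ∪ B ∪ C →
      moment L S qv = ∫ x in S, ⟪x, δ⟫ := by
    intro S hS hsub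
    refine setIntegral_congr_fun hS fun x hx => ?_
    simp only [hqv]
    field_simp [(hwpos x (hsub hx)).ne']
  have hQ := mean_sq_le hR hL hA hB hC hbd hAB hA0 hB0 (q := qv)
    ((measurable_id.inner measurable_const).mul measurable_weight.inv) (qb := R * ‖δ‖ * (2 / L))
    (fun x hx => by
      rw [hqv, abs_mul]
      exact mul_le_mul (hinner x hx) (hinv x hx) (abs_nonneg _) (by positivity))
    (Λ := 3 * ‖δ‖ / L) (by positivity) (fun x hx y hy => by
      have e : qv x - qv y = ⟪x - y, δ⟫ * (weight L x)⁻¹ +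
          ⟪y, δ⟫ * ((weight L x)⁻¹ - (weight L y)⁻¹) := by
        simp only [hqv, inner_sub_left]; ring
      rw [e]
      refine (abs_add_le _ _).trans ?_
      rw [abs_mul, abs_mul]
      refine (add_le_add (mul_le_mul (abs_real_inner_le_norm _ _) (hinv x hx) (abs_nonneg _)
        (by positivity)) (mul_le_mul (hinner y hy) (hinvlip x hx y hy) (abs_nonneg _)
        (by positivity))).trans ?_
      have h8 : 8 * R ^ 2 / L ≤ 1 := by rw [div_le_one hLpos]; nlinarith
      calc ‖x - y‖ * ‖δ‖ * (2 / L) + R * ‖δ‖ * (8 * R / L ^ 2 * ‖x - y‖)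
          = ‖x - y‖ * ‖δ‖ / L * (2 + 8 * R ^ 2 / L) := by field_simp
        _ ≤ ‖x - y‖ * ‖δ‖ / L * 3 := by gcongr; linarith
        _ = _ := by ring)
  rw [hm hA hsA, hm hB hsB, ← hdf, ← hUA, ← hUB] at hQ
  set a := ∫ x in A, ⟪x, δ⟫
  set b := ∫ x in B, ⟪x, δ⟫
  set sd := Real.sqrt df with hsd
  have hsd0 : 0 ≤ sd := Real.sqrt_nonneg _
  have hsd2 : sd ^ 2 = df := Real.sq_sqrt hdf0
  have hb : |b / UB| ≤ 4 * R * ‖δ‖ / L := by
    rw [abs_div, abs_of_pos hB0, div_le_div_iff₀ hB0 hLpos]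
    have h1 : |b| ≤ R * ‖δ‖ * mB := by
      rw [hmB, ← Real.norm_eq_abs]
      exact norm_setIntegral_le_of_norm_le_const (lt_top_iff_ne_top.mpr (hfin hsB))
        fun x hx => (Real.norm_eq_abs _).le.trans (hinner x (hsB hx))
    calc |b| * L ≤ R * ‖δ‖ * mB * L := mul_le_mul_of_nonneg_right h1 hLpos.le
      _ = 2 * R * ‖δ‖ * (L / 2 * mB) := by ring
      _ ≤ 4 * R * ‖δ‖ * UB := mul_le_mul (mul_le_mul_of_nonneg_right (by linarith) (norm_nonneg _)) hB1
          (by positivity) (by positivity)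
  have hmean : |a / UA - b / UB| ≤ 6 * ‖δ‖ * sd := by
    refine abs_le_of_sq_le_sq (hQ.trans ?_) (by positivity)
    have e : (6 * ‖δ‖ * sd) ^ 2 = 36 * ‖δ‖ ^ 2 * df := by rw [← hsd2]; ring
    rw [e]
    have h1 : 4 * L * (3 * ‖δ‖ / L) ^ 2 = 36 * ‖δ‖ ^ 2 / L := by field_simp; ring
    rw [h1]
    refine mul_le_mul_of_nonneg_right (div_le_self (by positivity) ?_) hdf0
    nlinarith
  set sS := Real.sqrt S2 with hsS
  have hsS0 : 0 ≤ sS := Real.sqrt_nonneg _
  set sM := Real.sqrt M with hsM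
  have hsM0 : 0 ≤ sM := Real.sqrt_nonneg _
  have hsM2 : sM * sM = M := Real.mul_self_sqrt hM.le
  have hUd : |UA - UB| ≤ L * M * sd + 2 * L * (sM * sS) := by
    refine abs_le_of_sq_le_sq ?_ (by positivity)
    exact alg_mass_change hLpos hM hL hsd2 hsM2 (Real.sq_sqrt hS20) hsd0 hsM0 hsS0
      (by rw [← neg_sub UB UA, neg_sq]; exact hsq) hG2
  have hBg : |∫ x in B, ⟪x, δ⟫ * g x| ≤ R * ‖δ‖ * (2 * (sM * sS)) := by
    have h1 : |∫ x in B, ⟪x, δ⟫ * g x| ≤ R * ‖δ‖ * ∫ x in B, |g x| := by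
      rw [← integral_const_mul, ← Real.norm_eq_abs]
      refine norm_integral_le_of_norm_le (ig.norm.const_mul _) ((ae_restrict_mem hB).mono fun x hx => ?_)
      rw [Real.norm_eq_abs, abs_mul]
      exact mul_le_mul_of_nonneg_right (hinner x (hsB hx)) (abs_nonneg _)
    refine h1.trans (mul_le_mul_of_nonneg_left ((setIntegral_abs_le_sqrt hB (hfin hsB) hg hgb).trans ?_)
      (by positivity))
    rw [← hmB, ← hS2, ← hsS]
    calc Real.sqrt mB * sS ≤ 2 * sM * sS := by
          refine mul_le_mul_of_nonneg_right ?_ hsS0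
          rw [Real.sqrt_le_left (by positivity), mul_pow, sq sM, hsM2]
          linarith
      _ = _ := by ring
  have ixd : IntegrableOn (fun x => ⟪x, δ⟫) B volume :=
    iB (measurable_id.inner measurable_const) fun x hx => hinner x (hsB hx)
  have ixg : IntegrableOn (fun x => ⟪x, δ⟫ * g x) B volume :=
    iB ((measurable_id.inner measurable_const).mul hg) (M' := R * ‖δ‖ * (1/2)) fun x hx => by
      rw [abs_mul]; exact mul_le_mul (hinner x (hsB hx)) (hgb x) (abs_nonneg _) (by positivity)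
  have hsplit : ∫ x in B, ⟪x, δ⟫ * (1 + g x) = b + ∫ x in B, ⟪x, δ⟫ * g x := by
    simp only [mul_add, mul_one]
    exact integral_add ixd ixg
  rw [hsplit, Real.sqrt_mul hM.le, ← hsM, ← hsd]
  have e : a - b = UA * (a / UA - b / UB) + (UA - UB) * (b / UB) := by field_simp; ring
  have t1 : UA * (a / UA - b / UB) ≤ L * M * (6 * ‖δ‖ * sd) :=
    (mul_le_mul_of_nonneg_left ((le_abs_self _).trans hmean) hA0.le).trans
      (mul_le_mul_of_nonneg_right hA2 (by positivity))
  have t2 : (UA - UB) * (b / UB) ≤ (L * M * sd + 2 * L * (sM * sS)) * (4 * R * ‖δ‖ / L) := by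
    refine (le_abs_self _).trans ?_
    rw [abs_mul]
    exact mul_le_mul hUd hb (abs_nonneg _) (by positivity)
  exact alg_bary hR hL (norm_nonneg δ) hM.le hsd0 hsM2 (mul_nonneg hsM0 hsS0) e t1 t2 hBg

/-- The summed estimate. -/
lemma barycenter_estimate {ι : Type*} [Fintype ι] (hR : 1 ≤ R) (hL : 65536 * R ^ 2 ≤ L)
    {K : Set (Space d)} (hKm : MeasurableSet K) (hKR : ∀ x ∈ K, ‖x‖ ≤ R)
    {A B C : ι → Set (Space d)} (hA : ∀ i, MeasurableSet (A i)) (hB : ∀ i, MeasurableSet (B i))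
    (hC : ∀ i, MeasurableSet (C i)) (hAK : ∀ i, A i ⊆ K) (hBK : ∀ i, B i ⊆ K) (hCK : ∀ i, C i ⊆ K)
    (hAd : Pairwise fun i j => Disjoint (A i) (A j)) (hBd : Pairwise fun i j => Disjoint (B i) (B j))
    (hCd : Pairwise fun i j => Disjoint (C i) (C j))
    (hAc : ∀ᵐ x ∂volume.restrict K, x ∈ ⋃ i, A i) (hBc : ∀ᵐ x ∂volume.restrict K, x ∈ ⋃ i, B i)
    (hAB : ∀ i, ∀ x ∈ A i, ∀ y ∈ B i, (1/2 : ℝ) • (x + y) ∈ C i)
    {g : Space d → ℝ} (hg : Measurable g) (hgb : ∀ x, |g x| ≤ 1 / 2) {M : ι → ℝ} (hM : ∀ i, 0 < M i)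
    (hMA : ∀ i, volume.real (A i) = M i) (hMB : ∀ i, ∫ x in B i, (1 + g x) = M i)
    (δ : ι → Space d) :
    ∑ i, ((∫ x in A i, ⟪x, δ i⟫) - ∫ x in B i, ⟪x, δ i⟫ * (1 + g x)) ≤
      200 * L * Real.sqrt (∑ i, M i * ‖δ i‖ ^ 2) * Real.sqrt (∫ x in K, g x ^ 2) := by
  choose df hdf0 hdf1 hdf2 using fun i => cell_estimate hR hL (hA i) (hB i) (hC i)
    (fun x hx => by
      rcases hx with (hx | hx) | hx
      · exact hKR x (hAK i hx)
      · exact hKR x (hBK i hx)
      · exact hKR x (hCK i hx))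
    (hAB i) hg hgb (hM i) (hMA i) (hMB i) (δ i)
  have hLpos : 0 < L := by nlinarith
  have hKf : volume K ≠ ⊤ := (lt_of_le_of_lt
    (measure_mono fun x hx => mem_closedBall_zero_iff.mpr (hKR x hx)) measure_closedBall_lt_top).ne
  have iw : IntegrableOn (weight L) K volume :=
    integrableOn_of_bound' hKm hKR measurable_weight (M := L) fun x hx => by
      obtain ⟨h1, h2⟩ := weight_bounds hR hL (hKR x hx)
      rw [abs_le]; constructor <;> linarith
  have hcover : ∀ {S : ι → Set (Space d)}, (∀ i, MeasurableSet (S i)) → (∀ i, S i ⊆ K) →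
      Pairwise (fun i j => Disjoint (S i) (S j)) → (∀ᵐ x ∂volume.restrict K, x ∈ ⋃ i, S i) →
      ∀ {f : Space d → ℝ}, IntegrableOn f K volume → ∑ i, ∫ x in S i, f x = ∫ x in K, f x := by
    intro S hS hSK hSd hSc f hf
    rw [← integral_iUnion_fintype hS hSd fun i => hf.mono_set (hSK i)]
    refine setIntegral_congr_set ?_
    rw [ae_restrict_iff' hKm] at hSc
    filter_upwards [hSc] with x hx
    exact propext ⟨fun h => iUnion_subset hSK h, hx⟩
  have hsub : ∑ i, mass L (C i) ≤ mass L K := by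
    simp only [mass]
    rw [← integral_iUnion_fintype hC hCd fun i => iw.mono_set (hCK i)]
    exact setIntegral_mono_set iw ((ae_restrict_mem hKm).mono fun x hx =>
      show 0 ≤ weight L x by linarith [(weight_bounds hR hL (hKR x hx)).1]) (iUnion_subset hCK).eventuallyLE
  have ig2 : IntegrableOn (fun x => g x ^ 2) K volume :=
    integrableOn_of_bound' hKm hKR (hg.pow_const 2) (M := 1 / 4) fun x _ => by
      rw [abs_pow, show (1:ℝ) / 4 = (1 / 2) ^ 2 by norm_num]
      exact pow_le_pow_left₀ (abs_nonneg _) (hgb x) 2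
  have eA : ∑ i, mass L (A i) = mass L K := hcover hA hAK hAd hAc iw
  have eB : ∑ i, mass L (B i) = mass L K := hcover hB hBK hBd hBc iw
  have eg : ∑ i, ∫ x in B i, g x ^ 2 = ∫ x in K, g x ^ 2 := hcover hB hBK hBd hBc ig2
  set S := ∫ x in K, g x ^ 2
  have hS0 : 0 ≤ S := setIntegral_nonneg hKm fun x _ => sq_nonneg _
  have hdfsum : ∑ i, M i * df i ≤ 96 * S := by
    have h := Finset.sum_le_sum (s := Finset.univ) fun i _ => hdf1 i
    simp only [Finset.sum_add_distrib, ← Finset.mul_sum, Finset.sum_sub_distrib, eA, eB, eg] at h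
    have e : ∑ i, L * M i / 4 * df i = L / 4 * ∑ i, M i * df i := by
      rw [Finset.mul_sum]; exact Finset.sum_congr rfl fun i _ => by ring
    rw [e] at h
    have h2 : L / 4 * ∑ i, M i * df i ≤ L / 4 * (96 * S) := by linarith
    exact le_of_mul_le_mul_left h2 (by positivity)
  have hb0 : ∀ i, 0 ≤ ∫ x in B i, g x ^ 2 := fun i => setIntegral_nonneg (hB i) fun x _ => sq_nonneg _
  refine (Finset.sum_le_sum fun i _ => hdf2 i).trans ?_
  have hcs := Real.sum_mul_le_sqrt_mul_sqrt Finset.univ (fun i => Real.sqrt (M i) * ‖δ i‖)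
    fun i => 8 * L * Real.sqrt (M i * df i) + 10 * R * Real.sqrt (∫ x in B i, g x ^ 2)
  calc _ = ∑ i, Real.sqrt (M i) * ‖δ i‖ *
        (8 * L * Real.sqrt (M i * df i) + 10 * R * Real.sqrt (∫ x in B i, g x ^ 2)) :=
        Finset.sum_congr rfl fun i _ => by ring
    _ ≤ _ := hcs
    _ ≤ Real.sqrt (∑ i, M i * ‖δ i‖ ^ 2) * (200 * L * Real.sqrt S) := by
        refine mul_le_mul (le_of_eq ?_) ?_ (Real.sqrt_nonneg _) (Real.sqrt_nonneg _)
        · congr 1
          exact Finset.sum_congr rfl fun i _ => by rw [mul_pow, Real.sq_sqrt (hM i).le]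
        · rw [← Real.sqrt_sq (by positivity : 0 ≤ 200 * L), ← Real.sqrt_mul (sq_nonneg _)]
          refine Real.sqrt_le_sqrt ?_
          have hterm : ∀ i, (8 * L * Real.sqrt (M i * df i) + 10 * R * Real.sqrt (∫ x in B i, g x ^ 2)) ^ 2
              ≤ 128 * L ^ 2 * (M i * df i) + 200 * R ^ 2 * ∫ x in B i, g x ^ 2 := fun i => by
            nlinarith [Real.sq_sqrt (mul_nonneg (hM i).le (hdf0 i)), Real.sq_sqrt (hb0 i),
              sq_nonneg (8 * L * Real.sqrt (M i * df i) - 10 * R * Real.sqrt (∫ x in B i, g x ^ 2))]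
          refine (Finset.sum_le_sum fun i _ => hterm i).trans ?_
          rw [Finset.sum_add_distrib, ← Finset.mul_sum, ← Finset.mul_sum, eg]
          have h1 := mul_le_mul_of_nonneg_left hdfsum (by positivity : 0 ≤ 128 * L ^ 2)
          have h2' : 200 * R ^ 2 ≤ L := by linarith [sq_nonneg R]
          have hL1 : 1 ≤ L := by linarith [one_le_pow₀ (n := 2) hR]
          have h2 : 200 * R ^ 2 ≤ L ^ 2 := h2'.trans (le_self_pow₀ hL1 two_ne_zero)
          nlinarith [mul_le_mul_of_nonneg_right h2 hS0, mul_nonneg (sq_nonneg L) hS0]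
    _ = _ := by ring

end Vale.Agent.P074
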