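import Mathlib

/-!
Definitions for quadratic optimal transport maps from a uniform source.
-/

noncomputable section

open MeasureTheory Set
open scoped ENNReal

namespace Vale.Agent.P074

/-- Euclidean space of dimension `d`. -/
abbrev Space (d : ℕ) := EuclideanSpace ℝ (Fin d)

variable {d : ℕ}

/-- The uniform probability measure on `K`. -/
def uniformOn (K : Set (Space d)) : Measure (Space d) := (volume K)⁻¹ • volume.restrict K

/-- `T` minimises the quadratic cost among measurable maps pushing `ρ` to `μ`. -/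
def IsOptimalMap (ρ : Measure (Space d)) (T : Space d → Space d) (μ : Measure (Space d)) : Prop :=
  Measurable T ∧ ρ.map T = μ ∧
    ∀ S : Space d → Space d, Measurable S → ρ.map S = μ →
      ∫ x, ‖x - T x‖ ^ 2 ∂ρ ≤ ∫ x, ‖x - S x‖ ^ 2 ∂ρ

/-- `π` is a coupling of `μ` and `ν`. -/
def IsCoupling (π : Measure (Space d × Space d)) (μ ν : Measure (Space d)) : Prop :=
  π.map Prod.fst = μ ∧ π.map Prod.snd = ν

/-- The quadratic Wasserstein distance. -/
def W2 (μ ν : Measure (Space d)) : ℝ :=
  Real.sqrt (sInf {c | ∃ π, IsCoupling π μ ν ∧ c = ∫ p, ‖p.1 - p.2‖ ^ 2 ∂π})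

/-- The first Wasserstein distance. -/
def W1 (μ ν : Measure (Space d)) : ℝ :=
  sInf {c | ∃ π, IsCoupling π μ ν ∧ c = ∫ p, ‖p.1 - p.2‖ ∂π}

/-- The exponent `α` gives a stability estimate for optimal maps in terms of the distance `W`. -/
def StableExponent (d : ℕ) (W : Measure (Space d) → Measure (Space d) → ℝ) (α : ℝ) : Prop :=
  ∀ K : Set (Space d), IsCompact K → Convex ℝ K → (interior K).Nonempty →
    ∀ Y : Set (Space d), IsCompact Y → ∃ C : ℝ,
      ∀ μ ν : Measure (Space d), IsProbabilityMeasure μ → IsProbabilityMeasure ν →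
        μ Yᶜ = 0 → ν Yᶜ = 0 →
        ∀ T S : Space d → Space d,
          IsOptimalMap (uniformOn K) T μ → IsOptimalMap (uniformOn K) S ν →
            Real.sqrt (∫ x, ‖T x - S x‖ ^ 2 ∂uniformOn K) ≤ C * W μ ν ^ α

end Vale.Agent.P074
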