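import Vale.Agent.P074.SemiDiscrete

/-!
Optimality of cell maps and uniqueness of their potentials.
-/

noncomputable section

open MeasureTheory Set Filter
open scoped ENNReal RealInnerProductSpace Topology

namespace Vale.Agent.P074

variable {d : ℕ} {ι : Type*} [Fintype ι]

/-- The discrete probability measure with masses proportional to `M`. -/
def atomic (K : Set (Space d)) (y : ι → Space d) (M : ι → ℝ) : Measure (Space d) :=
  ∑ i, ENNReal.ofReal (M i / volume.real K) • Measure.dirac (y i)

variable {K : Set (Space d)}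

lemma volumeReal_pos (hK : IsCompact K) (hint : (interior K).Nonempty) : 0 < volume.real K :=
  ENNReal.toReal_pos ((isOpen_interior.measure_pos volume hint).trans_le
    (measure_mono interior_subset)).ne' hK.measure_lt_top.ne

lemma integral_uniformOn (f : Space d → ℝ) :
    ∫ x, f x ∂uniformOn K = (volume.real K)⁻¹ * ∫ x in K, f x := by
  rw [uniformOn, integral_smul_measure, ENNReal.toReal_inv, smul_eq_mul]; rfl

lemma ae_uniformOn (hK : IsCompact K) {p : Space d → Prop}
    (h : ∀ᵐ x ∂volume.restrict K, p x) : ∀ᵐ x ∂uniformOn K, p x := by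
  have hk : (volume K)⁻¹ ≠ 0 := ENNReal.inv_ne_zero.mpr hK.measure_lt_top.ne
  rw [ae_iff] at h ⊢
  simp [uniformOn, h]

lemma isProbability_uniformOn (hK : IsCompact K) (hint : (interior K).Nonempty) :
    IsProbabilityMeasure (uniformOn K) := by
  have hpos : 0 < volume K := (isOpen_interior.measure_pos volume hint).trans_le
    (measure_mono interior_subset)
  constructor
  rw [uniformOn, Measure.smul_apply, Measure.restrict_apply_univ, smul_eq_mul]
  exact ENNReal.inv_mul_cancel hpos.ne' hK.measure_lt_top.ne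

variable [Nonempty ι] {y : ι → Space d} {M w : ι → ℝ}

lemma map_cellMap (hA : Admissible K (fun _ => 0) M) (hy : Function.Injective y)
    (hmin : ∀ w', dual K (fun _ => 0) y M w ≤ dual K (fun _ => 0) y M w') :
    (uniformOn K).map (cellMap K y w) = atomic K y M := by
  classical
  have hKm := hA.compact.measurableSet
  have hm := measurable_cellMap hKm y w
  ext s hs
  rw [Measure.map_apply hm hs, uniformOn, Measure.smul_apply, Measure.restrict_apply (hm hs)]
  have hset : (cellMap K y w ⁻¹' s ∩ K : Set (Space d)) =ᵐ[volume]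
      ⋃ i, (if y i ∈ s then cell K y w i else (∅ : Set (Space d))) := by
    have h := (ae_restrict_iff' hKm).mp (ae_mem_cell hKm hy w)
    filter_upwards [h] with x hx
    show (x ∈ cellMap K y w ⁻¹' s ∩ K) = (x ∈ ⋃ i, (if y i ∈ s then cell K y w i else (∅ : Set (Space d))))
    refine propext ⟨fun ⟨h1, h2⟩ => ?_, fun h1 => ?_⟩
    · obtain ⟨i, hi⟩ := mem_iUnion.mp (hx h2)
      rw [mem_preimage, cellMap_of_mem hi] at h1
      exact mem_iUnion.mpr ⟨i, by rwa [if_pos h1]⟩
    · obtain ⟨i, hi⟩ := mem_iUnion.mp h1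
      by_cases hs' : y i ∈ s
      · rw [if_pos hs'] at hi
        exact ⟨by rwa [mem_preimage, cellMap_of_mem hi], hi.1⟩
      · simp [if_neg hs'] at hi
  rw [measure_congr hset, measure_iUnion]
  · rw [tsum_fintype, smul_eq_mul, Finset.mul_sum, atomic, Measure.finsetSum_apply]
    refine Finset.sum_congr rfl fun i _ => ?_
    rw [Measure.smul_apply, Measure.dirac_apply' _ hs, smul_eq_mul]
    by_cases hs' : y i ∈ s
    · rw [if_pos hs', indicator_of_mem hs', Pi.one_apply, mul_one]
      have hfin : volume (cell K y w i) ≠ ⊤ :=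
        ne_top_of_le_ne_top hA.compact.measure_lt_top.ne (measure_mono inter_subset_left)
      have hvol : volume.real (cell K y w i) = M i := by
        have := cell_mass hA hy hmin i
        simpa using this
      rw [ENNReal.ofReal_div_of_pos, ← hvol, measureReal_def, measureReal_def,
        ENNReal.ofReal_toReal hfin, ENNReal.ofReal_toReal hA.compact.measure_lt_top.ne,
        ENNReal.div_eq_inv_mul]
      rw [← hA.mass_sum]
      exact Finset.sum_pos (fun i _ => hA.mass_pos i) Finset.univ_nonempty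
    · rw [if_neg hs', indicator_of_notMem hs', mul_zero, measure_empty, mul_zero]
  · intro i j hij
    exact (disjoint_cell K y w hij).mono
      (by dsimp only; split <;> simp) (by dsimp only; split <;> simp)
  · intro i
    split
    · exact measurableSet_cell hKm y w i
    · exact MeasurableSet.empty

lemma isOptimal_cellMap (hA : Admissible K (fun _ => 0) M) (hint : (interior K).Nonempty)
    (hy : Function.Injective y)
    (hmin : ∀ w', dual K (fun _ => 0) y M w ≤ dual K (fun _ => 0) y M w') :
    IsOptimalMap (uniformOn K) (cellMap K y w) (atomic K y M) := by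
  classical
  have hK := hA.compact
  have hKm := hK.measurableSet
  have := isProbability_uniformOn hK hint
  set ρ := uniformOn K with hρ
  set T := cellMap K y w with hT
  have hTm : Measurable T := measurable_cellMap hKm y w
  refine ⟨hTm, map_cellMap hA hy hmin, fun S hS hmap => ?_⟩
  set c : Space d → ℝ := fun p => ∑ i, ({y i} : Set (Space d)).indicator (fun _ => -w i) p with hc
  have hcm : Measurable c := Finset.measurable_fun_sum _ fun i _ =>
    measurable_const.indicator (measurableSet_singleton _)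
  have hci : ∀ i, c (y i) = -w i := fun i => by
    simp only [hc]
    rw [Finset.sum_eq_single i]
    · simp
    · intro j _ hji
      exact indicator_of_notMem (by simp [hy.ne hji.symm]) _
    · simp
  have hTp : ∀ᵐ x ∂ρ, T x ∈ range y ∧ ⟪x, T x⟫ + c (T x) = pot y w x := by
    refine ae_uniformOn hK ((ae_mem_cell hKm hy w).mono fun x hx => ?_)
    obtain ⟨i, hi⟩ := mem_iUnion.mp hx
    rw [hT, cellMap_of_mem hi, hci, pot_eq_of_mem hi]
    exact ⟨mem_range_self i, by ring⟩
  have hSr : ∀ᵐ x ∂ρ, S x ∈ range y := by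
    have h1 : ∀ᵐ p ∂ρ.map T, p ∈ range y :=
      (ae_map_iff hTm.aemeasurable (finite_range y).measurableSet).mpr (hTp.mono fun x hx => hx.1)
    rw [hT, map_cellMap hA hy hmin, ← hmap] at h1
    exact ae_of_ae_map hS.aemeasurable h1
  obtain ⟨RK, hRK⟩ := hK.isBounded.exists_norm_le
  obtain ⟨RY, hRY⟩ := (finite_range y).isBounded.exists_norm_le
  obtain ⟨Bc, hBc⟩ := ((finite_range y).image fun p => |c p|).bddAbove
  have hx : ∀ᵐ x ∂ρ, ‖x‖ ≤ RK := ae_uniformOn hK ((ae_restrict_mem hKm).mono fun x hx => hRK x hx)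
  have hint' : ∀ U : Space d → Space d, Measurable U → (∀ᵐ x ∂ρ, U x ∈ range y) →
      Integrable (fun x => 2 * (⟪x, U x⟫ + c (U x))) ρ ∧
      Integrable (fun x => ‖U x‖ ^ 2 + 2 * c (U x)) ρ ∧ Integrable (fun x => ‖x‖ ^ 2) ρ := by
    intro U hU hUr
    refine ⟨Integrable.of_bound (((measurable_id.inner hU).add (hcm.comp hU)).const_mul 2
      ).aestronglyMeasurable (2 * (RK * RY + Bc)) ?_,
      Integrable.of_bound ((hU.norm.pow_const 2).add ((hcm.comp hU).const_mul 2)
      ).aestronglyMeasurable (RY ^ 2 + 2 * Bc) ?_,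
      Integrable.of_bound (measurable_norm.pow_const 2).aestronglyMeasurable (RK ^ 2) ?_⟩
    · filter_upwards [hx, hUr] with x h1 h2
      have h3 := (abs_real_inner_le_norm x (U x)).trans
        (mul_le_mul h1 (hRY _ h2) (norm_nonneg _) ((norm_nonneg x).trans h1))
      rw [Real.norm_eq_abs, abs_mul, abs_two]
      linarith [abs_add_le ⟪x, U x⟫ (c (U x)), hBc (mem_image_of_mem (fun p => |c p|) h2)]
    · filter_upwards [hUr] with x h2
      rw [Real.norm_eq_abs]
      refine (abs_add_le _ _).trans (add_le_add ?_ ?_)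
      · rw [abs_pow, abs_norm]; exact pow_le_pow_left₀ (norm_nonneg _) (hRY _ h2) 2
      · rw [abs_mul, abs_two]
        exact mul_le_mul_of_nonneg_left (hBc (mem_image_of_mem (fun p => |c p|) h2)) two_pos.le
    · filter_upwards [hx] with x h1
      rw [Real.norm_eq_abs, abs_pow, abs_norm]
      exact pow_le_pow_left₀ (norm_nonneg _) h1 2
  have key : ∀ U : Space d → Space d, Measurable U → (∀ᵐ x ∂ρ, U x ∈ range y) →
      ρ.map U = ρ.map T → ∫ x, ‖x - U x‖ ^ 2 ∂ρ = ∫ x, ‖x‖ ^ 2 ∂ρ
        + ∫ p, (‖p‖ ^ 2 + 2 * c p) ∂ρ.map T - ∫ x, 2 * (⟪x, U x⟫ + c (U x)) ∂ρ := by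
    intro U hU hUr hlaw
    obtain ⟨i1, i2, i3⟩ := hint' U hU hUr
    rw [← hlaw, integral_map hU.aemeasurable (f := fun p => ‖p‖ ^ 2 + 2 * c p)
      ((measurable_norm.pow_const 2).add (hcm.const_mul 2)).aestronglyMeasurable,
      ← integral_add i3 i2, ← integral_sub (i3.fun_add i2) i1]
    refine integral_congr_ae (Eventually.of_forall fun x => ?_)
    simp only [norm_sub_sq_real]; ring
  rw [key T hTm (hTp.mono fun x hx => hx.1) rfl,
    key S hS hSr (hmap.trans (map_cellMap hA hy hmin).symm)]
  have hle : ∫ x, 2 * (⟪x, S x⟫ + c (S x)) ∂ρ ≤ ∫ x, 2 * (⟪x, T x⟫ + c (T x)) ∂ρ := by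
    refine integral_mono_ae (hint' S hS hSr).1 (hint' T hTm (hTp.mono fun x hx => hx.1)).1 ?_
    filter_upwards [hSr, hTp] with x hx' hx''
    obtain ⟨i, hi⟩ := hx'
    rw [← hi, hci, hx''.2]
    linarith [le_pot y w x i]
  linarith

omit [Nonempty ι] in
/-- Two continuous convex potentials with a common bounded subgradient field differ by a constant. -/
lemma potentials_sub_const (hK : IsCompact K) (hconv : Convex ℝ K) (hint : (interior K).Nonempty)
    {φ ψ : Space d → ℝ} (hφ : Continuous φ) (hψ : Continuous ψ) {G : Space d → Space d} {R : ℝ}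
    (hGR : ∀ x, ‖G x‖ ≤ R)
    (hG : ∀ᵐ x ∂volume.restrict K, (∀ p, φ x + ⟪G x, p - x⟫ ≤ φ p) ∧ ∀ p, ψ x + ⟪G x, p - x⟫ ≤ ψ p) :
    ∃ c : ℝ, ∀ x ∈ K, φ x - ψ x = c := by
  set f : Space d → ℝ := fun x => φ x - ψ x with hf
  have hfc : Continuous f := hφ.sub hψ
  have hG' := (ae_restrict_iff' hK.measurableSet).mp hG
  have hae : ∀ v : Space d, ∀ᵐ x : Space d, x ∈ K → x + v ∈ K → f (x + v) = f x := by
    intro v
    have hall : ∀ᵐ x : Space d, ∀ n k : ℕ, x + ((k : ℝ) / (n + 1)) • v ∈ K →
        (∀ p, φ (x + ((k : ℝ) / (n + 1)) • v) + ⟪G (x + ((k : ℝ) / (n + 1)) • v),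
          p - (x + ((k : ℝ) / (n + 1)) • v)⟫ ≤ φ p) ∧
        ∀ p, ψ (x + ((k : ℝ) / (n + 1)) • v) + ⟪G (x + ((k : ℝ) / (n + 1)) • v),
          p - (x + ((k : ℝ) / (n + 1)) • v)⟫ ≤ ψ p :=
      ae_all_iff.mpr fun n => ae_all_iff.mpr fun k =>
        (measurePreserving_add_right volume (((k : ℝ) / (n + 1)) • v)).quasiMeasurePreserving.ae hG'
    filter_upwards [hall] with x hx hxK hxvK
    refine sub_eq_zero.mp (abs_nonpos_iff.mp (le_of_forall_pos_le_add fun ε hε => ?_))
    obtain ⟨n, hn⟩ := exists_nat_gt (2 * R * ‖v‖ / ε)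
    set P : ℕ → Space d := fun k => x + ((k : ℝ) / (n + 1)) • v with hP
    have hPK : ∀ k ≤ n + 1, P k ∈ K := fun k hk => by
      have h0 : (0 : ℝ) ≤ (k : ℝ) / (n + 1) := by positivity
      have h1 : (k : ℝ) / (n + 1) ≤ 1 := by
        rw [div_le_one (by positivity)]; exact_mod_cast hk
      have := hconv hxK hxvK (by linarith : 0 ≤ 1 - (k : ℝ) / (n + 1)) h0 (by ring)
      convert this using 1
      simp only [hP]; module
    have hu : ∀ k, P (k + 1) - P k = ((1 : ℝ) / (n + 1)) • v := fun k => by
      simp only [hP]; push_cast; module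
    have hstep : ∀ k ∈ Finset.range (n + 1), |f (P (k + 1)) - f (P k)| ≤
        ⟪G (P (k + 1)), P (k + 1) - P k⟫ - ⟪G (P k), P (k + 1) - P k⟫ := by
      intro k hk
      rw [Finset.mem_range] at hk
      obtain ⟨a1, a2⟩ := hx n k (hPK k (by omega))
      obtain ⟨b1, b2⟩ := hx n (k + 1) (hPK (k + 1) (by omega))
      have u1 := a1 (P (k + 1))
      have u2 := a2 (P (k + 1))
      have v1 := b1 (P k)
      have v2 := b2 (P k)
      rw [show P k - (x + (((k + 1 : ℕ) : ℝ) / (n + 1)) • v) = -(P (k + 1) - P k) by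
        simp only [hP]; abel, inner_neg_right] at v1 v2
      simp only [hf, hP] at *
      rw [abs_le]; constructor <;> linarith
    have htel : f (P (n + 1)) - f (P 0) = ∑ k ∈ Finset.range (n + 1), (f (P (k + 1)) - f (P k)) :=
      (Finset.sum_range_sub (fun k => f (P k)) (n + 1)).symm
    have hsum : ∑ k ∈ Finset.range (n + 1),
        (⟪G (P (k + 1)), P (k + 1) - P k⟫ - ⟪G (P k), P (k + 1) - P k⟫) =
        ⟪G (P (n + 1)), ((1 : ℝ) / (n + 1)) • v⟫ - ⟪G (P 0), ((1 : ℝ) / (n + 1)) • v⟫ := by
      simp only [hu]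
      exact Finset.sum_range_sub (fun k => ⟪G (P k), ((1 : ℝ) / (n + 1)) • v⟫) (n + 1)
    have h0 : P 0 = x := by simp [hP]
    have h1 : P (n + 1) = x + v := by
      simp only [hP]; push_cast
      rw [div_self (by positivity), one_smul]
    have hmain := (Finset.abs_sum_le_sum_abs _ _).trans (Finset.sum_le_sum hstep)
    rw [hsum, ← htel, h0, h1] at hmain
    refine hmain.trans ?_
    rw [zero_add, inner_smul_right, inner_smul_right, ← mul_sub, one_div_mul_eq_div,
      div_le_iff₀ (by positivity)]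
    have h2 : ∀ p : Space d, |⟪G p, v⟫| ≤ R * ‖v‖ := fun p =>
      (abs_real_inner_le_norm _ _).trans (mul_le_mul_of_nonneg_right (hGR p) (norm_nonneg _))
    have h3 := abs_le.mp (h2 (x + v))
    have h4 := abs_le.mp (h2 x)
    rw [div_lt_iff₀ hε] at hn
    linarith
  have hint_eq : ∀ a ∈ interior K, ∀ b ∈ interior K, f b = f a := by
    intro a ha b hb
    set v := b - a
    set U := interior K ∩ {x | x + v ∈ interior K} with hU
    have hUo : IsOpen U := isOpen_interior.inter (isOpen_interior.preimage (by fun_prop))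
    have heq : (fun x => f (x + v)) =ᵐ[volume.restrict U] f := by
      filter_upwards [ae_restrict_of_ae (hae v), ae_restrict_mem hUo.measurableSet] with x hx hxU
      exact hx (interior_subset hxU.1) (interior_subset hxU.2)
    have := Measure.eqOn_open_of_ae_eq heq hUo (hfc.comp (continuous_id.add continuous_const)).continuousOn
      hfc.continuousOn (show a ∈ U from ⟨ha, by simpa [v] using hb⟩)
    simpa [v] using this
  obtain ⟨a, ha⟩ := hint
  refine ⟨f a, fun x hx => ?_⟩
  have hcl : x ∈ closure (interior K) := by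
    rw [hconv.closure_interior_eq_closure_of_nonempty_interior ⟨a, ha⟩]
    exact subset_closure hx
  exact Set.EqOn.closure (f := f) (g := fun _ => f a) (fun b hb => hint_eq a ha b hb) hfc
    continuous_const hcl

/-- Minimisers have potentials equal up to a constant. -/
lemma pot_unique [NeZero d] (hA : Admissible K (fun _ => 0) M) (hconv : Convex ℝ K)
    (hint : (interior K).Nonempty) (hy : Function.Injective y) {w' : ι → ℝ}
    (hmin : ∀ v, dual K (fun _ => 0) y M w ≤ dual K (fun _ => 0) y M v)
    (hmin' : ∀ v, dual K (fun _ => 0) y M w' ≤ dual K (fun _ => 0) y M v) :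
    ∃ c : ℝ, ∀ x ∈ K, pot y w x - pot y w' x = c := by
  have hK := hA.compact
  have hKm := hK.measurableSet
  have := isProbability_uniformOn hK hint
  obtain ⟨C, -, hC⟩ := sq_dist_maps_le hK hconv hint (finite_range y).isCompact
  set μ := atomic K y M with hμ
  have hT := isOptimal_cellMap hA hint hy hmin
  have hT' := isOptimal_cellMap hA hint hy hmin'
  have hμp : IsProbabilityMeasure μ := by
    rw [hμ, ← hT.2.1]; exact Measure.isProbabilityMeasure_map hT.1.aemeasurable
  have hsupp : μ (range y)ᶜ = 0 := by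
    rw [hμ, ← hT.2.1, Measure.map_apply hT.1 (finite_range y).measurableSet.compl]
    refine measure_eq_zero_iff_ae_notMem.mpr (ae_uniformOn hK ((ae_mem_cell hKm hy w).mono fun x hx => ?_))
    obtain ⟨i, hi⟩ := mem_iUnion.mp hx
    simp [cellMap_of_mem hi]
  have h0 := hC μ μ hμp hμp hsupp hsupp _ _ hT hT' (μ.map fun p => (p, p))
    ⟨by rw [Measure.map_map measurable_fst (by fun_prop)]; exact Measure.map_id,
     by rw [Measure.map_map measurable_snd (by fun_prop)]; exact Measure.map_id⟩
  rw [integral_map (by fun_prop) (by fun_prop)] at h0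
  simp only [sub_self, norm_zero, integral_zero, Real.sqrt_zero, mul_zero, integral_uniformOn] at h0
  obtain ⟨RY, hRY⟩ := (finite_range y).isBounded.exists_norm_le
  have hbd : ∀ v : ι → ℝ, ∀ᵐ x ∂volume.restrict K, ‖cellMap K y v x‖ ≤ RY :=
    fun v => (ae_mem_cell hKm hy v).mono fun x hx => by
      obtain ⟨i, hi⟩ := mem_iUnion.mp hx
      rw [cellMap_of_mem hi]; exact hRY _ (mem_range_self i)
  have : IsFiniteMeasure (volume.restrict K) := isFiniteMeasure_restrict.mpr hK.measure_lt_top.ne
  have hi2 : Integrable (fun x => ‖cellMap K y w x - cellMap K y w' x‖ ^ 2) (volume.restrict K) :=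
    Integrable.of_bound ((hT.1.sub hT'.1).norm.pow_const 2).aestronglyMeasurable ((RY + RY) ^ 2)
      (by
        filter_upwards [hbd w, hbd w'] with x h1 h2
        rw [Real.norm_eq_abs, abs_pow, abs_norm]
        exact pow_le_pow_left₀ (norm_nonneg _) ((norm_sub_le _ _).trans (add_le_add h1 h2)) 2)
  have hz : ∫ x in K, ‖cellMap K y w x - cellMap K y w' x‖ ^ 2 = 0 := by
    refine le_antisymm ?_ (integral_nonneg fun x => by positivity)
    exact (mul_le_mul_iff_of_pos_left (inv_pos.mpr (volumeReal_pos hK hint))).mp (by simpa using h0)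
  have heq := (integral_eq_zero_iff_of_nonneg (fun x => by positivity) hi2).mp hz
  have hRY0 : 0 ≤ RY := (norm_nonneg _).trans (hRY _ (mem_range_self (Classical.arbitrary ι)))
  refine potentials_sub_const hK hconv hint (continuous_pot y w) (continuous_pot y w')
    (G := clamp K RY (cellMap K y w)) (norm_clamp_le K hRY0 _) ?_
  have sub : ∀ v : ι → ℝ, ∀ x : Space d, ∀ i, x ∈ cell K y v i → ∀ p,
      pot y v x + ⟪y i, p - x⟫ ≤ pot y v p := fun v x i hi p => by
    rw [pot_eq_of_mem hi, inner_sub_right, real_inner_comm x, real_inner_comm p]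
    linarith [le_pot y v p i]
  filter_upwards [heq, ae_mem_cell hKm hy w, ae_mem_cell hKm hy w', ae_restrict_mem hKm, hbd w]
    with x hx h1 h2 h3 h4
  obtain ⟨i, hi⟩ := mem_iUnion.mp h1
  obtain ⟨j, hj⟩ := mem_iUnion.mp h2
  have he : cellMap K y w x = cellMap K y w' x := by
    simpa [sub_eq_zero] using hx
  have hcl : clamp K RY (cellMap K y w) x = cellMap K y w x := by
    simp [clamp, indicator_of_mem h3, h4]
  refine ⟨fun p => ?_, fun p => ?_⟩
  · rw [hcl, cellMap_of_mem hi]; exact sub w x i hi p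
  · rw [hcl, he, cellMap_of_mem hj]; exact sub w' x j hj p

end Vale.Agent.P074
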