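import Vale.Agent.P074.Defs

/-!
Three atom targets showing that no exponent above one third is admissible.
-/

noncomputable section

open MeasureTheory Set Filter
open scoped ENNReal RealInnerProductSpace Topology

namespace Vale.Agent.P074.Example

variable {n : ℕ}

/-- The centred unit cube. -/
def cube (n : ℕ) : Set (Space (n + 2)) := {x | ∀ i, x i ∈ Icc (-1/2 : ℝ) (1/2)}

/-- Reflection of the second coordinate. -/
def flip (n : ℕ) : Space (n + 2) ≃ₗᵢ[ℝ] Space (n + 2) :=
  LinearIsometryEquiv.piLpCongrRight 2 fun i =>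
    if i = 1 then LinearIsometryEquiv.neg ℝ else LinearIsometryEquiv.refl ℝ ℝ

lemma flip_coord (x : Space (n + 2)) (i : Fin (n + 2)) :
    flip n x i = if i = 1 then -x i else x i := by
  by_cases h : i = 1
  · simp [flip, LinearIsometryEquiv.piLpCongrRight_apply, h]
  · simp [flip, LinearIsometryEquiv.piLpCongrRight_apply, h]

lemma flip_flip (x : Space (n + 2)) : flip n (flip n x) = x := by
  ext i; simp [flip_coord]; split <;> simp

/-- The first unit vector. -/
def e0 (n : ℕ) : Space (n + 2) := EuclideanSpace.single 0 1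

/-- The second unit vector. -/
def e1 (n : ℕ) : Space (n + 2) := EuclideanSpace.single 1 1

/-- The height of the middle plane. -/
def height (δ : ℝ) (x : Space (n + 2)) : ℝ := δ * (1/2 + x 1)

/-- The upper map. -/
def mapUp (δ : ℝ) (x : Space (n + 2)) : Space (n + 2) :=
  if |x 0| < height δ x then δ • e1 n else if 0 ≤ x 0 then e0 n else -e0 n

/-- The lower map. -/
def mapDown (δ : ℝ) (x : Space (n + 2)) : Space (n + 2) := flip n (mapUp δ (flip n x))

/-- The intercepts of the three planes. -/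
def icpt (δ : ℝ) (y : Space (n + 2)) : ℝ := if y 0 = 0 then δ / 2 else 0

lemma measurable_coord (i : Fin (n + 2)) : Measurable fun x : Space (n + 2) => x i := by
  fun_prop

lemma measurable_mapUp (δ : ℝ) : Measurable (mapUp (n := n) δ) := by
  unfold mapUp
  refine Measurable.ite ?_ measurable_const (Measurable.ite ?_ measurable_const measurable_const)
  · exact measurableSet_lt (measurable_coord 0).abs
      ((measurable_const.add (measurable_coord 1)).const_mul δ)
  · exact measurableSet_le measurable_const (measurable_coord 0)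

lemma measurable_mapDown (δ : ℝ) : Measurable (mapDown (n := n) δ) :=
  (flip n).continuous.measurable.comp ((measurable_mapUp δ).comp (flip n).continuous.measurable)

lemma measurable_icpt (δ : ℝ) : Measurable (icpt (n := n) δ) :=
  Measurable.ite (measurableSet_eq_fun (measurable_coord 0) measurable_const) measurable_const
    measurable_const

lemma inner_e0 (x : Space (n + 2)) : ⟪x, e0 n⟫ = x 0 := by
  simp [e0, EuclideanSpace.inner_single_right]

lemma inner_e1 (x : Space (n + 2)) : ⟪x, e1 n⟫ = x 1 := by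
  simp [e1, EuclideanSpace.inner_single_right]

lemma mapUp_mem (δ : ℝ) (x : Space (n + 2)) :
    mapUp δ x = δ • e1 n ∨ mapUp δ x = e0 n ∨ mapUp δ x = -e0 n := by
  unfold mapUp; split
  · exact Or.inl rfl
  · split
    · exact Or.inr (Or.inl rfl)
    · exact Or.inr (Or.inr rfl)

lemma norm_mapUp_le {δ : ℝ} (hδ : |δ| ≤ 1) (x : Space (n + 2)) : ‖mapUp δ x‖ ≤ 1 := by
  rcases mapUp_mem δ x with h | h | h <;> rw [h] <;>
    simp [e0, e1, norm_smul, hδ]

/-- The supporting plane property. -/
lemma plane_le (δ : ℝ) (x y : Space (n + 2)) :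
    ⟪x, mapUp δ y⟫ + icpt δ (mapUp δ y) ≤ ⟪x, mapUp δ x⟫ + icpt δ (mapUp δ x) := by
  have ev : ∀ z : Space (n + 2), (z = δ • e1 n → ⟪x, z⟫ + icpt δ z = height δ x) ∧
      (z = e0 n → ⟪x, z⟫ + icpt δ z = x 0) ∧ (z = -e0 n → ⟪x, z⟫ + icpt δ z = -x 0) := by
    intro z
    refine ⟨?_, ?_, ?_⟩
    · rintro rfl
      rw [inner_smul_right, inner_e1]
      simp [icpt, e1, height]; ring
    · rintro rfl
      rw [inner_e0]
      simp [icpt, e0]
    · rintro rfl
      rw [inner_neg_right, inner_e0]
      simp [icpt, e0]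
  have hmax : ⟪x, mapUp δ x⟫ + icpt δ (mapUp δ x) = max |x 0| (height δ x) := by
    by_cases h : |x 0| < height δ x
    · have e : mapUp δ x = δ • e1 n := if_pos h
      rw [(ev _).1 e, max_eq_right h.le]
    · rw [max_eq_left (le_of_not_gt h)]
      by_cases h' : 0 ≤ x 0
      · have e : mapUp δ x = e0 n := by simp [mapUp, h, h']
        rw [(ev _).2.1 e, abs_of_nonneg h']
      · have e : mapUp δ x = -e0 n := by simp [mapUp, h, h']
        rw [(ev _).2.2 e, abs_of_neg (lt_of_not_ge h')]
  rw [hmax]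
  rcases mapUp_mem δ y with h | h | h
  · rw [(ev _).1 h]; exact le_max_right _ _
  · rw [(ev _).2.1 h]; exact le_max_of_le_left (le_abs_self _)
  · rw [(ev _).2.2 h]; exact le_max_of_le_left (neg_le_abs _)

lemma plane_le_down (δ : ℝ) (x y : Space (n + 2)) :
    ⟪x, mapDown δ y⟫ + icpt δ (mapDown δ y) ≤ ⟪x, mapDown δ x⟫ + icpt δ (mapDown δ x) := by
  have hc : ∀ z, icpt δ (flip n z) = icpt δ z := fun z => by
    simp [icpt, flip_coord]
  have hi : ∀ z, ⟪x, flip n z⟫ = ⟪flip n x, z⟫ := fun z => by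
    conv_lhs => rw [← flip_flip x]
    exact (flip n).inner_map_map _ _
  simp only [mapDown, hc, hi]
  exact plane_le δ _ _

lemma isCompact_cube : IsCompact (cube n) := by
  have : cube n = (EuclideanSpace.equiv (Fin (n + 2)) ℝ).symm ''
      (univ.pi fun _ => Icc (-1/2 : ℝ) (1/2)) := by
    rw [ContinuousLinearEquiv.image_symm_eq_preimage]
    ext x; simp [cube, Pi.le_def, forall_and]
  rw [this]
  exact (isCompact_univ_pi fun _ => isCompact_Icc).image (ContinuousLinearEquiv.continuous _)

lemma convex_cube : Convex ℝ (cube n) := by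
  intro x hx y hy a b ha hb hab i
  simpa using convex_Icc (-1/2 : ℝ) (1/2) (hx i) (hy i) ha hb hab

lemma interior_cube : (interior (cube n)).Nonempty := by
  refine ⟨0, mem_interior.mpr ⟨{x | ∀ i, x i ∈ Ioo (-1/2 : ℝ) (1/2)}, fun x hx i =>
    Ioo_subset_Icc_self (hx i), ?_, fun i => by norm_num⟩⟩
  simp only [setOf_forall]
  exact isOpen_iInter_of_finite fun i => isOpen_Ioo.preimage (by fun_prop)

lemma volume_box (a b : Fin (n + 2) → ℝ) :
    volume {x : Space (n + 2) | ∀ i, x i ∈ Icc (a i) (b i)} = ∏ i, ENNReal.ofReal (b i - a i) := by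
  have : {x : Space (n + 2) | ∀ i, x i ∈ Icc (a i) (b i)} =
      (@WithLp.ofLp 2 (Fin (n + 2) → ℝ)) ⁻¹' (univ.pi fun i => Icc (a i) (b i)) := by
    ext x; simp [Pi.le_def, forall_and]
  rw [this, (PiLp.volume_preserving_ofLp (Fin (n + 2))).measure_preimage
    (MeasurableSet.univ_pi fun i => measurableSet_Icc).nullMeasurableSet, volume_pi_pi]
  simp [Real.volume_Icc]

lemma uniform_cube : uniformOn (cube n) = volume.restrict (cube n) := by
  have : volume (cube n) = 1 := by
    rw [cube, volume_box (fun _ => -1/2) fun _ => 1/2]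
    norm_num
  simp [uniformOn, this]

instance : IsProbabilityMeasure (volume.restrict (cube n)) := by
  constructor
  rw [Measure.restrict_apply_univ, cube, volume_box (fun _ => -1/2) fun _ => 1/2]
  norm_num

lemma map_flip : (volume.restrict (cube n)).map (flip n) = volume.restrict (cube n) := by
  have hp := (flip n).measurePreserving
  have hpre : flip n ⁻¹' cube n = cube n := by
    ext x
    simp only [cube, mem_preimage, mem_setOf_eq, flip_coord]
    refine forall_congr' fun i => ?_
    split <;> simp only [mem_Icc] <;> constructor <;> rintro ⟨u, v⟩ <;> constructor <;> linarith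
  conv_lhs => rw [← hpre]
  exact (hp.restrict_preimage isCompact_cube.measurableSet).map_eq

/-- The upper target. -/
def targetUp (n : ℕ) (δ : ℝ) : Measure (Space (n + 2)) :=
  (volume.restrict (cube n)).map (mapUp δ)

/-- The lower target. -/
def targetDown (n : ℕ) (δ : ℝ) : Measure (Space (n + 2)) :=
  (volume.restrict (cube n)).map (mapDown δ)

lemma norm_le_cube {x : Space (n + 2)} (hx : x ∈ cube n) : ‖x‖ ≤ (n : ℝ) + 2 := by
  have h : ‖x‖ ^ 2 ≤ ((n : ℝ) + 2) ^ 2 := by
    rw [EuclideanSpace.real_norm_sq_eq]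
    calc ∑ i, x i ^ 2 ≤ ∑ _i : Fin (n + 2), (1 : ℝ) := Finset.sum_le_sum fun i _ => by
          obtain ⟨h1, h2⟩ := hx i
          nlinarith
      _ ≤ _ := by simp; nlinarith
  exact (pow_le_pow_iff_left₀ (norm_nonneg _) (by positivity) two_ne_zero).mp h

/-- A map lying on supporting planes of a common convex function is optimal. -/
lemma optimal_of_planes {T : Space (n + 2) → Space (n + 2)} (hT : Measurable T)
    (hb : ∀ x, ‖T x‖ ≤ 1) (hatom : (range T).Finite) {c : Space (n + 2) → ℝ} (hc : Measurable c)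
    {M : ℝ} (hM : ∀ y, |c y| ≤ M) (h : ∀ x y, ⟪x, T y⟫ + c (T y) ≤ ⟪x, T x⟫ + c (T x)) :
    IsOptimalMap (volume.restrict (cube n)) T ((volume.restrict (cube n)).map T) := by
  set ρ := volume.restrict (cube n)
  refine ⟨hT, rfl, fun S hS hmap => ?_⟩
  have hTae : ∀ᵐ z ∂ρ.map T, z ∈ range T :=
    (ae_map_iff hT.aemeasurable hatom.measurableSet).mpr (Eventually.of_forall mem_range_self)
  have hSr : ∀ᵐ x ∂ρ, S x ∈ range T := by
    rw [← hmap] at hTae
    exact ae_of_ae_map hS.aemeasurable hTae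
  have hSb : ∀ᵐ x ∂ρ, ‖S x‖ ≤ 1 := hSr.mono fun x ⟨y, hy⟩ => hy ▸ hb y
  have hx : ∀ᵐ x ∂ρ, ‖x‖ ≤ (n : ℝ) + 2 :=
    (ae_restrict_mem isCompact_cube.measurableSet).mono fun x hx => norm_le_cube hx
  have hint : ∀ R : Space (n + 2) → Space (n + 2), Measurable R → (∀ᵐ x ∂ρ, ‖R x‖ ≤ 1) →
      Integrable (fun x => 2 * (⟪x, R x⟫ + c (R x))) ρ ∧
      Integrable (fun x => ‖R x‖ ^ 2 + 2 * c (R x)) ρ ∧ Integrable (fun x => ‖x‖ ^ 2) ρ := by
    intro R hR hRb
    refine ⟨Integrable.of_bound (((measurable_id.inner hR).add (hc.comp hR)).const_mul 2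
      ).aestronglyMeasurable (2 * ((n + 2) + M)) ?_,
      Integrable.of_bound ((hR.norm.pow_const 2).add ((hc.comp hR).const_mul 2)
      ).aestronglyMeasurable (1 + 2 * M) ?_,
      Integrable.of_bound (measurable_norm.pow_const 2).aestronglyMeasurable (((n:ℝ) + 2) ^ 2) ?_⟩
    · filter_upwards [hx, hRb] with x h1 h2
      have := abs_real_inner_le_norm x (R x)
      have h3 : ‖x‖ * ‖R x‖ ≤ (n : ℝ) + 2 := by nlinarith [norm_nonneg x]
      rw [Real.norm_eq_abs, abs_mul, abs_two]
      nlinarith [abs_add_le ⟪x, R x⟫ (c (R x)), hM (R x)]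
    · filter_upwards [hRb] with x h2
      have h4 : ‖R x‖ ^ 2 ≤ 1 := pow_le_one₀ (norm_nonneg _) h2
      rw [Real.norm_eq_abs, abs_le]
      have := abs_le.mp (hM (R x))
      constructor <;> nlinarith [sq_nonneg ‖R x‖]
    · filter_upwards [hx] with x h1
      rw [Real.norm_eq_abs, abs_pow, abs_norm]
      exact pow_le_pow_left₀ (norm_nonneg _) h1 2
  have key : ∀ R : Space (n + 2) → Space (n + 2), Measurable R → (∀ᵐ x ∂ρ, ‖R x‖ ≤ 1) →
      ρ.map R = ρ.map T → ∫ x, ‖x - R x‖ ^ 2 ∂ρ = ∫ x, ‖x‖ ^ 2 ∂ρ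
        + ∫ y, (‖y‖ ^ 2 + 2 * c y) ∂ρ.map T - ∫ x, 2 * (⟪x, R x⟫ + c (R x)) ∂ρ := by
    intro R hR hRb hlaw
    obtain ⟨i1, i2, i3⟩ := hint R hR hRb
    rw [← hlaw, integral_map hR.aemeasurable (f := fun y => ‖y‖ ^ 2 + 2 * c y)
      ((measurable_norm.pow_const 2).add (hc.const_mul 2)).aestronglyMeasurable,
      ← integral_add i3 i2, ← integral_sub (i3.fun_add i2) i1]
    refine integral_congr_ae (Eventually.of_forall fun x => ?_)
    simp only [norm_sub_sq_real]; ring
  rw [key T hT (Eventually.of_forall hb) rfl, key S hS hSb hmap]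
  have hle : ∫ x, 2 * (⟪x, S x⟫ + c (S x)) ∂ρ ≤ ∫ x, 2 * (⟪x, T x⟫ + c (T x)) ∂ρ := by
    refine integral_mono_ae (hint S hS hSb).1 (hint T hT (Eventually.of_forall hb)).1 ?_
    filter_upwards [hSr] with x hx'
    obtain ⟨y, hy⟩ := hx'
    rw [← hy]
    linarith [h x y]
  linarith

lemma optimal_up {δ : ℝ} (hδ : |δ| ≤ 1) :
    IsOptimalMap (uniformOn (cube n)) (mapUp δ) (targetUp n δ) := by
  rw [uniform_cube]
  refine optimal_of_planes (measurable_mapUp δ) (norm_mapUp_le hδ) ?_ (measurable_icpt δ)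
    (M := 1) (fun y => ?_) (plane_le δ)
  · refine ({δ • e1 n, e0 n, -e0 n} : Set (Space (n + 2))).toFinite.subset ?_
    rintro _ ⟨x, rfl⟩
    rcases mapUp_mem δ x with h | h | h <;> simp [h]
  · unfold icpt
    split
    · rw [abs_div, abs_two]; linarith
    · simp

lemma optimal_down {δ : ℝ} (hδ : |δ| ≤ 1) :
    IsOptimalMap (uniformOn (cube n)) (mapDown δ) (targetDown n δ) := by
  rw [uniform_cube]
  refine optimal_of_planes (measurable_mapDown δ)
    (fun x => by rw [mapDown, LinearIsometryEquiv.norm_map]; exact norm_mapUp_le hδ _) ?_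
    (measurable_icpt δ) (M := 1) (fun y => ?_) (plane_le_down δ)
  · refine (({δ • e1 n, e0 n, -e0 n} : Set (Space (n + 2))).toFinite.image (flip n)).subset ?_
    rintro _ ⟨x, rfl⟩
    exact ⟨mapUp δ (flip n x), by rcases mapUp_mem δ (flip n x) with h | h | h <;> simp [h], rfl⟩
  · unfold icpt
    split
    · rw [abs_div, abs_two]; linarith
    · simp

/-- The coupling of the two targets. -/
def plan (n : ℕ) (δ : ℝ) : Measure (Space (n + 2) × Space (n + 2)) :=
  (volume.restrict (cube n)).map fun x => (mapUp δ x, flip n (mapUp δ x))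

lemma isCoupling_plan (δ : ℝ) : IsCoupling (plan n δ) (targetUp n δ) (targetDown n δ) := by
  have hm : Measurable fun x : Space (n + 2) => (mapUp δ x, flip n (mapUp δ x)) :=
    (measurable_mapUp δ).prodMk ((flip n).continuous.measurable.comp (measurable_mapUp δ))
  refine ⟨?_, ?_⟩
  · rw [plan, Measure.map_map measurable_fst hm]; rfl
  · rw [plan, Measure.map_map measurable_snd hm, targetDown]
    conv_rhs => rw [← map_flip (n := n)]
    rw [Measure.map_map (measurable_mapDown δ) (flip n).continuous.measurable]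
    congr 1
    funext x
    simp [mapDown, flip_flip]

lemma cost_le {δ : ℝ} (hδ : 0 ≤ δ) {q : ℕ} (hq : q ≠ 0) :
    ∫ p, ‖p.1 - p.2‖ ^ q ∂plan n δ ≤ (2 * δ) ^ q * (2 * δ) := by
  have hm : Measurable fun x : Space (n + 2) => (mapUp δ x, flip n (mapUp δ x)) :=
    (measurable_mapUp δ).prodMk ((flip n).continuous.measurable.comp (measurable_mapUp δ))
  rw [plan, integral_map hm.aemeasurable (by fun_prop)]
  set band : Set (Space (n + 2)) := {x | |x 0| ≤ δ} with hband
  have hbm : MeasurableSet band := measurableSet_le (measurable_coord 0).abs measurable_const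
  have hfix : flip n (e0 n) = e0 n := by
    ext i; rw [flip_coord]
    by_cases h : i = 1
    · subst h; simp [e0]
    · simp [h]
  have hval : ∀ x ∈ cube n, ‖mapUp δ x - flip n (mapUp δ x)‖ ^ q ≤
      band.indicator (fun _ => (2 * δ) ^ q) x := by
    intro x hx
    by_cases h : |x 0| < height δ x
    · have hb : x ∈ band := by
        show |x 0| ≤ δ
        refine h.le.trans ?_
        unfold height
        nlinarith [(hx 1).2]
      rw [indicator_of_mem hb]
      refine pow_le_pow_left₀ (norm_nonneg _) ((norm_sub_le _ _).trans ?_) q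
      rw [LinearIsometryEquiv.norm_map, show mapUp δ x = δ • e1 n from if_pos h]
      simp [e1, norm_smul, abs_of_nonneg hδ]; linarith
    · have hz : mapUp δ x - flip n (mapUp δ x) = 0 := by
        by_cases h' : 0 ≤ x 0 <;> simp [mapUp, h, h', hfix]
      rw [hz, norm_zero, zero_pow hq]
      exact indicator_nonneg (fun _ _ => by positivity) _
  have hvol : (volume.restrict (cube n)).real band ≤ 2 * δ := by
    rw [measureReal_def]
    refine ENNReal.toReal_le_of_le_ofReal (by positivity) ?_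
    rw [Measure.restrict_apply hbm]
    refine (measure_mono (t := {x : Space (n + 2) | ∀ i, x i ∈ Icc
      (if i = 0 then -δ else -1/2) (if i = 0 then δ else 1/2)}) ?_).trans (le_of_eq ?_)
    · rintro x ⟨hxb, hxc⟩ i
      by_cases h : i = 0
      · subst h; simpa using abs_le.mp hxb
      · simpa [h] using hxc i
    · rw [volume_box, Fin.prod_univ_succ]
      simp [Fin.succ_ne_zero, two_mul]
      norm_num
  calc ∫ x, ‖mapUp δ x - flip n (mapUp δ x)‖ ^ q ∂volume.restrict (cube n)
      ≤ ∫ x, band.indicator (fun _ => (2 * δ) ^ q) x ∂volume.restrict (cube n) :=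
        integral_mono_of_nonneg (Eventually.of_forall fun x => by positivity)
          ((integrable_const _).indicator hbm)
          ((ae_restrict_mem isCompact_cube.measurableSet).mono hval)
    _ = (2 * δ) ^ q * (volume.restrict (cube n)).real band := by
        rw [integral_indicator_const _ hbm]; simp [mul_comm]
    _ ≤ _ := mul_le_mul_of_nonneg_left hvol (by positivity)

lemma dist_maps_ge {δ : ℝ} (hδ : 0 < δ) (hδ' : δ ≤ 1/8) :
    δ / 16 ≤ ∫ x, ‖mapUp δ x - mapDown δ x‖ ^ 2 ∂volume.restrict (cube n) := by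
  set S : Set (Space (n + 2)) := {x | ∀ i, x i ∈ Icc
    (if i = 0 then δ/4 else if i = 1 then 1/4 else -1/2)
    (if i = 0 then δ/2 else 1/2)} with hS
  have hSc : S ⊆ cube n := by
    intro x hx i
    have := hx i
    by_cases h : i = 0
    · subst h; simp at this; constructor <;> linarith [this.1, this.2]
    · by_cases h' : i = 1
      · subst h'; simp at this; constructor <;> linarith [this.1, this.2]
      · simpa [h, h'] using this
  have hSm : MeasurableSet S := by
    rw [hS]; simp only [setOf_forall]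
    exact MeasurableSet.iInter fun i => measurableSet_Icc.preimage (measurable_coord i)
  have hvol : (volume.restrict (cube n)).real S = δ / 16 := by
    rw [measureReal_def, Measure.restrict_apply hSm, inter_eq_left.mpr hSc, hS, volume_box,
      Fin.prod_univ_succ, Fin.prod_univ_succ]
    simp only [Fin.succ_ne_zero, if_false, if_true, Fin.succ_zero_eq_one, Fin.succ_succ_ne_one,
      show ((1 : Fin (n + 2)) = 0) = False from by simp]
    simp only [show (1/2 : ℝ) - -1/2 = 1 by norm_num, ENNReal.ofReal_one, Finset.prod_const_one,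
      mul_one]
    rw [← ENNReal.ofReal_mul' (by norm_num)]
    rw [ENNReal.toReal_ofReal (by nlinarith)]
    ring
  have hone : ∀ x ∈ S, 1 ≤ ‖mapUp δ x - mapDown δ x‖ ^ 2 := by
    intro x hx
    have h0 := hx 0
    have h1 := hx 1
    simp at h0 h1
    have hup : mapUp δ x = δ • e1 n := by
      apply if_pos
      rw [abs_of_nonneg (by linarith [h0.1])]
      unfold height
      nlinarith [h0.2, h1.1]
    have hdn : mapUp δ (flip n x) = e0 n := by
      have hf0 : flip n x 0 = x 0 := by simp [flip_coord]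
      have hf1 : flip n x 1 = -x 1 := by simp [flip_coord]
      rw [mapUp, if_neg, if_pos (by rw [hf0]; linarith [h0.1])]
      rw [not_lt, hf0, abs_of_nonneg (by linarith [h0.1])]
      unfold height
      rw [hf1]
      nlinarith [h0.1, h1.1]
    have hd0 : (mapUp δ x - mapDown δ x) 0 = -1 := by
      simp [hup, mapDown, hdn, flip_coord, e0, e1]
    have := PiLp.norm_apply_le (mapUp δ x - mapDown δ x) 0
    rw [hd0, norm_neg, norm_one] at this
    exact one_le_pow₀ this
  have hint : Integrable (fun x => ‖mapUp δ x - mapDown δ x‖ ^ 2) (volume.restrict (cube n)) := by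
    refine Integrable.of_bound (((measurable_mapUp δ).sub (measurable_mapDown δ)).norm.pow_const 2
      ).aestronglyMeasurable 4 (Eventually.of_forall fun x => ?_)
    have hδ1 : |δ| ≤ 1 := by rw [abs_of_pos hδ]; linarith
    have := norm_sub_le (mapUp δ x) (mapDown δ x)
    have := norm_mapUp_le hδ1 x
    have h' : ‖mapDown δ x‖ ≤ 1 := by
      rw [mapDown, LinearIsometryEquiv.norm_map]; exact norm_mapUp_le hδ1 _
    rw [Real.norm_eq_abs, abs_pow, abs_norm]
    nlinarith [norm_nonneg (mapUp δ x - mapDown δ x)]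
  calc δ / 16 = ∫ x, S.indicator (fun _ => (1:ℝ)) x ∂volume.restrict (cube n) := by
        rw [integral_indicator_const _ hSm, hvol]; simp
    _ ≤ _ := integral_mono ((integrable_const _).indicator hSm) hint fun x => by
        by_cases h : x ∈ S
        · rw [indicator_of_mem h]; exact hone x h
        · rw [indicator_of_notMem h]; positivity

/-- If an estimate of exponent `a` holds along the family, then `a` is at most `b`. -/
lemma exponent_le {a p C B : ℝ} (hp : 0 < p)
    (h : ∀ δ : ℝ, 0 < δ → δ ≤ 1/8 → Real.sqrt (δ / 16) ≤ C * (B * δ ^ p) ^ a) (hB : 0 < B) :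
    p * a ≤ 1/2 := by
  by_contra hcon
  have hlim : Tendsto (fun δ : ℝ => C * B ^ a * Real.sqrt 16 * δ ^ (p * a - 1/2)) (𝓝[>] 0) (𝓝 0) := by
    have h0 : Tendsto (fun δ : ℝ => δ ^ (p * a - 1/2)) (𝓝[>] 0) (𝓝 0) := by
      have hc := (Real.continuous_rpow_const (by linarith : (0:ℝ) ≤ p * a - 1/2)).tendsto 0
      rw [Real.zero_rpow (by linarith)] at hc
      exact hc.mono_left nhdsWithin_le_nhds
    simpa using h0.const_mul (C * B ^ a * Real.sqrt 16)
  have hev : ∀ᶠ δ in 𝓝[>] (0:ℝ), 1 ≤ C * B ^ a * Real.sqrt 16 * δ ^ (p * a - 1/2) := by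
    filter_upwards [self_mem_nhdsWithin, nhdsWithin_le_nhds (Iio_mem_nhds (by norm_num : (0:ℝ) < 1/8))]
      with δ hδ hδ'
    have := h δ hδ (le_of_lt hδ')
    have hs : 0 < Real.sqrt δ := Real.sqrt_pos.mpr hδ
    rw [Real.mul_rpow hB.le (Real.rpow_nonneg hδ.le p), ← Real.rpow_mul hδ.le,
      Real.sqrt_div' _ (by norm_num), div_le_iff₀ (by positivity)] at this
    rw [Real.rpow_sub hδ, ← Real.sqrt_eq_rpow, ← mul_div_assoc, le_div_iff₀ hs]
    linarith
  exact absurd (ge_of_tendsto hlim hev) (by norm_num)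

lemma lower_of_stable {W : Measure (Space (n + 2)) → Measure (Space (n + 2)) → ℝ} {a : ℝ}
    (hs : StableExponent (n + 2) W a) {B p : ℝ} (hB : 0 < B) (hp : 0 < p)
    (hW : ∀ δ : ℝ, 0 < δ → δ ≤ 1/8 →
      0 ≤ W (targetUp n δ) (targetDown n δ) ∧ W (targetUp n δ) (targetDown n δ) ≤ B * δ ^ p) :
    p * a ≤ 1/2 := by
  by_contra hcon
  have ha : 0 < a := by nlinarith
  obtain ⟨C, hC⟩ := hs (cube n) isCompact_cube convex_cube interior_cube (Metric.closedBall 0 1)
    (isCompact_closedBall 0 1)
  refine hcon (exponent_le (C := max C 0) hp (fun δ hδ hδ' => ?_) hB)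
  have hd : |δ| ≤ 1 := by rw [abs_of_pos hδ]; linarith
  have hsupp : ∀ T : Space (n + 2) → Space (n + 2), Measurable T → (∀ x, ‖T x‖ ≤ 1) →
      (volume.restrict (cube n)).map T (Metric.closedBall 0 1)ᶜ = 0 := by
    intro T hT hb
    rw [Measure.map_apply hT Metric.isClosed_closedBall.measurableSet.compl]
    convert measure_empty (μ := volume.restrict (cube n))
    ext x; simp [hb x]
  have := hC (targetUp n δ) (targetDown n δ)
    (Measure.isProbabilityMeasure_map (measurable_mapUp δ).aemeasurable)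
    (Measure.isProbabilityMeasure_map (measurable_mapDown δ).aemeasurable)
    (hsupp _ (measurable_mapUp δ) (norm_mapUp_le hd))
    (hsupp _ (measurable_mapDown δ)
      fun x => by rw [mapDown, LinearIsometryEquiv.norm_map]; exact norm_mapUp_le hd _)
    _ _ (optimal_up hd) (optimal_down hd)
  rw [uniform_cube] at this
  obtain ⟨w0, w1⟩ := hW δ hδ hδ'
  calc Real.sqrt (δ / 16) ≤ _ := Real.sqrt_le_sqrt (dist_maps_ge hδ hδ')
    _ ≤ _ := this
    _ ≤ max C 0 * W (targetUp n δ) (targetDown n δ) ^ a :=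
        mul_le_mul_of_nonneg_right (le_max_left _ _) (Real.rpow_nonneg w0 a)
    _ ≤ _ := mul_le_mul_of_nonneg_left (Real.rpow_le_rpow w0 w1 ha.le) (le_max_right _ _)

theorem exponent_W2_le {a : ℝ} (hs : StableExponent (n + 2) W2 a) : a ≤ 1/3 := by
  suffices h : (3/2 : ℝ) * a ≤ 1/2 by linarith
  refine lower_of_stable hs (B := Real.sqrt 8) (by positivity) (by norm_num) fun δ hδ hδ' => ?_
  refine ⟨Real.sqrt_nonneg _, ?_⟩
  have hb : BddBelow {c | ∃ π, IsCoupling π (targetUp n δ) (targetDown n δ) ∧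
      c = ∫ p, ‖p.1 - p.2‖ ^ 2 ∂π} :=
    ⟨0, by rintro c ⟨π, -, rfl⟩; exact integral_nonneg fun p => by positivity⟩
  refine (Real.sqrt_le_sqrt ((csInf_le hb ⟨_, isCoupling_plan δ, rfl⟩).trans
    (cost_le hδ.le two_ne_zero))).trans (le_of_eq ?_)
  rw [show (2 * δ) ^ 2 * (2 * δ) = 8 * δ ^ 3 by ring, Real.sqrt_mul (by norm_num),
    Real.sqrt_eq_rpow (δ ^ 3), ← Real.rpow_natCast, ← Real.rpow_mul hδ.le]
  norm_num

theorem exponent_W1_le {a : ℝ} (hs : StableExponent (n + 2) W1 a) : a ≤ 1/4 := by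
  suffices h : (2 : ℝ) * a ≤ 1/2 by linarith
  refine lower_of_stable hs (B := 4) (by norm_num) (by norm_num) fun δ hδ hδ' => ?_
  have hb : BddBelow {c | ∃ π, IsCoupling π (targetUp n δ) (targetDown n δ) ∧
      c = ∫ p, ‖p.1 - p.2‖ ∂π} :=
    ⟨0, by rintro c ⟨π, -, rfl⟩; exact integral_nonneg fun p => norm_nonneg _⟩
  refine ⟨le_csInf ⟨_, _, isCoupling_plan δ, rfl⟩
    (by rintro c ⟨π, -, rfl⟩; exact integral_nonneg fun p => norm_nonneg _), ?_⟩
  refine (csInf_le hb ⟨_, isCoupling_plan δ, rfl⟩).trans ?_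
  have := cost_le (n := n) hδ.le one_ne_zero
  simp only [pow_one] at this
  refine this.trans (le_of_eq ?_)
  rw [show (2:ℝ) = ((2:ℕ):ℝ) by norm_num, Real.rpow_natCast]; push_cast; ring

end Vale.Agent.P074.Example
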