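import Vale.Agent.P074.Path

/-!
Stability of optimal maps between discrete targets with exponent one third.
-/

noncomputable section

open MeasureTheory Set Metric Filter
open scoped ENNReal RealInnerProductSpace Topology

namespace Vale.Agent.P074

variable {d : ℕ}

lemma cellMap_subgrad {ι : Type*} [Fintype ι] [Nonempty ι] {K : Set (Space d)} {y : ι → Space d}
    {w : ι → ℝ} {x : Space d} (hx : x ∈ ⋃ i, cell K y w i) (p : Space d) :
    pot y w x + ⟪cellMap K y w x, p - x⟫ ≤ pot y w p := by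
  obtain ⟨i, hi⟩ := mem_iUnion.mp hx
  rw [cellMap_of_mem hi, pot_eq_of_mem hi, inner_sub_right, real_inner_comm x, real_inner_comm p]
  linarith [le_pot y w p i]

lemma norm_cellMap_le {ι : Type*} [Fintype ι] [Nonempty ι] (K : Set (Space d)) {y : ι → Space d}
    (w : ι → ℝ) {RY : ℝ} (hy : ∀ i, ‖y i‖ ≤ RY) (x : Space d) : ‖cellMap K y w x‖ ≤ RY := by
  have h0 : 0 ≤ RY := (norm_nonneg _).trans (hy (Classical.arbitrary ι))
  by_cases hx : x ∈ ⋃ i, cell K y w i
  · obtain ⟨i, hi⟩ := mem_iUnion.mp hx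
    rw [cellMap_of_mem hi]; exact hy i
  · simp only [mem_iUnion, not_exists] at hx
    simp [cellMap, indicator_of_notMem (hx _), h0]

/-- Interpolation between the potentials and the monotonicity of their gradients. -/
lemma coord_sq_le [NeZero d] {K : Set (Space d)} (hK : IsCompact K) (hconv : Convex ℝ K)
    {c : Space d} {r : ℝ} (hr : 0 < r) (hball : closedBall c r ⊆ K) {R : ℝ} (hR : 0 ≤ R)
    {F F' : Space d → Space d} (hF : Measurable F) (hF' : Measurable F')
    (hFR : ∀ x, ‖F x‖ ≤ R) (hFR' : ∀ x, ‖F' x‖ ≤ R) {φ ψ : Space d → ℝ}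
    (hφc : Continuous φ) (hψc : Continuous ψ)
    (hgood : ∀ᵐ x ∂volume.restrict K, (∀ y, φ x + ⟪F x, y - x⟫ ≤ φ y) ∧
      ∀ y, ψ x + ⟪F' x, y - x⟫ ≤ ψ y)
    (c0 : ℝ) (i : Fin d) {h : ℝ} (hh : 0 < h) :
    ∫ x in K, ((F' x - F x) i) ^ 2 ≤ 12 * (∫ x in K, (ψ x - φ x - c0) ^ 2) / h ^ 2 +
      28 * R ^ 2 * (d * (h / r) * volume.real K) := by
  have hKm := hK.measurableSet
  set f : Space d → ℝ := fun x => ψ x - φ x - c0 with hf
  have hfc : Continuous f := (hψc.sub hφc).sub continuous_const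
  set v : Space d := h • EuclideanSpace.single i 1 with hv
  set P : Set (Space d) := {x | x + v ∈ K} with hP
  have hPm : MeasurableSet P := hKm.preimage (measurable_id.add_const v)
  have hKfin : volume K ≠ ⊤ := hK.measure_lt_top.ne
  have hcm : ∀ U : Space d → Space d, Measurable U → Measurable fun x => U x i := fun U hU => by
    simp only [coord_eq_inner]; exact hU.inner measurable_const
  have hcb : ∀ {U : Space d → Space d}, (∀ x, ‖U x‖ ≤ R) → ∀ x, |U x i| ≤ R := fun hU x =>
    (abs_coord_le _ i).trans (hU x)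
  have hsq : ∀ x, ((F' x - F x) i) ^ 2 ≤ 4 * R ^ 2 := fun x => by
    have h1 := abs_le.mp (hcb hFR x)
    have h2 := abs_le.mp (hcb hFR' x)
    show (F' x i - F x i) ^ 2 ≤ _
    nlinarith
  have hfm : Measurable fun x => ((F' x - F x) i) ^ 2 := (hcm _ (hF'.sub hF)).pow_const 2
  have ifull : IntegrableOn (fun x => ((F' x - F x) i) ^ 2) K volume :=
    Measure.integrableOn_of_bounded hKfin hfm.aestronglyMeasurable
      (Eventually.of_forall fun x => by rw [Real.norm_eq_abs, abs_pow, sq_abs]; exact hsq x)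
  have hout : ∫ x in K \ P, ((F' x - F x) i) ^ 2 ≤ 4 * R ^ 2 * volume.real (K \ P) :=
    (le_abs_self _).trans (by
      simpa using norm_setIntegral_le_of_norm_le_const (μ := volume)
        (f := fun x => ((F' x - F x) i) ^ 2)
        (lt_of_le_of_lt (measure_mono sdiff_subset) hK.measure_lt_top)
        (fun x _ => by rw [Real.norm_eq_abs, abs_pow, sq_abs]; exact hsq x))
  have hfin : volume (K ∩ P) < ⊤ := lt_of_le_of_lt (measure_mono inter_subset_left) hK.measure_lt_top
  have hD : IsFiniteMeasure (volume.restrict (K ∩ P)) := isFiniteMeasure_restrict.mpr hfin.ne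
  have hpt : ∀ᵐ x ∂volume.restrict (K ∩ P), ((F' x - F x) i) ^ 2 ≤
      6 * (f (x + v) ^ 2 + f x ^ 2) / h ^ 2 +
        6 * R * ((F (x + v) i - F x i) + (F' (x + v) i - F' x i)) := by
    have h1 := (ae_restrict_iff' hKm).mp hgood
    have h2 := (measurePreserving_add_right volume v).quasiMeasurePreserving.ae h1
    filter_upwards [ae_restrict_of_ae h2, ae_restrict_of_ae_restrict_of_subset inter_subset_left hgood,
      ae_restrict_mem (hKm.inter hPm)] with x hx' hx hxP
    obtain ⟨hA', hB'⟩ := hx' hxP.2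
    obtain ⟨hA0, hB0⟩ := hx
    have k1 := hB' x
    have k2 := hA' x
    have k3 := hB0 (x + v)
    have k4 := hA0 (x + v)
    have hvi : ∀ w : Space d, ⟪w, v⟫ = h * w i := fun w => by
      rw [hv, inner_smul_right, ← coord_eq_inner]
    rw [add_sub_cancel_left, hvi] at k3 k4
    rw [show x - (x + v) = -v by abel, inner_neg_right, hvi] at k1 k2
    set a := F x i
    set a' := F (x + v) i
    set b := F' x i
    set b' := F' (x + v) i
    have ha : a ≤ a' := le_of_mul_le_mul_left (by linarith) hh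
    have hb : b ≤ b' := le_of_mul_le_mul_left (by linarith) hh
    have e : |b - a| ≤ |f (x + v) - f x| / h + (a' - a) + (b' - b) := by
      have p1 := le_abs_self (f (x + v) - f x)
      have p2 := neg_abs_le (f (x + v) - f x)
      have p3 := mul_nonneg hh.le (sub_nonneg.mpr ha)
      have p4 := mul_nonneg hh.le (sub_nonneg.mpr hb)
      rw [div_add' _ _ _ hh.ne', div_add' _ _ _ hh.ne', le_div_iff₀ hh]
      simp only [hf] at *
      rcases abs_cases (b - a) with ⟨hab, -⟩ | ⟨hab, -⟩ <;> rw [hab] <;> linarith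
    show (b - a) ^ 2 ≤ _
    have q1 : (a' - a) ^ 2 ≤ 2 * R * (a' - a) := by
      rw [sq]; refine mul_le_mul_of_nonneg_right ?_ (sub_nonneg.mpr ha)
      linarith [(abs_le.mp (hcb hFR x)).1, (abs_le.mp (hcb hFR (x + v))).2]
    have q2 : (b' - b) ^ 2 ≤ 2 * R * (b' - b) := by
      rw [sq]; refine mul_le_mul_of_nonneg_right ?_ (sub_nonneg.mpr hb)
      linarith [(abs_le.mp (hcb hFR' x)).1, (abs_le.mp (hcb hFR' (x + v))).2]
    set D := |f (x + v) - f x| / h with hD'
    have q3 : D ^ 2 ≤ 2 * (f (x + v) ^ 2 + f x ^ 2) / h ^ 2 := by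
      rw [hD', div_pow, sq_abs]
      gcongr
      nlinarith [sq_nonneg (f (x + v) + f x)]
    have q4 := pow_le_pow_left₀ (abs_nonneg _) e 2
    rw [sq_abs] at q4
    have q5 : 2 * (f (x + v) ^ 2 + f x ^ 2) / h ^ 2 * 3 = 6 * (f (x + v) ^ 2 + f x ^ 2) / h ^ 2 := by
      ring
    nlinarith [sq_nonneg (D - (a' - a)), sq_nonneg (D - (b' - b)), sq_nonneg ((a' - a) - (b' - b))]
  have hshift : ∀ {U : Space d → Space d}, Measurable U → (∀ x, ‖U x‖ ≤ R) →
      Integrable (fun x => U (x + v) i - U x i) (volume.restrict (K ∩ P)) := fun {U} hU hUR =>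
    Integrable.of_bound (((hcm _ hU).comp (measurable_id.add_const v)).sub (hcm _ hU)
      ).aestronglyMeasurable (R + R) (Eventually.of_forall fun x => by
        rw [Real.norm_eq_abs]
        exact (abs_sub _ _).trans (add_le_add (hcb hUR _) (hcb hUR _)))
  have if2 : IntegrableOn (fun x => f x ^ 2) K volume :=
    (hfc.pow 2).continuousOn.integrableOn_compact' hK hKm
  have if2' : Integrable (fun x => f (x + v) ^ 2) (volume.restrict (K ∩ P)) := by
    obtain ⟨B, hB⟩ := hK.exists_bound_of_continuousOn (hfc.pow 2).continuousOn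
    exact Integrable.of_bound (((hfc.comp (continuous_id.add continuous_const)).pow 2).aestronglyMeasurable) B
      ((ae_restrict_mem (hKm.inter hPm)).mono fun x hx => hB _ hx.2)
  have hfshift : ∫ x in K ∩ P, f (x + v) ^ 2 ≤ ∫ x in K, f x ^ 2 := by
    have hpre : (fun x => x + v) ⁻¹' (K ∩ {x | x + -v ∈ K}) = K ∩ P := by
      ext x; simp [hP, and_comm]
    rw [← hpre, (measurePreserving_add_right volume v).setIntegral_preimage_emb
      (measurableEmbedding_addRight v) (fun x => f x ^ 2) _]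
    exact setIntegral_mono_set if2 (Eventually.of_forall fun x => sq_nonneg _)
      inter_subset_left.eventuallyLE
  have hf0 : ∫ x in K ∩ P, f x ^ 2 ≤ ∫ x in K, f x ^ 2 :=
    setIntegral_mono_set if2 (Eventually.of_forall fun x => sq_nonneg _) inter_subset_left.eventuallyLE
  have i1 := ((if2'.fun_add (if2.mono_set (inter_subset_left (t := P)))).const_mul 6).div_const (h ^ 2)
  have i2 := ((hshift hF hFR).fun_add (hshift hF' hFR')).const_mul (6 * R)
  have hin := integral_mono_ae (ifull.mono_set inter_subset_left) (i1.fun_add i2) hpt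
  rw [integral_add i1 i2, integral_div, integral_const_mul, integral_const_mul,
    integral_add if2' (if2.mono_set inter_subset_left),
    integral_add (hshift hF hFR) (hshift hF' hFR')] at hin
  have hnorm : ‖v‖ = h := by simp [hv, norm_smul, abs_of_pos hh]
  have hv1 := volume_diff_translate hconv hK hr hball v
  have hv2 := volume_diff_translate hconv hK hr hball (-v)
  rw [norm_neg] at hv2
  rw [hnorm] at hv1 hv2
  have s1 := setIntegral_shift_le hK (hcm _ hF) (hcb hFR) v
  have s2 := setIntegral_shift_le hK (hcm _ hF') (hcb hFR') v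
  have hsplit := integral_inter_add_sdiff (μ := volume) hPm ifull
  have hI : 6 * ((∫ x in K ∩ P, f (x + v) ^ 2) + ∫ x in K ∩ P, f x ^ 2) / h ^ 2 ≤
      12 * (∫ x in K, f x ^ 2) / h ^ 2 := by
    rw [show (12 : ℝ) * ∫ x in K, f x ^ 2 = 6 * ((∫ x in K, f x ^ 2) + ∫ x in K, f x ^ 2) by ring]
    gcongr
  simp only [← hP] at s1 s2
  have m1 := mul_le_mul_of_nonneg_left s1 (by positivity : 0 ≤ 6 * R)
  have m2 := mul_le_mul_of_nonneg_left s2 (by positivity : 0 ≤ 6 * R)
  have m3 := mul_le_mul_of_nonneg_left hv1 (by positivity : 0 ≤ 16 * R ^ 2)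
  have m4 := mul_le_mul_of_nonneg_left hv2 (by positivity : 0 ≤ 12 * R ^ 2)
  have m5 : 4 * R ^ 2 * volume.real (K \ P) + 2 * (6 * R * R * volume.real (K \ P)) =
      16 * R ^ 2 * volume.real (K \ P) := by ring
  rw [← hsplit]
  simp only [← hP] at m3
  linarith

/-- The exponent one third for discrete targets, with a constant depending on `K` and a radius. -/
theorem discrete_bound [NeZero d] {K : Set (Space d)} (hK : IsCompact K) (hconv : Convex ℝ K)
    (hint : (interior K).Nonempty) (RY : ℝ) :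
    ∃ C : ℝ, 0 ≤ C ∧ ∀ (ι : Type) [Fintype ι] [Nonempty ι] (y z : ι → Space d) (M : ι → ℝ),
      Function.Injective y → Function.Injective z → (∀ i, ‖y i‖ ≤ RY) → (∀ i, ‖z i‖ ≤ RY) →
      (∀ i, 0 < M i) → ∑ i, M i = volume.real K →
      ∃ T S : Space d → Space d, IsOptimalMap (uniformOn K) T (atomic K y M) ∧
        IsOptimalMap (uniformOn K) S (atomic K z M) ∧
        ∫ x, ‖T x - S x‖ ^ 2 ∂uniformOn K ≤ C * (∑ i, M i * ‖z i - y i‖ ^ 2) ^ (1/3 : ℝ) := by
  obtain ⟨R0, hR0⟩ := hK.isBounded.exists_norm_le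
  obtain ⟨c, hc⟩ := hint
  obtain ⟨r, hr, hball⟩ : ∃ r, 0 < r ∧ closedBall c r ⊆ K := by
    obtain ⟨ε, hε, hεK⟩ := Metric.isOpen_iff.mp isOpen_interior c hc
    exact ⟨ε / 2, by positivity,
      (closedBall_subset_ball (by linarith)).trans (hεK.trans interior_subset)⟩
  have hint : (interior K).Nonempty := ⟨c, hc⟩
  set R := max R0 1 with hR
  have hR1 : 1 ≤ R := le_max_right _ _
  have hKR : ∀ x ∈ K, ‖x‖ ≤ R := fun x hx => (hR0 x hx).trans (le_max_left _ _)
  set L := 65536 * R ^ 2 with hL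
  have hV := volumeReal_pos hK hint
  set C0 := 12 + 28 * RY ^ 2 * (d * volume.real K / r) with hC0
  refine ⟨(volume.real K)⁻¹ * (d * C0) * ((200 * L) ^ 2) ^ (1/3 : ℝ), by positivity, ?_⟩
  intro ι _ _ y z M hy hz hyR hzR hM hMs
  have hA : Admissible K (fun _ => 0) M :=
    ⟨hK, measurable_const, fun x => by norm_num, by simp, hM, hMs⟩
  obtain ⟨w, hw⟩ := exists_min hA y
  obtain ⟨w', hw'⟩ := exists_min hA z
  refine ⟨_, _, isOptimal_cellMap hA hint hy hw, isOptimal_cellMap hA hint hz hw', ?_⟩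
  obtain ⟨c0, hc0⟩ := potential_stability hR1 hL.ge hconv hint hKR hA hy hz hw hw'
  set S2 := ∑ i, M i * ‖z i - y i‖ ^ 2 with hS2
  set I := ∫ x in K, (pot z w' x - pot y w x - c0) ^ 2
  have hI0 : 0 ≤ I := setIntegral_nonneg hK.measurableSet fun x _ => sq_nonneg _
  have hRY0 : 0 ≤ RY := (norm_nonneg _).trans (hyR (Classical.arbitrary ι))
  set T := cellMap K y w
  set S := cellMap K z w'
  have hTm : Measurable T := measurable_cellMap hK.measurableSet y w
  have hSm : Measurable S := measurable_cellMap hK.measurableSet z w'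
  have hgood : ∀ᵐ x ∂volume.restrict K, (∀ p, pot y w x + ⟪T x, p - x⟫ ≤ pot y w p) ∧
      ∀ p, pot z w' x + ⟪S x, p - x⟫ ≤ pot z w' p := by
    filter_upwards [ae_mem_cell hK.measurableSet hy w, ae_mem_cell hK.measurableSet hz w'] with x h1 h2
    exact ⟨cellMap_subgrad h1, cellMap_subgrad h2⟩
  have hcoord : ∀ i, ∫ x in K, ((S x - T x) i) ^ 2 ≤ C0 * I ^ (1/3 : ℝ) := by
    intro i
    refine le_of_forall_pos_le_add fun ε hε => ?_
    have hC0pos : 0 < C0 := by positivity
    set h := I ^ (1/3 : ℝ) + ε / C0 with hh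
    have hh0 : 0 < h := by positivity
    have hb := coord_sq_le hK hconv hr hball hRY0 hTm hSm (norm_cellMap_le K w hyR)
      (norm_cellMap_le K w' hzR) (continuous_pot y w) (continuous_pot z w') hgood c0 i hh0
    have hI3 : I ≤ h ^ 3 := by
      calc I = (I ^ (1/3 : ℝ)) ^ 3 := by
            rw [← Real.rpow_natCast, ← Real.rpow_mul hI0]; norm_num
        _ ≤ h ^ 3 := pow_le_pow_left₀ (by positivity) (le_add_of_nonneg_right (by positivity)) 3
    have hI2 : I / h ^ 2 ≤ h := by
      rw [div_le_iff₀ (by positivity)]; linarith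
    refine hb.trans ?_
    have e : C0 * I ^ (1/3 : ℝ) + ε = 12 * h + 28 * RY ^ 2 * (d * (h / r) * volume.real K) := by
      rw [hh, hC0]; field_simp
    rw [e]
    gcongr
    rw [mul_div_assoc]
    linarith
  have : IsFiniteMeasure (volume.restrict K) := isFiniteMeasure_restrict.mpr hK.measure_lt_top.ne
  have icoord : ∀ i, Integrable (fun x => ((S x - T x) i) ^ 2) (volume.restrict K) := fun i => by
    have hm : Measurable fun x => (S x - T x) i := by
      simp only [coord_eq_inner]; exact (hSm.sub hTm).inner measurable_const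
    refine Integrable.of_bound (hm.pow_const 2).aestronglyMeasurable ((RY + RY) ^ 2)
      (Eventually.of_forall fun x => ?_)
    rw [Real.norm_eq_abs, abs_pow]
    exact pow_le_pow_left₀ (abs_nonneg _) ((abs_coord_le _ i).trans ((norm_sub_le _ _).trans
      (add_le_add (norm_cellMap_le K w' hzR x) (norm_cellMap_le K w hyR x)))) 2
  have hmono : I ^ (1/3 : ℝ) ≤ ((200 * L) ^ 2) ^ (1/3 : ℝ) * S2 ^ (1/3 : ℝ) := by
    rw [← Real.mul_rpow (sq_nonneg _) (Finset.sum_nonneg fun i _ => mul_nonneg (hM i).le (sq_nonneg _))]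
    exact Real.rpow_le_rpow hI0 hc0 (by norm_num)
  rw [integral_uniformOn]
  calc (volume.real K)⁻¹ * ∫ x in K, ‖T x - S x‖ ^ 2
      = (volume.real K)⁻¹ * ∑ i, ∫ x in K, ((S x - T x) i) ^ 2 := by
        rw [← integral_finsetSum _ fun i _ => icoord i]
        simp only [← EuclideanSpace.real_norm_sq_eq, norm_sub_rev]
    _ ≤ (volume.real K)⁻¹ * ∑ _i : Fin d, C0 * (((200 * L) ^ 2) ^ (1/3 : ℝ) * S2 ^ (1/3 : ℝ)) :=
        mul_le_mul_of_nonneg_left (Finset.sum_le_sum fun i _ => (hcoord i).trans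
          (mul_le_mul_of_nonneg_left hmono (by positivity))) (inv_nonneg.mpr hV.le)
    _ = _ := by simp; ring

end Vale.Agent.P074
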