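import Vale.Agent.P074.Defs

/-!
Optimal maps are cyclically monotone almost everywhere.
-/

noncomputable section

open MeasureTheory Set Metric Filter
open scoped ENNReal RealInnerProductSpace Topology

namespace Vale.Agent.P074

variable {d : ℕ}

/-- Cyclic monotonicity of `T` on `A`, for cycles of distinct points. -/
def CyclicMono (T : Space d → Space d) (A : Set (Space d)) : Prop :=
  ∀ (m : ℕ) (x : Fin m → Space d), Function.Injective x → (∀ i, x i ∈ A) →
    ∀ τ : Equiv.Perm (Fin m), ∑ i, ⟪T (x i), x (τ i) - x i⟫ ≤ 0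

section Swap

variable {K : Set (Space d)} {m : ℕ} (x : Fin m → Space d) (τ : Equiv.Perm (Fin m)) (r : ℝ)

/-- Piecewise translation moving the ball around `x j` to the one around `x (τ j)`. -/
def swapBalls (z : Space d) : Space d :=
  z + ∑ j, (closedBall (x j) r).indicator (fun _ => x (τ j) - x j) z

lemma measurable_swapBalls : Measurable (swapBalls x τ r) :=
  measurable_id.add (Finset.measurable_fun_sum _ fun _ _ =>
    measurable_const.indicator isClosed_closedBall.measurableSet)

variable {x τ r}

lemma swapBalls_mem (hdisj : Pairwise fun i j => Disjoint (closedBall (x i) r) (closedBall (x j) r))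
    {j : Fin m} {z : Space d} (hz : z ∈ closedBall (x j) r) :
    swapBalls x τ r z = z + (x (τ j) - x j) := by
  rw [swapBalls, Finset.sum_eq_single j, indicator_of_mem hz]
  · intro i _ hij
    exact indicator_of_notMem (fun h => Set.disjoint_left.mp (hdisj hij) h hz) _
  · intro h; exact absurd (Finset.mem_univ j) h

lemma swapBalls_notMem {z : Space d} (hz : z ∉ ⋃ j, closedBall (x j) r) :
    swapBalls x τ r z = z := by
  simp only [mem_iUnion, not_exists] at hz
  simp [swapBalls, indicator_of_notMem (hz _)]

lemma map_swapBalls (hKm : MeasurableSet K)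
    (hdisj : Pairwise fun i j => Disjoint (closedBall (x i) r) (closedBall (x j) r))
    (hsub : ∀ j, closedBall (x j) r ⊆ K) :
    (volume.restrict K).map (swapBalls x τ r) = volume.restrict K := by
  set U := ⋃ j, closedBall (x j) r with hU
  have hUm : MeasurableSet U := MeasurableSet.iUnion fun j => isClosed_closedBall.measurableSet
  have hsplit : volume.restrict K = volume.restrict (K \ U) +
      ∑ j, volume.restrict (closedBall (x j) r) := by
    have h1 : K = (K \ U) ∪ U := (sdiff_union_of_subset (iUnion_subset hsub)).symm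
    conv_lhs => rw [h1]
    rw [Measure.restrict_union disjoint_sdiff_left hUm, hU,
      Measure.restrict_iUnion hdisj (fun j => isClosed_closedBall.measurableSet),
      Measure.sum_fintype]
  have hm := measurable_swapBalls x τ r
  ext s hs
  rw [Measure.map_apply hm hs, hsplit]
  simp only [Measure.add_apply, Measure.finsetSum_apply]
  congr 1
  · refine measure_congr ?_
    filter_upwards [ae_restrict_mem (hKm.diff hUm)] with z hz
    show (z ∈ swapBalls x τ r ⁻¹' s) = (z ∈ s)
    rw [mem_preimage, swapBalls_notMem hz.2]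
  · rw [← Equiv.sum_comp τ (fun j => volume.restrict (closedBall (x j) r) s)]
    refine Finset.sum_congr rfl fun j _ => ?_
    rw [Measure.restrict_apply (hm hs), Measure.restrict_apply hs]
    have hset : swapBalls x τ r ⁻¹' s ∩ closedBall (x j) r =
        (fun z => z + (x (τ j) - x j)) ⁻¹' (s ∩ closedBall (x (τ j)) r) := by
      ext z
      simp only [mem_inter_iff, mem_preimage, mem_closedBall, dist_eq_norm]
      rw [show z + (x (τ j) - x j) - x (τ j) = z - x j by abel]
      constructor <;> rintro ⟨h1, h2⟩ <;>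
        have e := swapBalls_mem (τ := τ) hdisj (j := j) (z := z)
          (by rwa [mem_closedBall, dist_eq_norm])
      · exact ⟨e ▸ h1, h2⟩
      · exact ⟨e.symm ▸ h1, h2⟩
    rw [hset, measure_preimage_add_right]

end Swap

/-- A measurable selection of a bounded value agreeing with `T`. -/
def clamp (K : Set (Space d)) (R : ℝ) (T : Space d → Space d) : Space d → Space d :=
  K.indicator fun x => if ‖T x‖ ≤ R then T x else 0

lemma norm_clamp_le (K : Set (Space d)) {R : ℝ} (hR : 0 ≤ R) (T : Space d → Space d) (x : Space d) :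
    ‖clamp K R T x‖ ≤ R := by
  unfold clamp
  by_cases h : x ∈ K
  · rw [indicator_of_mem h]; split
    · assumption
    · simpa using hR
  · simpa [indicator_of_notMem h] using hR

lemma measurable_clamp {K : Set (Space d)} (hKm : MeasurableSet K) (R : ℝ)
    {T : Space d → Space d} (hT : Measurable T) : Measurable (clamp K R T) :=
  (Measurable.ite (measurableSet_le hT.norm measurable_const) hT measurable_const).indicator hKm

/-- A minimiser over maps with the same law is cyclically monotone on a set of full measure. -/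
lemma exists_cyclicMono [NeZero d] {K : Set (Space d)} (hKc : IsCompact K) (hK : Convex ℝ K)
    {T : Space d → Space d} (hT : Measurable T) {R : ℝ} (hR : 0 ≤ R)
    (hTR : ∀ᵐ x ∂volume.restrict K, ‖T x‖ ≤ R)
    (hopt : ∀ S : Space d → Space d, Measurable S →
      (volume.restrict K).map S = (volume.restrict K).map T →
      ∫ x in K, ‖x - T x‖ ^ 2 ≤ ∫ x in K, ‖x - S x‖ ^ 2) :
    ∃ A : Set (Space d), A ⊆ K ∧ (∀ᵐ x ∂volume.restrict K, x ∈ A) ∧
      (∀ x ∈ A, ‖T x‖ ≤ R) ∧ CyclicMono T A := by
  have hKm := hKc.measurableSet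
  have : IsFiniteMeasure (volume.restrict K) :=
    isFiniteMeasure_restrict.mpr hKc.measure_lt_top.ne
  set F := clamp K R T with hF
  have hFint : IntegrableOn (fun x => if ‖T x‖ ≤ R then T x else 0) K volume :=
    Integrable.of_bound ((Measurable.ite (measurableSet_le hT.norm measurable_const) hT
      measurable_const).aestronglyMeasurable) R (Eventually.of_forall fun x => by
        by_cases h : ‖T x‖ ≤ R <;> simp [h, hR])
  have hFloc : LocallyIntegrable F volume := (hFint.integrable_indicator hKm).locallyIntegrable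
  set A : Set (Space d) := {x | x ∈ interior K ∧ ‖T x‖ ≤ R ∧
    Tendsto (fun r => ⨍ z in closedBall x r, F z) (𝓝[>] (0:ℝ)) (𝓝 (T x))} with hA
  refine ⟨A, fun x hx => interior_subset hx.1, ?_, fun x hx => hx.2.1, ?_⟩
  · have h1 : ∀ᵐ x ∂volume.restrict K, x ∈ interior K := by
      have h0 : ∀ᵐ x ∂volume.restrict K, x ∉ frontier K :=
        ae_restrict_of_ae (measure_eq_zero_iff_ae_notMem.mp (hK.addHaar_frontier volume))
      filter_upwards [h0, ae_restrict_mem hKm] with x hx hxK
      by_contra h
      exact hx ⟨subset_closure hxK, h⟩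
    have h2 := ae_restrict_of_ae (s := K)
      (IsUnifLocDoublingMeasure.ae_tendsto_average (μ := (volume : Measure (Space d))) hFloc 1)
    filter_upwards [h1, h2, hTR, ae_restrict_mem hKm] with x hx hx' hxR hxK
    refine ⟨hx, hxR, ?_⟩
    have := hx' (fun _ => x) (fun r => r) tendsto_id (eventually_nhdsWithin_of_forall fun r hr =>
      mem_closedBall_self (by rw [one_mul]; exact le_of_lt hr))
    simpa [hF, clamp, indicator_of_mem hxK, hxR] using this
  intro m x hinj hxA τ
  suffices h : 0 ≤ ∑ j, ⟪T (x (τ⁻¹ j)), x (τ⁻¹ j) - x j⟫ by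
    rw [← Equiv.sum_comp τ] at h
    simp only [Equiv.Perm.inv_def, Equiv.symm_apply_apply] at h
    have hneg : ∑ i, ⟪T (x i), x (τ i) - x i⟫ = -∑ i, ⟪T (x i), x i - x (τ i)⟫ := by
      rw [← Finset.sum_neg_distrib]
      exact Finset.sum_congr rfl fun i _ => by rw [← inner_neg_right, neg_sub]
    linarith
  generalize τ⁻¹ = σ
  have hlim : Tendsto (fun r => ∑ j, ⟪⨍ z in closedBall (x (σ j)) r, F z, x (σ j) - x j⟫)
      (𝓝[>] (0:ℝ)) (𝓝 (∑ j, ⟪T (x (σ j)), x (σ j) - x j⟫)) :=
    tendsto_finsetSum _ fun j _ => ((hxA (σ j)).2.2).inner tendsto_const_nhds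
  refine ge_of_tendsto hlim ?_
  have hev : ∀ᶠ r in 𝓝[>] (0:ℝ), (∀ j, closedBall (x j) r ⊆ K) ∧
      Pairwise fun i j => Disjoint (closedBall (x i) r) (closedBall (x j) r) := by
    refine (eventually_all.mpr fun j => ?_).and ?_
    · obtain ⟨ε, hε, hεK⟩ := Metric.isOpen_iff.mp isOpen_interior (x j) (hxA j).1
      filter_upwards [nhdsWithin_le_nhds (Iio_mem_nhds hε)] with r hr
      exact (closedBall_subset_ball hr).trans (hεK.trans interior_subset)
    · simp only [Pairwise]
      refine eventually_all.mpr fun i => eventually_all.mpr fun j => ?_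
      by_cases hij : i = j
      · exact Eventually.of_forall fun r h => absurd hij h
      · have hd : 0 < dist (x i) (x j) / 2 := half_pos (dist_pos.mpr (hinj.ne hij))
        filter_upwards [nhdsWithin_le_nhds (Iio_mem_nhds hd)] with r hr _
        exact closedBall_disjoint_closedBall (by linarith [show r < dist (x i) (x j) / 2 from hr])
  filter_upwards [hev, self_mem_nhdsWithin] with r hr hr0
  obtain ⟨hsub, hdisj⟩ := hr
  set Φ := swapBalls x σ r with hΦ
  have hΦm : Measurable Φ := measurable_swapBalls x σ r
  have hmap : (volume.restrict K).map Φ = volume.restrict K := map_swapBalls hKm hdisj hsub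
  have hcost := hopt (T ∘ Φ) (hT.comp hΦm) (by rw [← Measure.map_map hT hΦm, hmap])
  have htrans : ∀ g : Space d → ℝ, Measurable g →
      ∫ z in K, g (Φ z) = ∫ z in K, g z := fun g hg => by
    rw [← integral_map hΦm.aemeasurable hg.aestronglyMeasurable, hmap]
  obtain ⟨RK, hRK⟩ := hKc.isBounded.exists_norm_le
  have hbd : ∀ᵐ z ∂volume.restrict K, ‖z‖ ≤ RK :=
    (ae_restrict_mem hKm).mono fun z hz => hRK z hz
  have hbdΦ : ∀ᵐ z ∂volume.restrict K, ‖Φ z‖ ≤ RK ∧ ‖T (Φ z)‖ ≤ R ∧ F (Φ z) = T (Φ z) := by
    have h : ∀ᵐ z ∂(volume.restrict K).map Φ, ‖z‖ ≤ RK ∧ ‖T z‖ ≤ R ∧ F z = T z := by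
      rw [hmap]
      filter_upwards [hbd, hTR, ae_restrict_mem hKm] with z h1 h2 h3
      exact ⟨h1, h2, by simp [hF, clamp, indicator_of_mem h3, h2]⟩
    exact ae_of_ae_map hΦm.aemeasurable h
  have hFm : Measurable F := measurable_clamp hKm R hT
  have i1 : Integrable (fun z => ‖z‖ ^ 2) (volume.restrict K) :=
    Integrable.of_bound (measurable_norm.pow_const 2).aestronglyMeasurable (RK ^ 2)
      (hbd.mono fun z hz => by
        rw [Real.norm_eq_abs, abs_pow, abs_norm]; exact pow_le_pow_left₀ (norm_nonneg _) hz 2)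
  have i1' : Integrable (fun z => ‖Φ z‖ ^ 2) (volume.restrict K) :=
    Integrable.of_bound (hΦm.norm.pow_const 2).aestronglyMeasurable (RK ^ 2)
      (hbdΦ.mono fun z hz => by
        rw [Real.norm_eq_abs, abs_pow, abs_norm]; exact pow_le_pow_left₀ (norm_nonneg _) hz.1 2)
  have i2 : Integrable (fun z => ⟪z - Φ z, F (Φ z)⟫) (volume.restrict K) :=
    Integrable.of_bound ((measurable_id.sub hΦm).inner (hFm.comp hΦm)).aestronglyMeasurable
      ((RK + RK) * R) (by
        filter_upwards [hbd, hbdΦ] with z h1 h2
        refine (abs_real_inner_le_norm _ _).trans (mul_le_mul ((norm_sub_le _ _).trans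
          (add_le_add h1 h2.1)) (norm_clamp_le K hR T _) (norm_nonneg _) ?_)
        linarith [norm_nonneg z])
  have i3 : Integrable (fun z => ‖Φ z - T (Φ z)‖ ^ 2) (volume.restrict K) :=
    Integrable.of_bound ((hΦm.sub (hT.comp hΦm)).norm.pow_const 2).aestronglyMeasurable
      ((RK + R) ^ 2) (hbdΦ.mono fun z hz => by
        rw [Real.norm_eq_abs, abs_pow, abs_norm]
        exact pow_le_pow_left₀ (norm_nonneg _) ((norm_sub_le _ _).trans (add_le_add hz.1 hz.2.1)) 2)
  have key : ∫ z in K, ⟪z - Φ z, F (Φ z)⟫ ≤ 0 := by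
    have heq : ∫ z in K, ‖z - T (Φ z)‖ ^ 2 = ∫ z in K, ‖Φ z - T (Φ z)‖ ^ 2 +
        ((‖z‖ ^ 2 - ‖Φ z‖ ^ 2) - 2 * ⟪z - Φ z, F (Φ z)⟫) := by
      refine integral_congr_ae (hbdΦ.mono fun z hz => ?_)
      dsimp only
      rw [hz.2.2]
      simp only [norm_sub_sq_real, inner_sub_left]; ring
    rw [integral_add i3 ((i1.sub' i1').sub' (i2.const_mul 2)),
      integral_sub (i1.sub' i1') (i2.const_mul 2), integral_sub i1 i1',
      htrans _ (measurable_norm.pow_const 2), integral_const_mul,
      htrans (fun z => ‖z - T z‖ ^ 2) ((measurable_id.sub hT).norm.pow_const 2)] at heq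
    simp only [Function.comp] at hcost
    linarith
  have hΦsum : ∀ z, ⟪z - Φ z, F (Φ z)⟫ = -∑ j, (closedBall (x j) r).indicator
      (fun y => ⟪x (σ j) - x j, F (y + (x (σ j) - x j))⟫) z := by
    intro z
    by_cases hz : z ∈ ⋃ j, closedBall (x j) r
    · obtain ⟨j, hj⟩ := mem_iUnion.mp hz
      rw [hΦ, swapBalls_mem hdisj hj, Finset.sum_eq_single j, indicator_of_mem hj, sub_add_cancel_left,
        inner_neg_left]
      · intro i _ hij
        exact indicator_of_notMem (fun h => Set.disjoint_left.mp (hdisj hij) h hj) _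
      · intro h; exact absurd (Finset.mem_univ j) h
    · rw [hΦ, swapBalls_notMem hz, sub_self, inner_zero_left, Finset.sum_eq_zero, neg_zero]
      intro j _
      exact indicator_of_notMem (fun h => hz (mem_iUnion.mpr ⟨j, h⟩)) _
  simp only [hΦsum] at key
  have hint : ∀ j, Integrable ((closedBall (x j) r).indicator
      fun y => ⟪x (σ j) - x j, F (y + (x (σ j) - x j))⟫) (volume.restrict K) := by
    intro j
    refine (Integrable.of_bound (measurable_const.inner (hFm.comp (measurable_id.add_const _))
      ).aestronglyMeasurable (‖x (σ j) - x j‖ * R) (Eventually.of_forall fun y => ?_)).indicator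
      isClosed_closedBall.measurableSet
    exact (abs_real_inner_le_norm _ _).trans
      (mul_le_mul_of_nonneg_left (norm_clamp_le K hR T _) (norm_nonneg _))
  rw [integral_neg, integral_finsetSum _ fun j _ => hint j, neg_nonpos] at key
  have hterm : ∀ j, ∫ z in K, (closedBall (x j) r).indicator
      (fun y => ⟪x (σ j) - x j, F (y + (x (σ j) - x j))⟫) z =
      volume.real (closedBall (0 : Space d) r) * ⟪⨍ z in closedBall (x (σ j)) r, F z, x (σ j) - x j⟫ := by
    intro j
    rw [setIntegral_indicator isClosed_closedBall.measurableSet, inter_eq_right.mpr (hsub j)]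
    have hpre : (fun y : Space d => y + (x (σ j) - x j)) ⁻¹' closedBall (x (σ j)) r =
        closedBall (x j) r := by
      ext y
      simp [dist_eq_norm, show y + (x (σ j) - x j) - x (σ j) = y - x j by abel]
    rw [← hpre, (measurePreserving_add_right volume (x (σ j) - x j)).setIntegral_preimage_emb
      (measurableEmbedding_addRight _) (fun y => ⟪x (σ j) - x j, F y⟫),
      integral_inner (hFloc.integrableOn_isCompact (isCompact_closedBall (x (σ j)) r)) , setAverage_eq, real_inner_smul_left,
      real_inner_comm]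
    have hb : volume.real (closedBall (x (σ j)) r) = volume.real (closedBall (0 : Space d) r) := by
      rw [measureReal_def, measureReal_def, Measure.addHaar_closedBall_center volume (x (σ j)) r]
    have hpos : 0 < volume.real (closedBall (0 : Space d) r) :=
      ENNReal.toReal_pos (measure_closedBall_pos volume 0 hr0).ne'
        (measure_closedBall_lt_top).ne
    rw [hb, mul_inv_cancel_left₀ hpos.ne']
  simp only [hterm, ← Finset.mul_sum] at key
  have hpos : 0 < volume.real (closedBall (0 : Space d) r) :=
    ENNReal.toReal_pos (measure_closedBall_pos volume 0 hr0).ne' measure_closedBall_lt_top.ne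
  exact nonneg_of_mul_nonneg_right key hpos

end Vale.Agent.P074
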