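import Vale.Agent.P074.Interpolate

/-!
One third is an admissible stability exponent for the quadratic Wasserstein distance.
-/

noncomputable section

open MeasureTheory Set Metric Filter
open scoped ENNReal RealInnerProductSpace Topology

namespace Vale.Agent.P074

variable {d : ℕ}

lemma exists_shift {ι : Type*} [Finite ι] (a b : ι → Space d) {k : ι → ℝ}
    (hk : Function.Injective k) {v : Space d} (hv : v ≠ 0) {δ : ℝ} (hδ : 0 < δ) :
    ∃ τ ∈ Ioo 0 δ, Function.Injective (fun i => a i + (τ * k i) • v) ∧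
      Function.Injective (fun i => b i + (τ * k i) • v) := by
  have hfin : ∀ a : ι → Space d,
      {τ : ℝ | ¬ Function.Injective (fun i => a i + (τ * k i) • v)}.Finite := by
    intro a
    have hsub : {τ : ℝ | ¬ Function.Injective (fun i => a i + (τ * k i) • v)} ⊆
        ⋃ (i : ι) (j : ι) (_ : i ≠ j), {τ | a i + (τ * k i) • v = a j + (τ * k j) • v} := by
      intro t ht
      simp only [mem_ofPred_eq, Function.Injective, not_forall] at ht
      obtain ⟨i, j, hij, hne⟩ := ht
      exact mem_iUnion.mpr ⟨i, mem_iUnion.mpr ⟨j, mem_iUnion.mpr ⟨hne, hij⟩⟩⟩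
    refine (finite_iUnion fun i => finite_iUnion fun j => finite_iUnion fun hij =>
      Set.Subsingleton.finite fun s hs t ht => ?_).subset hsub
    simp only [mem_ofPred_eq] at hs ht
    have h1 : ((s - t) * (k i - k j)) • v = 0 := by
      linear_combination (norm := module) hs - ht
    rcases mul_eq_zero.mp ((smul_eq_zero.mp h1).resolve_right hv) with h2 | h2
    · exact sub_eq_zero.mp h2
    · exact absurd (hk (sub_eq_zero.mp h2)) hij
  obtain ⟨τ, h1, h2⟩ := ((Ioo_infinite hδ).sdiff ((hfin a).union (hfin b))).nonempty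
  simp only [mem_union, mem_ofPred_eq, not_or, not_not] at h2
  exact ⟨τ, h1, h2⟩

/-- A simple function has a finitely supported law. -/
lemma map_simpleFunc {α β : Type*} [MeasurableSpace α] [MeasurableSpace β]
    [MeasurableSingletonClass β] (π : Measure α) [IsFiniteMeasure π] (g : SimpleFunc α β) :
    π.map g = ∑ q ∈ g.range.filter (fun q => 0 < π.real (g ⁻¹' {q})),
      ENNReal.ofReal (π.real (g ⁻¹' {q})) • Measure.dirac q := by
  classical
  ext s hs
  rw [Measure.map_apply g.measurable hs, Measure.finsetSum_apply]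
  simp only [Measure.smul_apply, Measure.dirac_apply' _ hs, smul_eq_mul]
  have hset : g ⁻¹' s = g ⁻¹' (g.range.filter (· ∈ s) : Finset β) := by
    ext p; simp
  rw [hset, ← sum_measure_preimage_singleton _ (fun q _ => g.measurableSet_preimage {q}),
    Finset.sum_filter, Finset.sum_filter]
  refine Finset.sum_congr rfl fun q _ => ?_
  by_cases hq : q ∈ s
  · simp only [hq, if_true, indicator_of_mem hq, Pi.one_apply, mul_one]
    split_ifs with h
    · exact (ofReal_measureReal).symm
    · exact (measureReal_eq_zero_iff).mp (le_antisymm (not_lt.mp h) measureReal_nonneg)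
  · simp [hq]

/-- Approximation of a coupling by a coupling of discrete measures with distinct atoms. -/
lemma exists_discrete [NeZero d] {K : Set (Space d)} (hK : IsCompact K) (hint : (interior K).Nonempty)
    {Y : Set (Space d)} (hY : IsCompact Y) {RY : ℝ} (hRY : ∀ p ∈ Y, ‖p‖ ≤ RY)
    {π : Measure (Space d × Space d)} [IsProbabilityMeasure π]
    (h1 : ∀ᵐ p ∂π, p.1 ∈ Y) (h2 : ∀ᵐ p ∂π, p.2 ∈ Y) {ε : ℝ} (hε : 0 < ε) (hε1 : ε ≤ 1) :
    ∃ (ι : Type) (_ : Fintype ι) (_ : Nonempty ι) (y z : ι → Space d) (M : ι → ℝ),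
      Function.Injective y ∧ Function.Injective z ∧ (∀ i, ‖y i‖ ≤ RY + 1) ∧ (∀ i, ‖z i‖ ≤ RY + 1) ∧
      (∀ i, 0 < M i) ∧ ∑ i, M i = volume.real K ∧
      ∑ i, M i * ‖z i - y i‖ ^ 2 ≤ volume.real K * ((∫ p, ‖p.1 - p.2‖ ^ 2 ∂π) + ε) ∧
      ∃ f f' : Space d × Space d → Space d, Measurable f ∧ Measurable f' ∧
        π.map f = atomic K y M ∧ π.map f' = atomic K z M ∧
        (∫ p, ‖p.1 - f p‖ ∂π) ≤ 2 * ε ∧ (∫ p, ‖p.2 - f' p‖ ∂π) ≤ 2 * ε := by
  classical
  have hV := volumeReal_pos hK hint
  have hq0 : ∃ q0, q0 ∈ Y ×ˢ Y := by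
    obtain ⟨p, hp⟩ := (h1.and h2).exists
    exact ⟨p, hp⟩
  obtain ⟨q0, hq0⟩ := hq0
  have hYm := hY.measurableSet
  set gn := SimpleFunc.approxOn id measurable_id (Y ×ˢ Y) q0 hq0
  have hmem : ∀ n p, gn n p ∈ Y ×ˢ Y := fun n p => SimpleFunc.approxOn_mem measurable_id hq0 n p
  have htend : ∀ᵐ p ∂π, Tendsto (fun n => gn n p) atTop (𝓝 p) := by
    filter_upwards [h1, h2] with p a b
    exact SimpleFunc.tendsto_approxOn measurable_id hq0 (subset_closure ⟨a, b⟩)
  have hRY0 : 0 ≤ RY := (norm_nonneg _).trans (hRY _ hq0.1)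
  have t1 : Tendsto (fun n => ∫ p, ‖p - gn n p‖ ∂π) atTop (𝓝 0) := by
    have := tendsto_integral_of_dominated_convergence (μ := π) (F := fun n p => ‖p - gn n p‖)
      (f := fun _ => 0) (fun _ => RY + RY)
      (fun n => (measurable_id.sub (gn n).measurable).norm.aestronglyMeasurable)
      (integrable_const _) (fun n => ?_) ?_
    · simpa using this
    · filter_upwards [h1, h2] with p a b
      rw [norm_norm]
      refine (norm_sub_le _ _).trans (add_le_add ?_ ?_) <;> rw [Prod.norm_def]
      · exact max_le (hRY _ a) (hRY _ b)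
      · exact max_le (hRY _ (hmem n p).1) (hRY _ (hmem n p).2)
    · filter_upwards [htend] with p hp
      simpa using ((tendsto_const_nhds (x := p)).sub hp).norm
  have t2 : Tendsto (fun n => ∫ p, ‖(gn n p).1 - (gn n p).2‖ ^ 2 ∂π) atTop
      (𝓝 (∫ p, ‖p.1 - p.2‖ ^ 2 ∂π)) := by
    refine tendsto_integral_of_dominated_convergence (fun _ => (RY + RY) ^ 2)
      (fun n => ((gn n).measurable.fst.sub (gn n).measurable.snd).norm.pow_const 2 |>.aestronglyMeasurable)
      (integrable_const _) (fun n => Eventually.of_forall fun p => ?_) ?_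
    · rw [norm_pow, norm_norm]
      exact pow_le_pow_left₀ (norm_nonneg _)
        ((norm_sub_le _ _).trans (add_le_add (hRY _ (hmem n p).1) (hRY _ (hmem n p).2))) 2
    · filter_upwards [htend] with p hp
      exact (((continuous_fst.sub continuous_snd).norm.pow 2).tendsto p).comp hp
  obtain ⟨n, hn1, hn2⟩ := ((t1.eventually (ge_mem_nhds hε)).and
    (t2.eventually (ge_mem_nhds (lt_add_of_pos_right _ hε)))).exists
  set g := gn n
  set t := g.range.filter (fun q => 0 < π.real (g ⁻¹' {q})) with ht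
  have hlaw := map_simpleFunc π g
  rw [← ht] at hlaw
  set m : Space d × Space d → ℝ := fun q => π.real (g ⁻¹' {q})
  have hsum : ∑ q ∈ t, m q = 1 := by
    have := congrArg (fun μ : Measure (Space d × Space d) => μ.real univ) hlaw
    simp only [measureReal_def, Measure.map_apply g.measurable MeasurableSet.univ, preimage_univ,
      measure_univ, ENNReal.toReal_one, Measure.finsetSum_apply, Measure.smul_apply, smul_eq_mul,
      mul_one] at this
    rw [ENNReal.toReal_sum (fun q _ => ENNReal.ofReal_ne_top)] at this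
    simpa [m, measureReal_def] using this.symm
  have hne : Nonempty t := by
    by_contra h
    rw [not_nonempty_iff, Finset.isEmpty_coe_sort] at h
    rw [h, Finset.sum_empty] at hsum
    exact zero_ne_one hsum
  have hqmem : ∀ q ∈ t, q ∈ Y ×ˢ Y := fun q hq => by
    obtain ⟨p, rfl⟩ := SimpleFunc.mem_range.mp (Finset.mem_filter.mp hq).1
    exact hmem n p
  set v : Space d := EuclideanSpace.single 0 1 with hv
  have hvn : ‖v‖ = 1 := by simp [hv]
  set σ : Space d × Space d → ℝ :=
    fun q => if h : q ∈ t then ((t.equivFin ⟨q, h⟩ : ℕ) : ℝ) else 0 with hσ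
  have hσb : ∀ q, 0 ≤ σ q ∧ σ q ≤ t.card := fun q => by
    simp only [hσ]; split_ifs with h
    · exact ⟨Nat.cast_nonneg _, by exact_mod_cast (t.equivFin ⟨q, h⟩).isLt.le⟩
    · exact ⟨le_rfl, Nat.cast_nonneg _⟩
  have hσi : Function.Injective fun q : t => σ q := fun a b hab => by
    simp only [hσ, Subtype.coe_eta, dif_pos a.2, dif_pos b.2, Nat.cast_inj] at hab
    exact t.equivFin.injective (Fin.ext hab)
  obtain ⟨τ, hτ, hy, hz⟩ := exists_shift (fun q : t => (q : Space d × Space d).1) (fun q : t => (q : Space d × Space d).2)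
    hσi (norm_ne_zero_iff.mp (hvn.trans_ne one_ne_zero)) (δ := ε / (t.card + 1)) (by positivity)
  set sh : Space d × Space d → Space d := fun q => (τ * σ q) • v with hsh
  have hshn : ∀ q, ‖sh q‖ ≤ ε := fun q => by
    rw [hsh, norm_smul, hvn, mul_one, Real.norm_eq_abs, abs_of_nonneg (mul_nonneg hτ.1.le (hσb q).1)]
    refine (mul_le_mul hτ.2.le ((hσb q).2.trans (le_add_of_nonneg_right zero_le_one)) (hσb q).1
      (by positivity)).trans (le_of_eq ?_)
    field_simp
  refine ⟨t, inferInstance, hne, fun q => q.1.1 + sh q, fun q => q.1.2 + sh q,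
    fun q => volume.real K * m q, hy, hz, fun q => ?_, fun q => ?_, fun q => ?_, ?_, ?_, ?_⟩
  · exact (norm_add_le _ _).trans (add_le_add (hRY _ (hqmem _ q.2).1) ((hshn _).trans hε1))
  · exact (norm_add_le _ _).trans (add_le_add (hRY _ (hqmem _ q.2).2) ((hshn _).trans hε1))
  · exact mul_pos hV (Finset.mem_filter.mp q.2).2
  · rw [← Finset.mul_sum, Finset.sum_coe_sort t m, hsum, mul_one]
  · have e : ∫ p, ‖(g p).1 - (g p).2‖ ^ 2 ∂π = ∑ q ∈ t, m q * ‖q.1 - q.2‖ ^ 2 := by
      rw [← integral_map g.measurable.aemeasurable (f := fun q => ‖q.1 - q.2‖ ^ 2)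
        (by fun_prop), hlaw, integral_finsetSum_measure fun q _ =>
          (integrable_dirac (by simp)).smul_measure ENNReal.ofReal_ne_top]
      refine Finset.sum_congr rfl fun q _ => ?_
      rw [integral_smul_measure, integral_dirac, ENNReal.toReal_ofReal measureReal_nonneg, smul_eq_mul]
    refine le_trans (le_of_eq ?_) (mul_le_mul_of_nonneg_left hn2 hV.le)
    rw [e, Finset.mul_sum, ← Finset.sum_coe_sort t]
    refine Finset.sum_congr rfl fun q _ => ?_
    rw [add_sub_add_right_eq_sub, norm_sub_rev]; ring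
  · have hlaw' : ∀ u : Space d × Space d → Space d,
        π.map (g.map fun q => u q + sh q) = atomic K (fun q : t => u q + sh q) fun q => volume.real K * m q := by
      intro u
      have e := map_simpleFunc π (g.map fun q => u q + sh q)
      ext s hs
      rw [Measure.map_apply (SimpleFunc.measurable _) hs, SimpleFunc.coe_map, preimage_comp,
        atomic, Measure.finsetSum_apply]
      simp only [Measure.smul_apply, Measure.dirac_apply' _ hs, smul_eq_mul,
        mul_div_cancel_left₀ _ hV.ne']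
      rw [Finset.sum_coe_sort t (fun q => ENNReal.ofReal (m q) * s.indicator 1 (u q + sh q))]
      have hset : g ⁻¹' ((fun q => u q + sh q) ⁻¹' s) =
          g ⁻¹' (g.range.filter (fun q => u q + sh q ∈ s) : Finset (Space d × Space d)) := by
        ext p; simp
      rw [hset, ← sum_measure_preimage_singleton _ (fun q _ => g.measurableSet_preimage {q}),
        Finset.sum_filter, ht, Finset.sum_filter]
      refine Finset.sum_congr rfl fun q _ => ?_
      by_cases hq : u q + sh q ∈ s
      · simp only [hq, if_true, indicator_of_mem hq, Pi.one_apply, mul_one, m]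
        split_ifs with h
        · exact (ofReal_measureReal).symm
        · exact (measureReal_eq_zero_iff).mp (le_antisymm (not_lt.mp h) measureReal_nonneg)
      · simp [hq]
    refine ⟨g.map fun q => q.1 + sh q, g.map fun q => q.2 + sh q, SimpleFunc.measurable _,
      SimpleFunc.measurable _, hlaw' Prod.fst, hlaw' Prod.snd, ?_, ?_⟩
    all_goals
      have ig : Integrable (fun p => ‖p - g p‖) π :=
        Integrable.of_bound (measurable_id.sub g.measurable).norm.aestronglyMeasurable (RY + RY) (by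
          filter_upwards [h1, h2] with p a b
          rw [norm_norm]
          refine (norm_sub_le _ _).trans (add_le_add ?_ ?_) <;> rw [Prod.norm_def]
          · exact max_le (hRY _ a) (hRY _ b)
          · exact max_le (hRY _ (hmem n p).1) (hRY _ (hmem n p).2))
      calc _ ≤ ∫ p, (‖p - g p‖ + ε) ∂π := integral_mono_of_nonneg
            (Eventually.of_forall fun p => norm_nonneg _) (ig.fun_add (integrable_const _))
            (Eventually.of_forall fun p => by
              simp only [SimpleFunc.map_apply, sub_add_eq_sub_sub]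
              refine (norm_sub_le _ _).trans (add_le_add ?_ (hshn _))
              first
                | exact norm_fst_le (p - g p)
                | exact norm_snd_le (p - g p))
        _ ≤ 2 * ε := by
            rw [integral_add ig (integrable_const _)]
            simp; linarith

/-- One third is admissible for the quadratic Wasserstein distance. -/
theorem stable_W2_oneThird [NeZero d] : StableExponent d W2 (1/3) := by
  intro K hK hconv hint Y hY
  obtain ⟨R0, hR0⟩ := hY.isBounded.exists_norm_le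
  set RY := max R0 0 with hRY
  set Y' : Set (Space d) := closedBall 0 (RY + 1) with hY'
  have hYY : Y ⊆ Y' := fun p hp => mem_closedBall_zero_iff.mpr
    ((hR0 p hp).trans ((le_max_left _ _).trans (le_add_of_nonneg_right zero_le_one)))
  obtain ⟨C1, hC10, hC1⟩ := sq_dist_maps_le hK hconv hint (isCompact_closedBall (0 : Space d) (RY + 1))
  obtain ⟨C2, hC20, hC2⟩ := discrete_bound hK hconv hint (RY + 1)
  set V := volume.real K
  have hV : 0 < V := volumeReal_pos hK hint
  set C3 := 3 * C2 * V ^ (1/3 : ℝ) with hC3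
  have hC30 : 0 ≤ C3 := by positivity
  have := isProbability_uniformOn hK hint
  refine ⟨Real.sqrt C3, fun μ ν hμ hν hμY hνY T S hT hS => ?_⟩
  set U := ∫ x, ‖T x - S x‖ ^ 2 ∂uniformOn K with hU
  have hpair : ∀ π, IsCoupling π μ ν → ∀ ε : ℝ, 0 < ε → ε ≤ 1 →
      U ≤ 6 * (C1 * Real.sqrt (2 * ε)) + C3 * ((∫ p, ‖p.1 - p.2‖ ^ 2 ∂π) + ε) ^ (1/3 : ℝ) := by
    intro π hπ ε hε hε1
    have : IsProbabilityMeasure π := by
      constructor
      have := congrArg (fun m : Measure (Space d) => m univ) hπ.1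
      simpa [Measure.map_apply measurable_fst MeasurableSet.univ] using this
    have h1 : ∀ᵐ p ∂π, p.1 ∈ Y := ae_of_ae_map measurable_fst.aemeasurable (by rw [hπ.1]; exact hμY)
    have h2 : ∀ᵐ p ∂π, p.2 ∈ Y := ae_of_ae_map measurable_snd.aemeasurable (by rw [hπ.2]; exact hνY)
    obtain ⟨ι, hι, hιn, y, z, M, hy, hz, hyR, hzR, hM, hMs, hcost, f, f', hf, hf', hlf, hlf', hd1, hd2⟩ :=
      exists_discrete hK hint hY (fun p hp => (hR0 p hp).trans (le_max_left R0 0)) h1 h2 hε hε1
    obtain ⟨Tn, Sn, hTn, hSn, hTS⟩ := hC2 ι y z M hy hz hyR hzR hM hMs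
    have hnull : ∀ {a : ι → Space d}, (∀ i, ‖a i‖ ≤ RY + 1) → atomic K a M Y'ᶜ = 0 := fun {a} ha => by
      rw [atomic, Measure.finsetSum_apply]
      exact Finset.sum_eq_zero fun i _ => by
        simp [Measure.dirac_apply' _ (isClosed_closedBall.measurableSet.compl), hY', ha i]
    have hp1 : IsProbabilityMeasure (atomic K y M) := by
      rw [← hTn.2.1]; exact Measure.isProbabilityMeasure_map hTn.1.aemeasurable
    have hp2 : IsProbabilityMeasure (atomic K z M) := by
      rw [← hSn.2.1]; exact Measure.isProbabilityMeasure_map hSn.1.aemeasurable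
    have close : ∀ (a : ι → Space d) (pr : Space d × Space d → Space d) (m : Measure (Space d))
        (F : Space d × Space d → Space d) (A An : Space d → Space d), (∀ i, ‖a i‖ ≤ RY + 1) →
        IsProbabilityMeasure (atomic K a M) → Measurable pr → Measurable F → π.map pr = m →
        IsProbabilityMeasure m → m Yᶜ = 0 → π.map F = atomic K a M →
        IsOptimalMap (uniformOn K) A m → IsOptimalMap (uniformOn K) An (atomic K a M) →
        (∫ p, ‖pr p - F p‖ ∂π) ≤ 2 * ε →
        ∫ x, ‖A x - An x‖ ^ 2 ∂uniformOn K ≤ C1 * Real.sqrt (2 * ε) := by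
      intro a pr m F A An ha hpa hpr hF hprm hm hm0 hFl hA hAn hd
      refine (hC1 m (atomic K a M) hm hpa (measure_mono_null (compl_subset_compl.mpr hYY) hm0)
        (hnull ha) A An hA hAn (π.map fun p => (pr p, F p))
        ⟨by rw [Measure.map_map measurable_fst (hpr.prodMk hF)]; exact hprm,
         by rw [Measure.map_map measurable_snd (hpr.prodMk hF)]; exact hFl⟩).trans
        (mul_le_mul_of_nonneg_left (Real.sqrt_le_sqrt ?_) hC10)
      rwa [integral_map (hpr.prodMk hF).aemeasurable (by fun_prop)]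
    have e1 := close y Prod.fst μ f T Tn hyR hp1 measurable_fst hf hπ.1 hμ hμY hlf hT hTn hd1
    have e2 := close z Prod.snd ν f' S Sn hzR hp2 measurable_snd hf' hπ.2 hν hνY hlf' hS hSn hd2
    have hb : ∀ {A : Space d → Space d} {m : Measure (Space d)}, IsOptimalMap (uniformOn K) A m →
        m Y'ᶜ = 0 → ∀ᵐ x ∂uniformOn K, ‖A x‖ ≤ RY + 1 := fun {A m} hA hm => by
      have : ∀ᵐ x ∂uniformOn K, A x ∈ Y' := ae_of_ae_map hA.1.aemeasurable (by rw [hA.2.1]; exact hm)
      exact this.mono fun x hx => mem_closedBall_zero_iff.mp hx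
    have hi : ∀ {A B : Space d → Space d}, Measurable A → Measurable B →
        (∀ᵐ x ∂uniformOn K, ‖A x‖ ≤ RY + 1) → (∀ᵐ x ∂uniformOn K, ‖B x‖ ≤ RY + 1) →
        Integrable (fun x => ‖A x - B x‖ ^ 2) (uniformOn K) := fun {A B} hA hB ha hb =>
      Integrable.of_bound ((hA.sub hB).norm.pow_const 2).aestronglyMeasurable ((RY + 1 + (RY + 1)) ^ 2) (by
        filter_upwards [ha, hb] with x p q
        rw [norm_pow, norm_norm]
        exact pow_le_pow_left₀ (norm_nonneg _) ((norm_sub_le _ _).trans (add_le_add p q)) 2)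
    have bT := hb hT (measure_mono_null (compl_subset_compl.mpr hYY) hμY)
    have bS := hb hS (measure_mono_null (compl_subset_compl.mpr hYY) hνY)
    have bTn := hb hTn (hnull hyR)
    have bSn := hb hSn (hnull hzR)
    have i1 := hi hT.1 hTn.1 bT bTn
    have i2 := hi hTn.1 hSn.1 bTn bSn
    have i3 := hi hS.1 hSn.1 bS bSn
    have htri : U ≤ 3 * ((∫ x, ‖T x - Tn x‖ ^ 2 ∂uniformOn K) +
        (∫ x, ‖Tn x - Sn x‖ ^ 2 ∂uniformOn K) + ∫ x, ‖S x - Sn x‖ ^ 2 ∂uniformOn K) := by
      rw [← integral_add i1 i2, ← integral_add (i1.fun_add i2) i3, ← integral_const_mul]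
      refine integral_mono_of_nonneg (Eventually.of_forall fun x => by positivity)
        (((i1.fun_add i2).fun_add i3).const_mul 3) (Eventually.of_forall fun x => ?_)
      have n1 := norm_add₃_le (a := T x - Tn x) (b := Tn x - Sn x) (c := Sn x - S x)
      rw [sub_add_sub_cancel, sub_add_sub_cancel, norm_sub_rev (Sn x)] at n1
      have n2 := pow_le_pow_left₀ (norm_nonneg _) n1 2
      simp only
      nlinarith [sq_nonneg (‖T x - Tn x‖ - ‖Tn x - Sn x‖), sq_nonneg (‖T x - Tn x‖ - ‖S x - Sn x‖),
        sq_nonneg (‖Tn x - Sn x‖ - ‖S x - Sn x‖)]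
    have hmid : ∫ x, ‖Tn x - Sn x‖ ^ 2 ∂uniformOn K ≤
        C2 * (V ^ (1/3 : ℝ) * ((∫ p, ‖p.1 - p.2‖ ^ 2 ∂π) + ε) ^ (1/3 : ℝ)) := by
      refine hTS.trans (mul_le_mul_of_nonneg_left ?_ hC20)
      rw [← Real.mul_rpow hV.le (add_nonneg (integral_nonneg fun p => by positivity) hε.le)]
      exact Real.rpow_le_rpow (Finset.sum_nonneg fun i _ => mul_nonneg (hM i).le (sq_nonneg _)) hcost
        (by norm_num)
    simp only [hC3]
    linarith
  set J := sInf {c | ∃ π, IsCoupling π μ ν ∧ c = ∫ p, ‖p.1 - p.2‖ ^ 2 ∂π} with hJ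
  have hne : {c | ∃ π, IsCoupling π μ ν ∧ c = ∫ p, ‖p.1 - p.2‖ ^ 2 ∂π}.Nonempty :=
    ⟨_, μ.prod ν, ⟨by simp, by simp⟩, rfl⟩
  have hJ0 : 0 ≤ J := le_csInf hne (by rintro c ⟨π, -, rfl⟩; exact integral_nonneg fun p => by positivity)
  have hlim : U ≤ C3 * J ^ (1/3 : ℝ) := by
    have hc : Continuous fun ε : ℝ => 6 * (C1 * Real.sqrt (2 * ε)) + C3 * (J + 2 * ε) ^ (1/3 : ℝ) :=
      ((continuous_const.mul (continuous_const.mul
        (Real.continuous_sqrt.comp (continuous_const.mul continuous_id))))).add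
        (continuous_const.mul (Continuous.rpow_const (by fun_prop) fun _ => Or.inr (by norm_num)))
    have ht := ((hc.tendsto 0).comp (tendsto_id.mono_left (nhdsWithin_le_nhds (s := Ioi (0 : ℝ)))))
    simp only [mul_zero, Real.sqrt_zero, add_zero, zero_add] at ht
    refine ge_of_tendsto ht ?_
    filter_upwards [Ioo_mem_nhdsGT (zero_lt_one' ℝ)] with ε hε
    obtain ⟨c, ⟨π, hπ, rfl⟩, hc⟩ := exists_lt_of_csInf_lt hne (lt_add_of_pos_right J hε.1)
    refine (hpair π hπ ε hε.1 hε.2.le).trans ?_
    simp only [Function.comp_apply, id_eq]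
    gcongr ?_ + C3 * ?_ ^ _
    · exact le_rfl
    · exact add_nonneg (integral_nonneg fun p => by positivity) hε.1.le
    · linarith
  rw [W2, ← hJ]
  calc Real.sqrt U ≤ Real.sqrt (C3 * J ^ (1/3 : ℝ)) := Real.sqrt_le_sqrt hlim
    _ = _ := by
      rw [Real.sqrt_mul hC30, Real.sqrt_eq_rpow (J ^ _), Real.sqrt_eq_rpow J, ← Real.rpow_mul hJ0,
        ← Real.rpow_mul hJ0]
      norm_num

end Vale.Agent.P074
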