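import Vale.Agent.P074.Discrete

/-!
The potentials of optimal maps depend Lipschitz continuously on the target.
-/

noncomputable section

open MeasureTheory Set Filter
open scoped ENNReal RealInnerProductSpace Topology

namespace Vale.Agent.P074

variable {d : ℕ} {ι : Type*} [Fintype ι]

variable [Nonempty ι]

/-- The weighted moment of the cells against a family of vectors. -/
def cellMoment (K : Set (Space d)) (g : Space d → ℝ) (y : ι → Space d) (w : ι → ℝ)
    (a : ι → Space d) : ℝ :=
  ∑ i, ∫ x in cell K y w i, ⟪x, a i⟫ * (1 + g x)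

variable {K : Set (Space d)} {g : Space d → ℝ} {y z : ι → Space d} {M w : ι → ℝ}

omit [Nonempty ι] in
lemma Admissible.integrableOn_inner (hA : Admissible K g M) (a : Space d) {S : Set (Space d)}
    (hS : MeasurableSet S) (hSK : S ⊆ K) :
    IntegrableOn (fun x => ⟪x, a⟫ * (1 + g x)) S volume := by
  obtain ⟨RK, hRK⟩ := hA.compact.isBounded.exists_norm_le
  refine integrableOn_of_bound' (R := RK) hS (fun x hx => hRK x (hSK hx))
    ((measurable_id.inner measurable_const).mul (measurable_const.add hA.meas))
    (M := RK * ‖a‖ * 2) fun x hx => ?_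
  rw [abs_mul]
  refine mul_le_mul ((abs_real_inner_le_norm _ _).trans
    (mul_le_mul_of_nonneg_right (hRK x (hSK hx)) (norm_nonneg _))) ?_ (abs_nonneg _) ?_
  · have := abs_le.mp (hA.bound x)
    rw [abs_le]; constructor <;> linarith
  · exact mul_nonneg ((norm_nonneg _).trans (hRK x (hSK hx))) (norm_nonneg _)

lemma cellMoment_add (hA : Admissible K g M) (y : ι → Space d) (w : ι → ℝ) (a δ : ι → Space d)
    (h : ℝ) : cellMoment K g y w (fun i => a i + h • δ i) =
      cellMoment K g y w a + h * cellMoment K g y w δ := by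
  unfold cellMoment
  rw [Finset.mul_sum, ← Finset.sum_add_distrib]
  refine Finset.sum_congr rfl fun i _ => ?_
  have hm := measurableSet_cell hA.compact.measurableSet y w i
  rw [← integral_const_mul, ← integral_add (hA.integrableOn_inner (a i) hm inter_subset_left)
    ((hA.integrableOn_inner (δ i) hm inter_subset_left).const_mul h)]
  refine setIntegral_congr_fun hm fun x _ => ?_
  simp only [inner_add_right, inner_smul_right]
  ring

lemma exists_min (hA : Admissible K g M) (y : ι → Space d) :
    ∃ w, ∀ v, dual K g y M w ≤ dual K g y M v := by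
  obtain ⟨RK, hRK⟩ := hA.compact.isBounded.exists_norm_le
  obtain ⟨RY, hRY⟩ := (finite_range y).isBounded.exists_norm_le
  obtain ⟨j, -, hj⟩ := Finset.exists_min_image Finset.univ M Finset.univ_nonempty
  obtain ⟨w, -, -, hw⟩ := exists_dual_min hA y (Classical.arbitrary ι) (RK := max RK 0)
    (fun x hx => (hRK x hx).trans (le_max_left _ _)) (le_max_right _ _)
    (fun i => hRY _ (mem_range_self i)) (hA.mass_pos j) (fun i => hj i (Finset.mem_univ i))
  exact ⟨w, hw⟩

lemma dual_step (hA : Admissible K g M) (hy : Function.Injective y)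
    (hmin : ∀ v, dual K g y M w ≤ dual K g y M v) (δ : ι → Space d) (h : ℝ) (w' : ι → ℝ) :
    dual K g y M w + h * cellMoment K g y w δ ≤ dual K g (fun i => y i + h • δ i) M w' := by
  rw [dual_eq hA hy hmin]
  refine le_trans (le_of_eq ?_) (le_dual hA hy hmin _ w')
  exact (cellMoment_add hA y w y δ h).symm

lemma dual_sub_eq (hA : Admissible K g M) (hA0 : Admissible K (fun _ => 0) M) (y : ι → Space d)
    (v : ι → ℝ) : dual K g y M v - dual K (fun _ => 0) y M v = ∫ x in K, g x * pot y v x := by
  unfold dual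
  rw [add_sub_add_right_eq_sub,
    ← integral_sub (integrableOn_pot_mul hA.compact hA.meas hA.bound y v)
      (integrableOn_pot_mul hA.compact hA0.meas hA0.bound y v)]
  exact setIntegral_congr_fun hA.compact.measurableSet fun x _ => by ring

variable {R L : ℝ}

lemma moment_diff_le (hR : 1 ≤ R) (hL : 65536 * R ^ 2 ≤ L) (hconv : Convex ℝ K)
    (hKR : ∀ x ∈ K, ‖x‖ ≤ R) (hA : Admissible K g M) (hA0 : Admissible K (fun _ => 0) M)
    (hy : Function.Injective y) {w0 wg : ι → ℝ}
    (h0 : ∀ v, dual K (fun _ => 0) y M w0 ≤ dual K (fun _ => 0) y M v)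
    (hg : ∀ v, dual K g y M wg ≤ dual K g y M v) (δ : ι → Space d) :
    cellMoment K g y wg δ - cellMoment K (fun _ => 0) y w0 δ ≤
      200 * L * Real.sqrt (∑ i, M i * ‖δ i‖ ^ 2) * Real.sqrt (∫ x in K, g x ^ 2) := by
  have hKm := hA.compact.measurableSet
  have key := barycenter_estimate hR hL hKm hKR (A := cell K y w0) (B := cell K y wg)
    (C := cell K y fun i => (w0 i + wg i) / 2)
    (measurableSet_cell hKm y w0) (measurableSet_cell hKm y wg) (measurableSet_cell hKm y _)
    (fun i => inter_subset_left) (fun i => inter_subset_left) (fun i => inter_subset_left)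
    (disjoint_cell K y w0) (disjoint_cell K y wg) (disjoint_cell K y _)
    (ae_mem_cell hKm hy w0) (ae_mem_cell hKm hy wg) (fun i a ha b hb => ⟨?_, fun j hj => ?_⟩)
    hA.meas hA.bound hA.mass_pos
    (fun i => by simpa using cell_mass hA0 hy h0 i) (fun i => cell_mass hA hy hg i) (fun i => -δ i)
  · simp only [norm_neg] at key
    refine le_trans (le_of_eq ?_) key
    simp only [cellMoment, add_zero, mul_one, inner_neg_right, neg_mul, integral_neg,
      Finset.sum_sub_distrib, Finset.sum_neg_distrib]
    ring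
  · rw [smul_add]
    exact hconv ha.1 hb.1 (by norm_num) (by norm_num) (by norm_num)
  · have h1 := ha.2 j hj
    have h2 := hb.2 j hj
    simp only [inner_smul_left, inner_add_left, RCLike.conj_to_real]
    linarith

/-- The path estimate for the potentials. -/
lemma path_le (hR : 1 ≤ R) (hL : 65536 * R ^ 2 ≤ L) (hconv : Convex ℝ K)
    (hKR : ∀ x ∈ K, ‖x‖ ≤ R) (hA : Admissible K g M) (hA0 : Admissible K (fun _ => 0) M)
    (hy : Function.Injective y) (hz : Function.Injective z) {w wz : ι → ℝ}
    (hw : ∀ v, dual K (fun _ => 0) y M w ≤ dual K (fun _ => 0) y M v)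
    (hwz : ∀ v, dual K g z M wz ≤ dual K g z M v) :
    (∫ x in K, g x * pot z wz x) - ∫ x in K, g x * pot y w x ≤
      200 * L * Real.sqrt (∑ i, M i * ‖z i - y i‖ ^ 2) * Real.sqrt (∫ x in K, g x ^ 2) := by
  set δ : ι → Space d := fun i => z i - y i with hδ
  set C := 200 * L * Real.sqrt (∑ i, M i * ‖z i - y i‖ ^ 2) * Real.sqrt (∫ x in K, g x ^ 2) with hC
  set p : ℝ → ι → Space d := fun t i => y i + t • δ i with hp
  choose W hW using fun t => exists_min hA (p t)
  choose V hV using fun t => exists_min hA0 (p t)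
  set η : ℝ → ℝ := fun t => dual K g (p t) M (W t) - dual K (fun _ => 0) (p t) M (V t) with hη
  set b : ℝ → ℝ := fun t => cellMoment K (fun _ => 0) (p t) (V t) δ with hb
  have hshift : ∀ t h, (fun i => p t i + h • δ i) = p (t + h) := fun t h => by
    funext i; simp only [hp]; module
  have step : ∀ t t', Function.Injective (p t) → Function.Injective (p t') → t < t' →
      η t' - η t ≤ (t' - t) * C + (t' - t) * (b t' - b t) ∧ b t ≤ b t' := by
    intro t t' ht ht' hlt
    have a1 := dual_step hA0 ht (hV t) δ (t' - t) (V t')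
    have a2 := dual_step hA0 ht' (hV t') δ (-(t' - t)) (V t)
    have a3 := dual_step hA ht' (hW t') δ (-(t' - t)) (W t)
    rw [hshift, show t + (t' - t) = t' by ring] at a1
    rw [hshift, show t' + -(t' - t) = t by ring] at a2 a3
    have a4 := mul_le_mul_of_nonneg_left
      (moment_diff_le hR hL hconv hKR hA hA0 ht' (hV t') (hW t') δ) (sub_nonneg.mpr hlt.le)
    refine ⟨?_, le_of_mul_le_mul_left (?_ : (t' - t) * b t ≤ (t' - t) * b t') (sub_pos.mpr hlt)⟩
    · simp only [hη, hb, hC, hδ] at *
      linarith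
    · simp only [hb]
      linarith
  have hbad : {t | ¬ Function.Injective (p t)}.Finite := by
    have hsub : {t | ¬ Function.Injective (p t)} ⊆
        ⋃ (i : ι) (j : ι) (_ : i ≠ j), {t | p t i = p t j} := by
      intro t ht
      simp only [mem_ofPred_eq, Function.Injective, not_forall] at ht
      obtain ⟨i, j, hij, hne⟩ := ht
      exact mem_iUnion.mpr ⟨i, mem_iUnion.mpr ⟨j, mem_iUnion.mpr ⟨hne, hij⟩⟩⟩
    refine (finite_iUnion fun i => finite_iUnion fun j => finite_iUnion fun hij =>
      Set.Subsingleton.finite fun s hs t ht => ?_).subset hsub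
    by_contra hst
    simp only [mem_ofPred_eq, hp] at hs ht
    have h1 : (s - t) • (δ i - δ j) = 0 := by
      linear_combination (norm := module) hs - ht
    rcases smul_eq_zero.mp h1 with h2 | h2
    · exact hst (sub_eq_zero.mp h2)
    · exact hij (hy (by linear_combination (norm := module) hs - s • h2))
  have h0 : p 0 = y := by funext i; simp [hp]
  have h1 : p 1 = z := by funext i; simp [hp, hδ]
  have main : ∀ N : ℕ, 0 < N → η 1 - η 0 ≤ C + 3 / (2 * N) * (b 1 - b 0) := by
    intro N hN
    have hN' : (0 : ℝ) < N := by exact_mod_cast hN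
    have hsel : ∀ k : ℕ, ∃ s : ℝ, |(N : ℝ) * s - k| ≤ 1 / 4 ∧ Function.Injective (p s) ∧
        (k = 0 → s = 0) ∧ (k = N → s = 1) := by
      intro k
      rcases eq_or_ne k 0 with rfl | hk
      · refine ⟨0, by norm_num, ?_, fun _ => rfl, fun h => absurd h hN.ne⟩
        rwa [h0]
      rcases eq_or_ne k N with rfl | hk'
      · refine ⟨1, by norm_num, ?_, fun h => absurd h hk, fun _ => rfl⟩
        rwa [h1]
      obtain ⟨s, hs, hs'⟩ := ((Ioo_infinite (show ((k : ℝ) - 1/4) / N < ((k : ℝ) + 1/4) / N by
        gcongr; linarith)).sdiff hbad).nonempty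
      refine ⟨s, ?_, not_not.mp hs', fun h => absurd h hk, fun h => absurd h hk'⟩
      have e1 := (div_lt_iff₀ hN').mp hs.1
      have e2 := (lt_div_iff₀ hN').mp hs.2
      rw [abs_le]; constructor <;> linarith
    choose s hs1 hs2 hs3 hs4 using hsel
    have hinc : ∀ k, 1 / 2 ≤ N * (s (k + 1) - s k) ∧ N * (s (k + 1) - s k) ≤ 3 / 2 := fun k => by
      have e1 := abs_le.mp (hs1 k)
      have e2 := abs_le.mp (hs1 (k + 1))
      push_cast at e2
      constructor <;> linarith
    have hk : ∀ k ∈ Finset.range N, η (s (k + 1)) - η (s k) ≤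
        (s (k + 1) - s k) * C + 3 / (2 * N) * (b (s (k + 1)) - b (s k)) := fun k _ => by
      have hlt : s k < s (k + 1) := by nlinarith [(hinc k).1]
      obtain ⟨e1, e2⟩ := step _ _ (hs2 k) (hs2 (k + 1)) hlt
      have e3 : s (k + 1) - s k ≤ 3 / (2 * N) := by
        rw [le_div_iff₀ (by positivity)]; linarith [(hinc k).2]
      linarith [mul_le_mul_of_nonneg_right e3 (sub_nonneg.mpr e2)]
    have := Finset.sum_le_sum hk
    rw [Finset.sum_range_sub (fun k => η (s k)), Finset.sum_add_distrib, ← Finset.sum_mul,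
      ← Finset.mul_sum, Finset.sum_range_sub s, Finset.sum_range_sub (fun k => b (s k)),
      hs3 0 rfl, hs4 N rfl] at this
    linarith
  have hlim : η 1 - η 0 ≤ C := by
    have ht : Tendsto (fun N : ℕ => C + (3 / 2 * (b 1 - b 0)) / N) atTop (𝓝 C) := by
      simpa using tendsto_const_nhds.add (tendsto_const_div_atTop_nhds_zero_nat (3 / 2 * (b 1 - b 0)))
    refine ge_of_tendsto ht (eventually_atTop.mpr ⟨1, fun N hN => (main N hN).trans (le_of_eq ?_)⟩)
    field_simp
  have e0 := hW 0 w
  have e1 := hV 1 wz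
  have e2 := hV 0 w
  have e3 := hW 1 wz
  have f1 := hwz (W 1)
  have f2 := hw (V 0)
  simp only [hη, h0, h1] at *
  linarith [dual_sub_eq hA hA0 y w, dual_sub_eq hA hA0 z wz]

/-- Potentials of optimal maps between discrete targets are Lipschitz in the quadratic cost. -/
theorem potential_stability [NeZero d] (hR : 1 ≤ R) (hL : 65536 * R ^ 2 ≤ L) (hconv : Convex ℝ K)
    (hint : (interior K).Nonempty) (hKR : ∀ x ∈ K, ‖x‖ ≤ R) (hA0 : Admissible K (fun _ => 0) M)
    (hy : Function.Injective y) (hz : Function.Injective z) {w w' : ι → ℝ}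
    (hw : ∀ v, dual K (fun _ => 0) y M w ≤ dual K (fun _ => 0) y M v)
    (hw' : ∀ v, dual K (fun _ => 0) z M w' ≤ dual K (fun _ => 0) z M v) :
    ∃ c : ℝ, ∫ x in K, (pot z w' x - pot y w x - c) ^ 2 ≤
      (200 * L) ^ 2 * ∑ i, M i * ‖z i - y i‖ ^ 2 := by
  have hK := hA0.compact
  have hKm := hK.measurableSet
  have hVpos := volumeReal_pos hK hint
  have hfc : Continuous fun x => pot z w' x - pot y w x :=
    (continuous_pot z w').sub (continuous_pot y w)
  set c := (∫ x in K, pot z w' x - pot y w x) / volume.real K with hc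
  refine ⟨c, ?_⟩
  set F : Space d → ℝ := fun x => pot z w' x - pot y w x - c with hF
  have hFc : Continuous F := hfc.sub continuous_const
  have hF0 : ∫ x in K, F x = 0 := by
    simp only [hF]
    rw [integral_sub (hfc.continuousOn.integrableOn_compact' hK hKm)
      (integrableOn_const hK.measure_lt_top.ne), setIntegral_const, smul_eq_mul, hc,
      mul_div_cancel₀ _ hVpos.ne', sub_self]
  obtain ⟨B0, hB0⟩ := hK.exists_bound_of_continuousOn hFc.continuousOn
  set B := max B0 0 with hB
  set G : Space d → ℝ := K.indicator F with hG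
  have hGb : ∀ x, |G x| ≤ B := fun x => by
    by_cases hx : x ∈ K
    · rw [hG, indicator_of_mem hx]; exact (hB0 x hx).trans (le_max_left _ _)
    · rw [hG, indicator_of_notMem hx, abs_zero]; exact le_max_right _ _
  have hGK : ∀ x ∈ K, G x = F x := fun x hx => indicator_of_mem hx _
  set s : ℕ → ℝ := fun n => 1 / ((n + 2) * (B + 1)) with hs
  have hB1 : 0 < B + 1 := by linarith [le_max_right B0 0]
  have hs0 : ∀ n, 0 < s n := fun n => by positivity
  have hsB : ∀ n x, |s n * G x| ≤ 1 / (n + 2) := fun n x => by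
    rw [abs_mul, abs_of_pos (hs0 n)]
    refine (mul_le_mul_of_nonneg_left ((hGb x).trans (le_add_of_nonneg_right zero_le_one))
      (hs0 n).le).trans (le_of_eq ?_)
    simp only [hs]; field_simp
  have hAn : ∀ n, Admissible K (fun x => s n * G x) M := fun n =>
    { compact := hK
      meas := (hFc.measurable.indicator hKm).const_mul _
      bound := fun x => (hsB n x).trans (by gcongr; linarith [n.cast_nonneg (α := ℝ)])
      mean := by
        rw [integral_const_mul, setIntegral_congr_fun hKm (fun x hx => hGK x hx), hF0, mul_zero]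
      mass_pos := hA0.mass_pos
      mass_sum := hA0.mass_sum }
  obtain ⟨RY, hRY⟩ := (finite_range z).isBounded.exists_norm_le
  obtain ⟨j, -, hj⟩ := Finset.exists_min_image Finset.univ M Finset.univ_nonempty
  set Bw := 2 * (R * RY) * volume.real K / M j
  choose wn _ hwnB hwn using fun n => exists_dual_min (hAn n) z (Classical.arbitrary ι) hKR
    (by linarith : 0 ≤ R) (fun i => hRY _ (mem_range_self i)) (hA0.mass_pos j)
    (fun i => hj i (Finset.mem_univ i))
  obtain ⟨ws, -, φ, hφ, hlim⟩ := (isCompact_univ_pi fun _ : ι => isCompact_Icc (a := -Bw) (b := Bw)).tendsto_subseq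
    (x := wn) fun n i _ => mem_Icc.mpr (abs_le.mp (hwnB n i))
  have hdiff : ∀ (n : ℕ) (v : ι → ℝ), |dual K (fun x => s n * G x) z M v - dual K (fun _ => 0) z M v| ≤
      1 / (n + 2) * ∫ x in K, |pot z v x| := by
    intro n v
    rw [dual_sub_eq (hAn n) hA0, ← integral_const_mul]
    refine (abs_integral_le_integral_abs).trans (integral_mono_of_nonneg
      (Eventually.of_forall fun x => abs_nonneg _)
      ((continuous_pot z v).abs.continuousOn.integrableOn_compact' hK hKm |>.const_mul _)
      (Eventually.of_forall fun x => ?_))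
    simp only
    rw [abs_mul]
    exact mul_le_mul_of_nonneg_right (hsB n x) (abs_nonneg _)
  have hint2 : ∀ v, ∫ x in K, |pot z v x| ≤ (R * RY + ‖v‖) * volume.real K := fun v => by
    refine (setIntegral_mono_on ((continuous_pot z v).abs.continuousOn.integrableOn_compact' hK hKm)
      (integrableOn_const hK.measure_lt_top.ne) hKm fun x hx =>
      abs_pot_le (hKR x hx) (fun i => hRY _ (mem_range_self i)) (norm_le_pi_norm v)).trans (le_of_eq ?_)
    rw [setIntegral_const, smul_eq_mul]; ring
  have hws : ∀ v, dual K (fun _ => 0) z M ws ≤ dual K (fun _ => 0) z M v := by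
    intro v
    have ht1 : Tendsto (fun n => dual K (fun _ => 0) z M (wn (φ n))) atTop
        (𝓝 (dual K (fun _ => 0) z M ws)) :=
      (continuous_dual hK hA0.meas hA0.bound z M).continuousAt.tendsto.comp hlim
    have he : Tendsto (fun n : ℕ => 1 / ((φ n : ℝ) + 2)) atTop (𝓝 0) :=
      (tendsto_const_nhds.div_atTop (tendsto_atTop_add_const_right _ _
        tendsto_natCast_atTop_atTop)).comp hφ.tendsto_atTop
    have ht2 : Tendsto (fun n => dual K (fun _ => 0) z M v + 1 / ((φ n : ℝ) + 2) *
        ((R * RY + ‖wn (φ n)‖) * volume.real K + (R * RY + ‖v‖) * volume.real K)) atTop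
        (𝓝 (dual K (fun _ => 0) z M v)) := by
      simpa using tendsto_const_nhds.add (he.mul
        ((((tendsto_const_nhds (x := R * RY)).add hlim.norm).mul_const (volume.real K)).add
          tendsto_const_nhds))
    refine le_of_tendsto_of_tendsto' ht1 ht2 fun n => ?_
    have a1 := abs_le.mp (hdiff (φ n) (wn (φ n)))
    have a2 := abs_le.mp (hdiff (φ n) v)
    have a3 := hwn (φ n) v
    have hnn : (0 : ℝ) ≤ 1 / ((φ n : ℝ) + 2) := by positivity
    have a4 := mul_le_mul_of_nonneg_left (hint2 (wn (φ n))) hnn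
    have a5 := mul_le_mul_of_nonneg_left (hint2 v) hnn
    rw [mul_add]
    linarith
  set Sd := ∑ i, M i * ‖z i - y i‖ ^ 2
  set I := ∫ x in K, F x ^ 2 with hI
  have hI0 : 0 ≤ I := setIntegral_nonneg hKm fun x _ => sq_nonneg _
  have iFp : ∀ (u : ι → Space d) (v : ι → ℝ), IntegrableOn (fun x => F x * pot u v x) K volume :=
    fun u v => (hFc.mul (continuous_pot u v)).continuousOn.integrableOn_compact' hK hKm
  have hn : ∀ n, (∫ x in K, F x * pot z (wn n) x) - ∫ x in K, F x * pot y w x ≤
      200 * L * Real.sqrt Sd * Real.sqrt I := by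
    intro n
    have h := path_le hR hL hconv hKR (hAn n) hA0 hy hz hw (hwn n)
    have e : ∀ (u : ι → Space d) (v : ι → ℝ),
        ∫ x in K, s n * G x * pot u v x = s n * ∫ x in K, F x * pot u v x := fun u v => by
      rw [← integral_const_mul]
      exact setIntegral_congr_fun hKm fun x hx => by simp only [hGK x hx, mul_assoc]
    have e2 : Real.sqrt (∫ x in K, (s n * G x) ^ 2) = s n * Real.sqrt I := by
      rw [setIntegral_congr_fun hKm (g := fun x => s n ^ 2 * F x ^ 2)
          (fun x hx => by simp only [hGK x hx, mul_pow]),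
        integral_const_mul, Real.sqrt_mul (sq_nonneg _), Real.sqrt_sq (hs0 n).le]
    rw [e, e, e2] at h
    exact le_of_mul_le_mul_left (by linarith) (hs0 n)
  have ht : Tendsto (fun n => ∫ x in K, F x * pot z (wn (φ n)) x) atTop
      (𝓝 (∫ x in K, F x * pot z ws x)) := by
    have h := (tendsto_iff_norm_sub_tendsto_zero.mp hlim).const_mul (∫ x in K, |F x|)
    rw [mul_zero] at h
    refine tendsto_iff_norm_sub_tendsto_zero.mpr (squeeze_zero (fun n => norm_nonneg _)
      (fun n => ?_) h)
    rw [← integral_sub (iFp _ _) (iFp _ _), mul_comm, ← integral_const_mul]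
    refine (norm_integral_le_of_norm_le
      ((hFc.abs.continuousOn.integrableOn_compact' hK hKm).const_mul _)
      (Eventually.of_forall fun x => ?_))
    rw [← mul_sub, norm_mul, mul_comm]
    exact mul_le_mul_of_nonneg_right (pot_lip_weights z _ _ x) (norm_nonneg _)
  have hfin := le_of_tendsto (ht.sub_const (∫ x in K, F x * pot y w x))
    (Eventually.of_forall fun n => hn (φ n))
  obtain ⟨c', hc'⟩ := pot_unique hA0 hconv hint hz hws hw'
  have e : (∫ x in K, F x * pot z ws x) - ∫ x in K, F x * pot y w x = I := by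
    rw [← integral_sub (iFp _ _) (iFp _ _),
      setIntegral_congr_fun hKm (g := fun x => F x ^ 2 + (c + c') * F x) (fun x hx => by
        have := hc' x hx
        simp only [hF]
        linear_combination F x * this),
      integral_add (show IntegrableOn (fun x => F x ^ 2) K volume from
          (hFc.pow 2).continuousOn.integrableOn_compact' hK hKm)
        ((hFc.continuousOn.integrableOn_compact' hK hKm).const_mul _),
      integral_const_mul, hF0, mul_zero, add_zero]
  rw [e] at hfin
  have hL0 : 0 ≤ L := by nlinarith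
  rcases hI0.eq_or_lt with h | h
  · show I ≤ _
    rw [← h]
    exact mul_nonneg (sq_nonneg _) (Finset.sum_nonneg fun i _ => mul_nonneg (hA0.mass_pos i).le (sq_nonneg _))
  · show I ≤ _
    have hI1 : Real.sqrt I ≤ 200 * L * Real.sqrt Sd :=
      le_of_mul_le_mul_right (by rwa [Real.mul_self_sqrt hI0]) (Real.sqrt_pos.mpr h)
    have := pow_le_pow_left₀ (Real.sqrt_nonneg _) hI1 2
    rwa [Real.sq_sqrt hI0, mul_pow, Real.sq_sqrt] at this
    exact Finset.sum_nonneg fun i _ => mul_nonneg (hA0.mass_pos i).le (sq_nonneg _)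

end Vale.Agent.P074
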