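import Vale.Agent.P074.Monotone

/-!
A convex potential of a cyclically monotone map.
-/

noncomputable section

open MeasureTheory Set
open scoped RealInnerProductSpace

namespace Vale.Agent.P074

variable {d : ℕ} (T : Space d → Space d)

/-- The value at `y` of a chain, written from its last point. -/
def chainVal : List (Space d) → Space d → ℝ
  | [], _ => 0
  | a :: l, y => ⟪T a, y - a⟫ + chainVal l a

lemma chainVal_append (a : Space d) (rest : List (Space d)) :
    ∀ (pre : List (Space d)) (y : Space d),
      chainVal T (pre ++ a :: rest) y = chainVal T (pre ++ [a]) y + chainVal T rest a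
  | [], y => by simp [chainVal]
  | b :: pre, y => by
    simp only [List.cons_append, chainVal, chainVal_append a rest pre b]
    ring

lemma chainVal_eq_sum : ∀ (l : List (Space d)) (y : Space d),
    chainVal T l y = ∑ k : Fin l.length, ⟪T l[(k : ℕ)], (y :: l)[(k : ℕ)]'(by simp) - l[(k : ℕ)]⟫
  | [], y => by simp [chainVal]
  | a :: l, y => by
    rw [chainVal, chainVal_eq_sum l a]
    simp only [List.length_cons]
    rw [Fin.sum_univ_succ]
    simp

variable {T} {A : Set (Space d)}

lemma chainVal_cycle_le (h : CyclicMono T A) {l : List (Space d)} (hn : l.Nodup)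
    (hA : ∀ a ∈ l, a ∈ A) {a : Space d} (ha : l.getLast? = some a) : chainVal T l a ≤ 0 := by
  obtain ⟨m, hm⟩ : ∃ m, l.length = m + 1 := by
    rcases l with _ | ⟨b, l'⟩
    · simp at ha
    · exact ⟨l'.length, rfl⟩
  have hlast : a = l[m]'(by omega) := by
    rw [List.getLast?_eq_getElem?, hm, Nat.add_sub_cancel, List.getElem?_eq_getElem (by omega)] at ha
    exact (Option.some.inj ha).symm
  let x : Fin (m + 1) → Space d := fun k => l[(k : ℕ)]'(by omega)
  have hinj : Function.Injective x := fun i j hij => Fin.ext ((hn.getElem_inj_iff).mp hij)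
  have hx : ∀ i, x i ∈ A := fun i => hA _ (List.getElem_mem _)
  have := h (m + 1) x hinj hx (finRotate (m + 1)).symm
  rw [chainVal_eq_sum, ← Equiv.sum_comp (finCongr hm.symm)]
  refine le_of_eq_of_le (Finset.sum_congr rfl fun k _ => ?_) this
  simp only [finCongr_apply, Fin.val_cast, x]
  congr 2
  induction k using Fin.cases with
  | zero =>
    have : (finRotate (m + 1)).symm 0 = Fin.last m := by
      rw [Equiv.symm_apply_eq, finRotate_last]
    simp only [this, Fin.val_zero, Fin.val_last, List.getElem_cons_zero]
    exact hlast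
  | succ i =>
    have : (finRotate (m + 1)).symm i.succ = i.castSucc := by
      rw [Equiv.symm_apply_eq, finRotate_apply]
      ext; simp
    simp only [this, Fin.val_succ, Fin.val_castSucc, List.getElem_cons_succ]

/-- Rockafellar's potential. -/
lemma exists_potential (h : CyclicMono T A) (hne : A.Nonempty) {R : ℝ} (hR : ∀ a ∈ A, ‖T a‖ ≤ R) :
    ∃ φ : Space d → ℝ, (∀ x y, |φ x - φ y| ≤ R * ‖x - y‖) ∧
      ∀ a ∈ A, ∀ x, φ a + ⟪T a, x - a⟫ ≤ φ x := by
  obtain ⟨x0, hx0⟩ := hne
  let Ch := {l : List (Space d) // l.Nodup ∧ (∀ a ∈ l, a ∈ A) ∧ l.getLast? = some x0}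
  have : Nonempty Ch := ⟨⟨[x0], by simp, by simpa using hx0, by simp⟩⟩
  have hlip : ∀ (c : Ch) x y, chainVal T c.1 x ≤ chainVal T c.1 y + R * ‖x - y‖ := by
    rintro ⟨l, hn, hA, hlast⟩ x y
    rcases l with _ | ⟨a, l'⟩
    · simp at hlast
    · simp only [chainVal]
      have h1 : ⟪T a, x - a⟫ - ⟪T a, y - a⟫ = ⟪T a, x - y⟫ := by
        rw [← inner_sub_right]; congr 1; abel
      have h2 : ⟪T a, x - y⟫ ≤ R * ‖x - y‖ := (real_inner_le_norm _ _).trans
        (mul_le_mul_of_nonneg_right (hR a (hA a List.mem_cons_self)) (norm_nonneg _))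
      linarith
  have hbdd : ∀ x, BddAbove (range fun c : Ch => chainVal T c.1 x) := by
    intro x
    refine ⟨R * ‖x - x0‖, ?_⟩
    rintro _ ⟨c, rfl⟩
    have := hlip c x x0
    have := chainVal_cycle_le h c.2.1 c.2.2.1 c.2.2.2
    dsimp only
    linarith
  refine ⟨fun x => ⨆ c : Ch, chainVal T c.1 x, fun x y => ?_, fun a ha x => ?_⟩
  · have hle : ∀ x y, (⨆ c : Ch, chainVal T c.1 x) ≤ (⨆ c : Ch, chainVal T c.1 y) + R * ‖x - y‖ :=
      fun x y => ciSup_le fun c =>
        (hlip c x y).trans (add_le_add (le_ciSup (hbdd y) c) le_rfl)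
    rw [abs_le]
    have h1 := hle x y
    have h2 := hle y x
    rw [norm_sub_rev y x] at h2
    constructor <;> linarith
  · rw [← le_sub_iff_add_le]
    refine ciSup_le fun c => ?_
    rw [le_sub_iff_add_le]
    obtain ⟨l, hn, hA, hlast⟩ := c
    dsimp only
    by_cases hmem : a ∈ l
    · obtain ⟨pre, rest, rfl⟩ := List.append_of_mem hmem
      have hn' : (a :: rest).Nodup := (List.nodup_append.mp hn).2.1
      have hl' : (a :: rest).getLast? = some x0 := by
        rwa [List.getLast?_append_cons] at hlast
      have hcyc : chainVal T (pre ++ [a]) a ≤ 0 := by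
        refine chainVal_cycle_le h (hn.sublist (List.Sublist.append_left ?_ pre))
          (fun b hb => hA b ?_) (by simp)
        · exact List.singleton_sublist.mpr List.mem_cons_self
        · rcases List.mem_append.mp hb with hb | hb
          · exact List.mem_append_left _ hb
          · exact List.mem_append_right _ (by simp at hb; simp [hb])
      rw [chainVal_append]
      have := le_ciSup (hbdd x) ⟨a :: rest, hn', fun b hb => hA b (List.mem_append_right _ hb), hl'⟩
      simp only [chainVal] at this
      linarith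
    · have hl' : (a :: l).getLast? = some x0 := by
        rcases l with _ | ⟨b, l'⟩
        · simp at hlast
        · simpa [List.getLast?_cons_cons] using hlast
      have := le_ciSup (hbdd x) ⟨a :: l, List.nodup_cons.mpr ⟨hmem, hn⟩,
        fun b hb => by rcases List.mem_cons.mp hb with rfl | hb <;> [exact ha; exact hA b hb], hl'⟩
      simp only [chainVal] at this
      linarith

end Vale.Agent.P074
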