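import Vale.Agent.P074.Stability
import Vale.Agent.P074.Barycenter

/-!
Semi-discrete optimal transport: potentials, cells, existence and uniqueness.
-/

noncomputable section

open MeasureTheory Set Filter
open scoped ENNReal RealInnerProductSpace Topology

namespace Vale.Agent.P074

variable {d : ℕ} {ι : Type*} [Fintype ι] [Nonempty ι]

/-- The convex potential of atoms `y` with intercepts `w`. -/
def pot (y : ι → Space d) (w : ι → ℝ) (x : Space d) : ℝ :=
  Finset.univ.sup' Finset.univ_nonempty fun i => ⟪x, y i⟫ - w i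

/-- The open cell of one atom inside `K`. -/
def cell (K : Set (Space d)) (y : ι → Space d) (w : ι → ℝ) (i : ι) : Set (Space d) :=
  K ∩ {x | ∀ j, j ≠ i → ⟪x, y j⟫ - w j < ⟪x, y i⟫ - w i}

/-- The map sending each open cell to its atom. -/
def cellMap (K : Set (Space d)) (y : ι → Space d) (w : ι → ℝ) (x : Space d) : Space d :=
  ∑ i, (cell K y w i).indicator (fun _ => y i) x

/-- The dual functional for the density `1 + g` on `K` and the masses `M`. -/
def dual (K : Set (Space d)) (g : Space d → ℝ) (y : ι → Space d) (M w : ι → ℝ) : ℝ :=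
  (∫ x in K, pot y w x * (1 + g x)) + ∑ i, M i * w i

variable {K : Set (Space d)} {y : ι → Space d} {w : ι → ℝ}

lemma le_pot (y : ι → Space d) (w : ι → ℝ) (x : Space d) (i : ι) : ⟪x, y i⟫ - w i ≤ pot y w x :=
  Finset.le_sup' (fun i => ⟪x, y i⟫ - w i) (Finset.mem_univ i)

lemma exists_pot_eq (y : ι → Space d) (w : ι → ℝ) (x : Space d) :
    ∃ i, pot y w x = ⟪x, y i⟫ - w i := by
  obtain ⟨i, -, hi⟩ := Finset.exists_mem_eq_sup' Finset.univ_nonempty fun i => ⟪x, y i⟫ - w i
  exact ⟨i, hi⟩

lemma pot_le {x : Space d} {a : ℝ} (h : ∀ i, ⟪x, y i⟫ - w i ≤ a) : pot y w x ≤ a :=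
  Finset.sup'_le _ _ fun i _ => h i

lemma continuous_pot (y : ι → Space d) (w : ι → ℝ) : Continuous (pot y w) :=
  Continuous.finset_sup'_apply _ fun i _ => by fun_prop

lemma abs_pot_le {RK RY : ℝ} {x : Space d} (hx : ‖x‖ ≤ RK) (hy : ∀ i, ‖y i‖ ≤ RY) {B : ℝ}
    (hw : ∀ i, |w i| ≤ B) : |pot y w x| ≤ RK * RY + B := by
  obtain ⟨i, hi⟩ := exists_pot_eq y w x
  rw [hi]
  refine (abs_sub _ _).trans (add_le_add ((abs_real_inner_le_norm _ _).trans ?_) (hw i))
  exact mul_le_mul hx (hy i) (norm_nonneg _) ((norm_nonneg x).trans hx)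

lemma pot_add_const (y : ι → Space d) (w : ι → ℝ) (c : ℝ) (x : Space d) :
    pot y (fun i => w i + c) x = pot y w x - c := by
  refine le_antisymm (pot_le fun i => ?_) ?_
  · have := le_pot y w x i
    linarith
  · obtain ⟨i, hi⟩ := exists_pot_eq y w x
    have := le_pot y (fun i => w i + c) x i
    linarith

lemma pot_lip_weights (y : ι → Space d) (w w' : ι → ℝ) (x : Space d) :
    |pot y w x - pot y w' x| ≤ ‖w - w'‖ := by
  have h : ∀ w w' : ι → ℝ, pot y w x ≤ pot y w' x + ‖w - w'‖ := fun w w' => pot_le fun i => by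
    have h1 := le_pot y w' x i
    have h2 := norm_le_pi_norm (w - w') i
    rw [Pi.sub_apply, Real.norm_eq_abs] at h2
    linarith [(abs_le.mp h2).1]
  have h1 := h w w'
  have h2 := h w' w
  rw [norm_sub_rev] at h2
  rw [abs_le]; constructor <;> linarith

lemma measurableSet_cell (hK : MeasurableSet K) (y : ι → Space d) (w : ι → ℝ) (i : ι) :
    MeasurableSet (cell K y w i) := by
  refine hK.inter ?_
  have : {x : Space d | ∀ j, j ≠ i → ⟪x, y j⟫ - w j < ⟪x, y i⟫ - w i} =
      ⋂ (j : ι) (_ : j ≠ i), {x : Space d | ⟪x, y j⟫ - w j < ⟪x, y i⟫ - w i} := by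
    ext; simp
  rw [this]
  exact MeasurableSet.iInter fun j => MeasurableSet.iInter fun _ =>
    measurableSet_lt (by fun_prop) (by fun_prop)

lemma disjoint_cell (K : Set (Space d)) (y : ι → Space d) (w : ι → ℝ) :
    Pairwise fun i j => Disjoint (cell K y w i) (cell K y w j) := fun i j hij =>
  Set.disjoint_left.mpr fun x hi hj => by
    have h1 := hi.2 j hij.symm
    have h2 := hj.2 i hij
    linarith

lemma pot_eq_of_mem {x : Space d} {i : ι} (hx : x ∈ cell K y w i) :
    pot y w x = ⟪x, y i⟫ - w i := by
  refine le_antisymm (pot_le fun j => ?_) (le_pot y w x i)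
  rcases eq_or_ne j i with rfl | h
  · exact le_rfl
  · exact (hx.2 j h).le

lemma cellMap_of_mem {x : Space d} {i : ι} (hx : x ∈ cell K y w i) : cellMap K y w x = y i := by
  rw [cellMap, Finset.sum_eq_single i, indicator_of_mem hx]
  · intro j _ hji
    exact indicator_of_notMem (fun h => Set.disjoint_left.mp (disjoint_cell K y w hji) h hx) _
  · intro h; exact absurd (Finset.mem_univ i) h

lemma measurable_cellMap (hK : MeasurableSet K) (y : ι → Space d) (w : ι → ℝ) :
    Measurable (cellMap K y w) :=
  Finset.measurable_fun_sum _ fun i _ => measurable_const.indicator (measurableSet_cell hK y w i)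

lemma volume_level_eq_zero {v : Space d} (hv : v ≠ 0) (c : ℝ) :
    volume {x : Space d | ⟪x, v⟫ = c} = 0 := by
  set x0 := (c / ‖v‖ ^ 2) • v with hx0
  have hne : ‖v‖ ^ 2 ≠ 0 := by positivity
  have h : {x : Space d | ⟪x, v⟫ = c} =
      (fun x => x + -x0) ⁻¹' ((LinearMap.ker (innerSL ℝ v).toLinearMap : Submodule ℝ (Space d)) : Set (Space d)) := by
    ext x
    simp only [mem_setOf_eq, mem_preimage, SetLike.mem_coe, LinearMap.mem_ker,
      ContinuousLinearMap.coe_coe, innerSL_apply_apply, inner_add_right, inner_neg_right, hx0,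
      inner_smul_right, real_inner_self_eq_norm_sq, div_mul_cancel₀ _ hne]
    rw [real_inner_comm x v]
    constructor <;> intro h <;> linarith
  rw [h, measure_preimage_add_right]
  refine Measure.addHaar_submodule _ _ fun htop => hv ?_
  have : v ∈ LinearMap.ker (innerSL ℝ v).toLinearMap := htop ▸ Submodule.mem_top
  simpa [real_inner_self_eq_norm_sq] using this

lemma ae_mem_cell (hK : MeasurableSet K) (hy : Function.Injective y) (w : ι → ℝ) :
    ∀ᵐ x ∂volume.restrict K, x ∈ ⋃ i, cell K y w i := by
  have h : ∀ᵐ x : Space d, ∀ i j, i ≠ j → ⟪x, y i⟫ - w i ≠ ⟪x, y j⟫ - w j := by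
    refine ae_all_iff.mpr fun i => ae_all_iff.mpr fun j => ?_
    by_cases hij : i = j
    · exact Eventually.of_forall fun x h => absurd hij h
    · have := measure_eq_zero_iff_ae_notMem.mp (volume_level_eq_zero (v := y i - y j)
        (sub_ne_zero.mpr (hy.ne hij)) (w i - w j))
      filter_upwards [this] with x hx _ heq
      exact hx (by rw [inner_sub_right]; linarith)
  filter_upwards [ae_restrict_of_ae h, ae_restrict_mem hK] with x hx hxK
  obtain ⟨i, hi⟩ := exists_pot_eq y w x
  refine mem_iUnion.mpr ⟨i, hxK, fun j hj => lt_of_le_of_ne ?_ (hx j i hj)⟩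
  rw [← hi]; exact le_pot y w x j

variable {M : ι → ℝ} {g : Space d → ℝ}

lemma integrableOn_pot_mul (hK : IsCompact K) (hg : Measurable g) (hgb : ∀ x, |g x| ≤ 1 / 2)
    (y : ι → Space d) (w : ι → ℝ) : IntegrableOn (fun x => pot y w x * (1 + g x)) K volume := by
  obtain ⟨RK, hRK⟩ := hK.isBounded.exists_norm_le
  obtain ⟨B, hB⟩ := hK.exists_bound_of_continuousOn (continuous_pot y w).continuousOn
  refine integrableOn_of_bound' (R := RK) hK.measurableSet hRK
    ((continuous_pot y w).measurable.mul (measurable_const.add hg)) (M := B * 2) fun x hx => ?_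
  rw [abs_mul]
  refine mul_le_mul ((Real.norm_eq_abs _).symm.le.trans (hB x hx)) ?_ (abs_nonneg _)
    ((norm_nonneg _).trans (hB x hx))
  have := abs_le.mp (hgb x)
  rw [abs_le]; constructor <;> linarith

lemma sum_setIntegral_cell (hK : IsCompact K) (hy : Function.Injective y) (w : ι → ℝ)
    {f : Space d → ℝ} (hf : IntegrableOn f K volume) :
    ∑ i, ∫ x in cell K y w i, f x = ∫ x in K, f x := by
  rw [← integral_iUnion_fintype (fun i => measurableSet_cell hK.measurableSet y w i)
    (disjoint_cell K y w) fun i => hf.mono_set inter_subset_left]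
  refine setIntegral_congr_set ?_
  have h := (ae_restrict_iff' hK.measurableSet).mp (ae_mem_cell hK.measurableSet hy w)
  filter_upwards [h] with x hx
  exact propext ⟨fun h => iUnion_subset (fun i => inter_subset_left) h, hx⟩

/-- The dual functional is Lipschitz in the weights. -/
lemma continuous_dual (hK : IsCompact K) (hg : Measurable g) (hgb : ∀ x, |g x| ≤ 1 / 2)
    (y : ι → Space d) (M : ι → ℝ) : Continuous (dual K g y M) := by
  have hfin : volume K ≠ ⊤ := hK.measure_lt_top.ne
  refine Continuous.add ?_ (by fun_prop)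
  refine (LipschitzWith.of_dist_le' (K := 2 * volume.real K) fun w w' => ?_).continuous
  rw [Real.dist_eq, dist_eq_norm, ← integral_sub (integrableOn_pot_mul hK hg hgb y w)
    (integrableOn_pot_mul hK hg hgb y w'), ← Real.norm_eq_abs]
  refine (norm_setIntegral_le_of_norm_le_const (lt_top_iff_ne_top.mpr hfin) (C := 2 * ‖w - w'‖)
    fun x _ => ?_).trans (le_of_eq (by ring))
  rw [← sub_mul, Real.norm_eq_abs, abs_mul, mul_comm 2 ‖w - w'‖]
  refine mul_le_mul (pot_lip_weights y w w' x) ?_ (abs_nonneg _) (norm_nonneg _)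
  have := abs_le.mp (hgb x)
  rw [abs_le]; constructor <;> linarith

/-- Data of a semi-discrete problem. -/
structure Admissible (K : Set (Space d)) (g : Space d → ℝ) (M : ι → ℝ) : Prop where
  compact : IsCompact K
  meas : Measurable g
  bound : ∀ x, |g x| ≤ 1 / 2
  mean : ∫ x in K, g x = 0
  mass_pos : ∀ i, 0 < M i
  mass_sum : ∑ i, M i = volume.real K

variable (hA : Admissible K g M)
include hA

lemma Admissible.intg : IntegrableOn g K volume := by
  obtain ⟨RK, hRK⟩ := hA.compact.isBounded.exists_norm_le
  exact integrableOn_of_bound' (R := RK) hA.compact.measurableSet hRK hA.meas fun x _ => hA.bound x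

lemma Admissible.intone : IntegrableOn (fun x => 1 + g x) K volume := by
  obtain ⟨RK, hRK⟩ := hA.compact.isBounded.exists_norm_le
  exact integrableOn_of_bound' (R := RK) hA.compact.measurableSet hRK
    (measurable_const.add hA.meas) (M := 2) fun x _ => by
      have := abs_le.mp (hA.bound x)
      rw [abs_le]; constructor <;> linarith

lemma Admissible.total : ∫ x in K, (1 + g x) = volume.real K := by
  have i1 : IntegrableOn (fun _ : Space d => (1 : ℝ)) K volume :=
    integrableOn_const hA.compact.measure_lt_top.ne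
  rw [integral_add i1 hA.intg, hA.mean]
  simp

lemma dual_add_const (y : ι → Space d) (w : ι → ℝ) (c : ℝ) :
    dual K g y M (fun i => w i + c) = dual K g y M w := by
  have i1 : Integrable (fun x => c * (1 + g x)) (volume.restrict K) :=
    hA.intone.const_mul c
  have e2 : ∑ i, M i * (w i + c) = (∑ i, M i * w i) + c * volume.real K := by
    simp only [mul_add, Finset.sum_add_distrib, ← Finset.sum_mul, hA.mass_sum]
    ring
  unfold dual
  simp only [pot_add_const, sub_mul]
  rw [integral_sub (integrableOn_pot_mul hA.compact hA.meas hA.bound y w) i1, integral_const_mul,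
    hA.total, e2]
  ring

/-- A minimiser with one weight normalised to zero exists. -/
lemma exists_dual_min (y : ι → Space d) (i0 : ι) {RK RY : ℝ} (hK : ∀ x ∈ K, ‖x‖ ≤ RK)
    (hRK : 0 ≤ RK) (hy : ∀ i, ‖y i‖ ≤ RY) {m : ℝ} (hm : 0 < m) (hmM : ∀ i, m ≤ M i) :
    ∃ w : ι → ℝ, w i0 = 0 ∧ (∀ i, |w i| ≤ 2 * (RK * RY) * volume.real K / m) ∧
      ∀ w', dual K g y M w ≤ dual K g y M w' := by
  have hV : 0 ≤ volume.real K := measureReal_nonneg
  have hRY : 0 ≤ RY := (norm_nonneg _).trans (hy i0)
  set B := 2 * (RK * RY) * volume.real K / m with hB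
  have hB0 : 0 ≤ B := by positivity
  have hzero : dual K g y M (fun _ => 0) ≤ RK * RY * volume.real K := by
    unfold dual
    simp only [mul_zero, Finset.sum_const_zero, add_zero]
    refine (setIntegral_mono_on (integrableOn_pot_mul hA.compact hA.meas hA.bound y _)
      (hA.intone.const_mul (RK * RY))
      hA.compact.measurableSet fun x hx => ?_).trans (le_of_eq ?_)
    · refine mul_le_mul_of_nonneg_right (pot_le (w := fun _ => (0:ℝ)) fun i => ?_)
        (by linarith [(abs_le.mp (hA.bound x)).1])
      rw [sub_zero]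
      exact (real_inner_le_norm _ _).trans (mul_le_mul (hK x hx) (hy i) (norm_nonneg _) hRK)
    · rw [integral_const_mul, hA.total]
  have hlow : ∀ w : ι → ℝ, ∀ j, -(RK * RY * volume.real K) + ∑ i, M i * (w i - w j) ≤
      dual K g y M w := by
    intro w j
    have h1 : (∫ x in K, (-(RK * RY) - w j) * (1 + g x)) ≤ ∫ x in K, pot y w x * (1 + g x) := by
      refine setIntegral_mono_on
        (hA.intone.const_mul _)
        (integrableOn_pot_mul hA.compact hA.meas hA.bound y w) hA.compact.measurableSet fun x hx => ?_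
      refine mul_le_mul_of_nonneg_right (le_trans ?_ (le_pot y w x j)) (by linarith [(abs_le.mp (hA.bound x)).1])
      have := neg_le_of_abs_le ((abs_real_inner_le_norm x (y j)).trans
        (mul_le_mul (hK x hx) (hy j) (norm_nonneg _) hRK))
      linarith
    rw [integral_const_mul, hA.total] at h1
    have e : ∑ i, M i * (w i - w j) = (∑ i, M i * w i) - volume.real K * w j := by
      simp only [mul_sub, Finset.sum_sub_distrib, ← Finset.sum_mul, hA.mass_sum]
    unfold dual
    rw [e]; linarith
  obtain ⟨w, hw, hmin⟩ := ((isCompact_univ_pi fun _ : ι => isCompact_Icc (a := -B) (b := B)).inter_right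
    (isClosed_eq (continuous_apply i0) continuous_const : IsClosed {w : ι → ℝ | w i0 = 0})).exists_isMinOn
    ⟨0, fun i _ => ⟨by simpa using hB0, by simpa using hB0⟩, rfl⟩
    (continuous_dual hA.compact hA.meas hA.bound y M).continuousOn
  refine ⟨w, hw.2, fun i => abs_le.mpr (mem_Icc.mp (hw.1 i (mem_univ i))), fun w' => ?_⟩
  rw [← dual_add_const hA y w' (-(w' i0))]
  set v : ι → ℝ := fun i => w' i + -(w' i0) with hv
  have hv0 : v i0 = 0 := by simp [hv]
  by_cases hbox : ∀ i, |v i| ≤ B
  · exact hmin ⟨fun i _ => mem_Icc.mpr (abs_le.mp (hbox i)), hv0⟩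
  · push Not at hbox
    obtain ⟨k, hk⟩ := hbox
    obtain ⟨j, -, hj⟩ := Finset.exists_min_image Finset.univ v Finset.univ_nonempty
    have hsum : m * |v k| ≤ ∑ i, M i * (v i - v j) := by
      have hnn : ∀ i, 0 ≤ v i - v j := fun i => sub_nonneg.mpr (hj i (Finset.mem_univ i))
      have hone : ∀ i, m * (v i - v j) ≤ ∑ l, M l * (v l - v j) := fun i =>
        (mul_le_mul_of_nonneg_right (hmM i) (hnn i)).trans
          (Finset.single_le_sum (f := fun l => M l * (v l - v j))
            (fun l _ => mul_nonneg (hA.mass_pos l).le (hnn l)) (Finset.mem_univ i))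
      rcases le_total 0 (v k) with h | h
      · rw [abs_of_nonneg h]
        refine le_trans (mul_le_mul_of_nonneg_left ?_ hm.le) (hone k)
        linarith [hj i0 (Finset.mem_univ i0)]
      · rw [abs_of_nonpos h]
        refine le_trans (mul_le_mul_of_nonneg_left ?_ hm.le) (hone i0)
        linarith [hj k (Finset.mem_univ k)]
    have h0 : dual K g y M w ≤ dual K g y M (fun _ => 0) :=
      hmin ⟨fun i _ => ⟨by simpa using hB0, by simpa using hB0⟩, rfl⟩
    have hk' : 2 * (RK * RY) * volume.real K < m * |v k| := by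
      rw [hB, div_lt_iff₀ hm] at hk; linarith
    linarith [hlow v j]

/-- The first order condition: the cells of a minimiser have the prescribed masses. -/
lemma cell_mass (hy : Function.Injective y) (hmin : ∀ w', dual K g y M w ≤ dual K g y M w') (i : ι) :
    ∫ x in cell K y w i, (1 + g x) = M i := by
  classical
  have hKm := hA.compact.measurableSet
  have ione := hA.intone
  have hle : ∀ i, ∫ x in cell K y w i, (1 + g x) ≤ M i := by
    intro i
    set S : ℕ → Set (Space d) := fun n =>
      K ∩ {x | ∀ j, j ≠ i → ⟪x, y j⟫ - w j ≤ ⟪x, y i⟫ - w i - 1 / (n + 1 : ℝ)} with hS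
    have hSm : ∀ n, MeasurableSet (S n) := fun n => by
      refine hKm.inter ?_
      have : {x : Space d | ∀ j, j ≠ i → ⟪x, y j⟫ - w j ≤ ⟪x, y i⟫ - w i - 1 / (n + 1 : ℝ)} =
          ⋂ (j : ι) (_ : j ≠ i), {x : Space d | ⟪x, y j⟫ - w j ≤ ⟪x, y i⟫ - w i - 1 / (n + 1 : ℝ)} := by
        ext; simp
      rw [this]
      exact MeasurableSet.iInter fun j => MeasurableSet.iInter fun _ =>
        measurableSet_le (by fun_prop) (by fun_prop)
    have hmono : Monotone S := fun n k hnk x hx => ⟨hx.1, fun j hj => (hx.2 j hj).trans (by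
      have : (1 : ℝ) / (k + 1) ≤ 1 / (n + 1) :=
        one_div_le_one_div_of_le (by positivity) (by exact_mod_cast Nat.succ_le_succ hnk)
      linarith)⟩
    have hUn : ⋃ n, S n = cell K y w i := by
      ext x
      constructor
      · intro hx
        obtain ⟨n, hn⟩ := mem_iUnion.mp hx
        refine ⟨hn.1, fun j hj => lt_of_le_of_lt (hn.2 j hj) ?_⟩
        have : (0 : ℝ) < 1 / (n + 1) := by positivity
        linarith
      · intro hx
        rcases (Finset.univ.erase i).eq_empty_or_nonempty with he | hne
        · refine mem_iUnion.mpr ⟨0, hx.1, fun j hj => absurd he (Finset.nonempty_iff_ne_empty.mp ?_)⟩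
          exact ⟨j, Finset.mem_erase.mpr ⟨hj, Finset.mem_univ _⟩⟩
        · obtain ⟨k, hk, hkmax⟩ := Finset.exists_max_image _ (fun j => ⟪x, y j⟫ - w j) hne
          have hpos := hx.2 k (Finset.mem_erase.mp hk).1
          obtain ⟨n, hn⟩ := exists_nat_one_div_lt (sub_pos.mpr hpos)
          refine mem_iUnion.mpr ⟨n, hx.1, fun j hj => ?_⟩
          have := hkmax j (Finset.mem_erase.mpr ⟨hj, Finset.mem_univ _⟩)
          linarith
    have hlim := tendsto_setIntegral_of_monotone hSm hmono
      (ione.mono_set (iUnion_subset fun n => inter_subset_left))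
    rw [hUn] at hlim
    refine le_of_tendsto hlim (Eventually.of_forall fun n => ?_)
    set ε : ℝ := 1 / (n + 1) with hε
    have hε0 : 0 < ε := by positivity
    set w' : ι → ℝ := Function.update w i (w i + ε) with hw'
    have hw'i : w' i = w i + ε := by simp [hw']
    have hw'j : ∀ j, j ≠ i → w' j = w j := fun j hj => by simp [hw', hj]
    have hpt : ∀ x ∈ K, pot y w' x * (1 + g x) ≤
        pot y w x * (1 + g x) - ε * (S n).indicator (fun x => 1 + g x) x := by
      intro x hx
      have hg1 : 0 ≤ 1 + g x := by linarith [(abs_le.mp (hA.bound x)).1]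
      by_cases hxS : x ∈ S n
      · rw [indicator_of_mem hxS, ← sub_mul]
        refine mul_le_mul_of_nonneg_right (pot_le fun j => ?_) hg1
        rcases eq_or_ne j i with rfl | hj
        · rw [hw'i]; linarith [le_pot y w x j]
        · rw [hw'j j hj]
          linarith [hxS.2 j hj, le_pot y w x i]
      · rw [indicator_of_notMem hxS, mul_zero, sub_zero]
        refine mul_le_mul_of_nonneg_right (pot_le fun j => ?_) hg1
        rcases eq_or_ne j i with rfl | hj
        · rw [hw'i]; linarith [le_pot y w x j]
        · rw [hw'j j hj]; exact le_pot y w x j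
    have iS : Integrable (fun x => ε * (S n).indicator (fun x => 1 + g x) x) (volume.restrict K) :=
      (Integrable.indicator ione (hSm n)).const_mul ε
    have h1 := setIntegral_mono_on (integrableOn_pot_mul hA.compact hA.meas hA.bound y w')
      ((integrableOn_pot_mul hA.compact hA.meas hA.bound y w).sub' iS) hKm hpt
    rw [integral_sub (integrableOn_pot_mul hA.compact hA.meas hA.bound y w) iS, integral_const_mul,
      setIntegral_indicator (hSm n), inter_eq_right.mpr (inter_subset_left : S n ⊆ K)] at h1
    have hsum : ∑ j, M j * w' j = ∑ j, M j * w j + ε * M i := by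
      have : ∀ j, M j * w' j = M j * w j + if j = i then ε * M i else 0 := fun j => by
        rcases eq_or_ne j i with rfl | hj
        · rw [hw'i, if_pos rfl]; ring
        · rw [hw'j j hj, if_neg hj, add_zero]
      simp [this, Finset.sum_add_distrib]
    have := hmin w'
    unfold dual at this
    rw [hsum] at this
    exact le_of_mul_le_mul_left (by linarith) hε0
  by_contra hne
  have hlt : ∫ x in cell K y w i, (1 + g x) < M i := lt_of_le_of_ne (hle i) hne
  have := Finset.sum_lt_sum (fun j _ => hle j) ⟨i, Finset.mem_univ i, hlt⟩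
  rw [sum_setIntegral_cell hA.compact hy w ione, hA.total, hA.mass_sum] at this
  exact lt_irrefl _ this

/-- The value at a minimiser. -/
lemma dual_eq (hy : Function.Injective y) (hmin : ∀ w', dual K g y M w ≤ dual K g y M w') :
    dual K g y M w = ∑ i, ∫ x in cell K y w i, ⟪x, y i⟫ * (1 + g x) := by
  have hKm := hA.compact.measurableSet
  have hpot := integrableOn_pot_mul hA.compact hA.meas hA.bound y w
  unfold dual
  rw [← sum_setIntegral_cell hA.compact hy w hpot, ← Finset.sum_add_distrib]
  refine Finset.sum_congr rfl fun i _ => ?_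
  have ic : IntegrableOn (fun x => w i * (1 + g x)) (cell K y w i) volume :=
    IntegrableOn.mono_set (hA.intone.const_mul _) inter_subset_left
  rw [show M i * w i = ∫ x in cell K y w i, w i * (1 + g x) by
      rw [integral_const_mul, cell_mass hA hy hmin i]; ring,
    ← integral_add (show IntegrableOn (fun x => pot y w x * (1 + g x)) (cell K y w i) volume from
      hpot.mono_set inter_subset_left) ic]
  refine setIntegral_congr_fun (measurableSet_cell hKm y w i) fun x hx => ?_
  rw [pot_eq_of_mem hx]; ring

/-- Any partition with the prescribed masses gives a lower bound for the dual functional. -/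
lemma le_dual {y0 : ι → Space d} {w0 : ι → ℝ} (hy0 : Function.Injective y0)
    (hmin : ∀ w', dual K g y0 M w0 ≤ dual K g y0 M w') (y' : ι → Space d) (w' : ι → ℝ) :
    ∑ i, ∫ x in cell K y0 w0 i, ⟪x, y' i⟫ * (1 + g x) ≤ dual K g y' M w' := by
  have hKm := hA.compact.measurableSet
  have hpot := integrableOn_pot_mul hA.compact hA.meas hA.bound y' w'
  unfold dual
  rw [← sum_setIntegral_cell hA.compact hy0 w0 hpot, ← Finset.sum_add_distrib]
  refine Finset.sum_le_sum fun i _ => ?_
  have ic : IntegrableOn (fun x => w' i * (1 + g x)) (cell K y0 w0 i) volume :=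
    IntegrableOn.mono_set (hA.intone.const_mul _) inter_subset_left
  obtain ⟨RK, hRK⟩ := hA.compact.isBounded.exists_norm_le
  have il : IntegrableOn (fun x => ⟪x, y' i⟫ * (1 + g x)) (cell K y0 w0 i) volume :=
    integrableOn_of_bound' (R := RK) (measurableSet_cell hKm _ _ i) (fun x hx => hRK x hx.1)
      ((measurable_id.inner measurable_const).mul (measurable_const.add hA.meas))
      (M := RK * ‖y' i‖ * 2) fun x hx => by
        rw [abs_mul]
        refine mul_le_mul ((abs_real_inner_le_norm _ _).trans
          (mul_le_mul_of_nonneg_right (hRK x hx.1) (norm_nonneg _))) ?_ (abs_nonneg _) ?_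
        · have := abs_le.mp (hA.bound x)
          rw [abs_le]; constructor <;> linarith
        · exact mul_nonneg ((norm_nonneg _).trans (hRK x hx.1)) (norm_nonneg _)
  rw [show M i * w' i = ∫ x in cell K y0 w0 i, w' i * (1 + g x) by
      rw [integral_const_mul, cell_mass hA hy0 hmin i]; ring,
    ← integral_add (show IntegrableOn (fun x => pot y' w' x * (1 + g x)) (cell K y0 w0 i) volume from
      hpot.mono_set inter_subset_left) ic]
  refine setIntegral_mono_on il ((hpot.mono_set inter_subset_left).fun_add ic)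
    (measurableSet_cell hKm _ _ i) fun x _ => ?_
  rw [← add_mul]
  exact mul_le_mul_of_nonneg_right (by linarith [le_pot y' w' x i]) (by linarith [(abs_le.mp (hA.bound x)).1])

end Vale.Agent.P074
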