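import Vale.Agent.P074.Defs

/-!
A convex body loses only linearly much volume under a translation.
-/

noncomputable section

open MeasureTheory Set Metric
open scoped ENNReal Pointwise

namespace Vale.Agent.P074

variable {d : ℕ} [NeZero d]

lemma one_sub_pow_ge {t : ℝ} (h0 : 0 ≤ t) (h1 : t ≤ 1) (k : ℕ) :
    1 - k * t ≤ (1 - t) ^ k := by
  have := one_add_mul_le_pow (by linarith : (-2 : ℝ) ≤ -t) k
  rw [← sub_eq_add_neg] at this
  linarith

/-- The part of a convex body not covered by a translate. -/
lemma volume_diff_translate {K : Set (Space d)} (hK : Convex ℝ K) (hKc : IsCompact K)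
    {c : Space d} {r : ℝ} (hr : 0 < r) (hball : closedBall c r ⊆ K) (v : Space d) :
    volume.real (K \ {x | x + v ∈ K}) ≤ d * (‖v‖ / r) * volume.real K := by
  have hKfin : volume K ≠ ⊤ := hKc.measure_lt_top.ne
  have hd : (1 : ℝ) ≤ d := by exact_mod_cast Nat.one_le_iff_ne_zero.mpr (NeZero.ne d)
  set t := ‖v‖ / r with ht
  have ht0 : 0 ≤ t := by positivity
  rcases le_or_gt t 1 with h1 | h1
  swap
  · calc volume.real (K \ {x | x + v ∈ K}) ≤ volume.real K := measureReal_mono sdiff_subset hKfin
      _ ≤ d * t * volume.real K := le_mul_of_one_le_left measureReal_nonneg (by nlinarith)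
  have hsub : AffineMap.homothety c (1 - t) '' K ⊆ K ∩ {x | x + v ∈ K} := by
    rintro _ ⟨k, hk, rfl⟩
    rw [AffineMap.homothety_apply, vsub_eq_sub, vadd_eq_add]
    constructor
    · have := hK hk (hball (mem_closedBall_self hr.le)) (by linarith : 0 ≤ 1 - t) ht0 (by ring)
      convert this using 1; module
    · rcases eq_or_lt_of_le ht0 with h0 | h0
      · have hv : v = 0 := by
          have : ‖v‖ / r = 0 := h0.symm
          simpa [hr.ne'] using this
        simpa [← h0, hv] using hk
      · have hc' : c + (1 / t) • v ∈ K := hball (by
          rw [mem_closedBall, dist_eq_norm, add_sub_cancel_left, norm_smul, Real.norm_eq_abs,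
            abs_of_pos (by positivity), one_div_mul_eq_div, ht]
          rw [div_div_eq_mul_div, div_le_iff₀ (by
            have : 0 < ‖v‖ / r := h0
            exact (div_pos_iff_of_pos_right hr).mp this)]
          nlinarith)
        have := hK hk hc' (by linarith : 0 ≤ 1 - t) ht0 (by ring)
        show (1 - t) • (k - c) + c + v ∈ K
        rw [smul_add, smul_smul, mul_one_div, div_self h0.ne', one_smul] at this
        convert this using 1
        module
  have hvol : volume.real (AffineMap.homothety c (1 - t) '' K) = (1 - t) ^ d * volume.real K := by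
    rw [measureReal_def, Measure.addHaar_image_homothety, finrank_euclideanSpace_fin,
      ENNReal.toReal_mul, ENNReal.toReal_ofReal (abs_nonneg _), ← measureReal_def,
      abs_of_nonneg (pow_nonneg (by linarith) d)]
  have hm : MeasurableSet {x : Space d | x + v ∈ K} :=
    hKc.measurableSet.preimage (measurable_id.add_const v)
  have heq : volume.real (K \ {x | x + v ∈ K}) + volume.real (K ∩ {x | x + v ∈ K}) =
      volume.real K := measureReal_sdiff_add_inter hm hKfin
  have hle := measureReal_mono hsub (ne_top_of_le_ne_top hKfin (measure_mono inter_subset_left))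
  rw [hvol] at hle
  have := mul_le_mul_of_nonneg_right (one_sub_pow_ge ht0 h1 d) (measureReal_nonneg (μ := volume) (s := K))
  linarith

end Vale.Agent.P074
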