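import Vale.Agent.P074.Potential
import Vale.Agent.P074.Translate

/-!
Stability of optimal maps with exponent one quarter.
-/

noncomputable section

open MeasureTheory Set Metric Filter
open scoped ENNReal RealInnerProductSpace Topology

namespace Vale.Agent.P074

variable {d : ℕ}

/-- The Legendre transform relative to `K`. -/
def conj (K : Set (Space d)) (φ : Space d → ℝ) (y : Space d) : ℝ := ⨆ z : K, ⟪(z : Space d), y⟫ - φ z

section Conj

variable {K : Set (Space d)} {φ : Space d → ℝ}

lemma bddAbove_conj (hK : IsCompact K) (hφ : Continuous φ) (y : Space d) :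
    BddAbove (range fun z : K => ⟪(z : Space d), y⟫ - φ z) := by
  have := hK.bddAbove_image (f := fun z : Space d => ⟪z, y⟫ - φ z) (by fun_prop : Continuous _).continuousOn
  rwa [image_eq_range] at this

lemma le_conj (hK : IsCompact K) (hφ : Continuous φ) (y : Space d) {z : Space d} (hz : z ∈ K) :
    ⟪z, y⟫ - φ z ≤ conj K φ y :=
  le_ciSup (bddAbove_conj hK hφ y) ⟨z, hz⟩

lemma conj_lip (hK : IsCompact K) (hφ : Continuous φ) (hne : K.Nonempty) {RK : ℝ}
    (hRK : ∀ z ∈ K, ‖z‖ ≤ RK) (y y' : Space d) :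
    |conj K φ y - conj K φ y'| ≤ RK * ‖y - y'‖ := by
  have := hne.to_subtype
  have hle : ∀ y y', conj K φ y ≤ conj K φ y' + RK * ‖y - y'‖ := by
    intro y y'
    refine ciSup_le fun z => ?_
    have h1 := le_conj hK hφ y' z.2
    have h2 : ⟪(z : Space d), y⟫ - ⟪(z : Space d), y'⟫ ≤ RK * ‖y - y'‖ := by
      rw [← inner_sub_right]
      exact (real_inner_le_norm _ _).trans (mul_le_mul_of_nonneg_right (hRK z z.2) (norm_nonneg _))
    linarith
  rw [abs_le]
  have h1 := hle y y'
  have h2 := hle y' y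
  rw [norm_sub_rev y' y] at h2
  constructor <;> linarith

lemma conj_subgrad (hK : IsCompact K) (hφ : Continuous φ) {a g : Space d} (ha : a ∈ K)
    (h : ∀ x, φ a + ⟪g, x - a⟫ ≤ φ x) : φ a = ⟪a, g⟫ - conj K φ g := by
  have h1 := le_conj hK hφ g ha
  have : Nonempty K := ⟨⟨a, ha⟩⟩
  have h2 : conj K φ g ≤ ⟪a, g⟫ - φ a := by
    refine ciSup_le fun z => ?_
    have := h z
    rw [inner_sub_right] at this
    linarith [real_inner_comm g (z : Space d), real_inner_comm g a]
  linarith

end Conj

lemma coord_eq_inner (x : Space d) (i : Fin d) : x i = ⟪x, EuclideanSpace.single i 1⟫ := by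
  simp [EuclideanSpace.inner_single_right]

lemma abs_coord_le (x : Space d) (i : Fin d) : |x i| ≤ ‖x‖ := by
  simpa using PiLp.norm_apply_le x i

lemma norm_le_sum_abs (x : Space d) : ‖x‖ ≤ ∑ i, |x i| := by
  refine (pow_le_pow_iff_left₀ (norm_nonneg _) (Finset.sum_nonneg fun i _ => abs_nonneg _)
    two_ne_zero).mp ?_
  rw [EuclideanSpace.real_norm_sq_eq]
  simpa using Finset.sum_sq_le_sq_sum_of_nonneg (s := Finset.univ) (f := fun i => |x i|)
    (fun i _ => abs_nonneg _)

lemma setIntegral_shift_le {K : Set (Space d)} (hK : IsCompact K) {g : Space d → ℝ}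
    (hg : Measurable g) {R : ℝ} (hR : ∀ x, |g x| ≤ R) (v : Space d) :
    ∫ x in K ∩ {x | x + v ∈ K}, (g (x + v) - g x) ≤
      R * (volume.real (K \ {x | x + v ∈ K}) + volume.real (K \ {x | x + -v ∈ K})) := by
  have hKm := hK.measurableSet
  have hKfin : volume K ≠ ⊤ := hK.measure_lt_top.ne
  have hP : ∀ w : Space d, MeasurableSet {x : Space d | x + w ∈ K} := fun w =>
    hKm.preimage (measurable_id.add_const w)
  have hint : ∀ s : Set (Space d), s ⊆ K → IntegrableOn g s volume := fun s hs =>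
    (Measure.integrableOn_of_bounded hKfin hg.aestronglyMeasurable
      (Eventually.of_forall fun x => (Real.norm_eq_abs _).le.trans (hR x))).mono_set hs
  have hpre : (fun x => x + v) ⁻¹' (K ∩ {x | x + -v ∈ K}) = K ∩ {x | x + v ∈ K} := by
    ext x; simp [and_comm]
  have h1 : ∫ x in K ∩ {x | x + v ∈ K}, g (x + v) = ∫ x in K ∩ {x | x + -v ∈ K}, g x := by
    rw [← hpre]
    exact (measurePreserving_add_right volume v).setIntegral_preimage_emb
      (measurableEmbedding_addRight v) g _
  have hfin : volume (K ∩ {x | x + v ∈ K}) < ⊤ :=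
    lt_of_le_of_lt (measure_mono inter_subset_left) hK.measure_lt_top
  have : IsFiniteMeasure (volume.restrict (K ∩ {x | x + v ∈ K})) :=
    isFiniteMeasure_restrict.mpr hfin.ne
  rw [integral_sub (Integrable.of_bound (μ := volume.restrict (K ∩ {x | x + v ∈ K}))
    (f := fun x => g (x + v)) (hg.comp (measurable_id.add_const v)).aestronglyMeasurable R
    (Eventually.of_forall fun x => (Real.norm_eq_abs _).le.trans (hR _))) (hint _ inter_subset_left), h1]
  have hsp : ∀ w, ∫ x in K ∩ {x | x + w ∈ K}, g x =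
      (∫ x in K, g x) - ∫ x in K \ {x | x + w ∈ K}, g x := fun w => by
    have := integral_inter_add_sdiff (μ := volume) (hP w) (hint K subset_rfl)
    linarith
  have hb : ∀ w, |∫ x in K \ {x | x + w ∈ K}, g x| ≤ R * volume.real (K \ {x | x + w ∈ K}) := by
    intro w
    simpa using norm_setIntegral_le_of_norm_le_const (μ := volume) (f := g)
      (lt_of_le_of_lt (measure_mono sdiff_subset) hK.measure_lt_top)
      (fun x _ => (Real.norm_eq_abs _).le.trans (hR x))
  rw [hsp v, hsp (-v)]
  have b1 := abs_le.mp (hb v)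
  have b2 := abs_le.mp (hb (-v))
  linarith

/-- The estimate for one coordinate, from the two gap functions and their translates. -/
lemma coord_L1_le [NeZero d] {K : Set (Space d)} (hK : IsCompact K) (hconv : Convex ℝ K)
    {c : Space d} {r : ℝ} (hr : 0 < r) (hball : closedBall c r ⊆ K) {R : ℝ} (hR : 0 ≤ R)
    {F F' : Space d → Space d} (hF : Measurable F) (hF' : Measurable F')
    (hFR : ∀ x, ‖F x‖ ≤ R) (hFR' : ∀ x, ‖F' x‖ ≤ R) {φ ψ : Space d → ℝ}
    (hφc : Continuous φ) (hψc : Continuous ψ)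
    (hgood : ∀ᵐ x ∂volume.restrict K, (∀ y, φ x + ⟪F x, y - x⟫ ≤ φ y) ∧
      ∀ y, ψ x + ⟪F' x, y - x⟫ ≤ ψ y)
    (hGint : Integrable (fun x => (conj K ψ (F x) + ψ x - ⟪x, F x⟫) +
      (conj K φ (F' x) + φ x - ⟪x, F' x⟫)) (volume.restrict K))
    {M : ℝ} (hM : ∫ x in K, ((conj K ψ (F x) + ψ x - ⟪x, F x⟫) +
      (conj K φ (F' x) + φ x - ⟪x, F' x⟫)) ≤ M)
    (i : Fin d) {h : ℝ} (hh : 0 < h) :
    ∫ x in K, |(F x - F' x) i| ≤ M / h + 6 * (R * (d * (h / r) * volume.real K)) := by
  have hKm := hK.measurableSet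
  set G : Space d → ℝ := fun x => (conj K ψ (F x) + ψ x - ⟪x, F x⟫) +
      (conj K φ (F' x) + φ x - ⟪x, F' x⟫) with hG
  set v : Space d := h • EuclideanSpace.single i 1 with hv
  set P : Set (Space d) := {x | x + v ∈ K} with hP
  have hPm : MeasurableSet P := hKm.preimage (measurable_id.add_const v)
  have hKfin : volume K ≠ ⊤ := hK.measure_lt_top.ne
  have hcm : ∀ U : Space d → Space d, Measurable U → Measurable fun x => U x i := fun U hU => by
    simp only [coord_eq_inner]; exact hU.inner measurable_const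
  have hcb : ∀ {U : Space d → Space d}, (∀ x, ‖U x‖ ≤ R) → ∀ x, |U x i| ≤ R := fun hU x =>
    (abs_coord_le _ i).trans (hU x)
  have habs : ∀ x, |(F x - F' x) i| ≤ 2 * R := fun x => by
    have h1 := hcb hFR x
    have h2 := hcb hFR' x
    show |F x i - F' x i| ≤ _
    linarith [abs_sub (F x i) (F' x i)]
  have hfm : Measurable fun x => |(F x - F' x) i| := (hcm _ (hF.sub hF')).abs
  have ifull : IntegrableOn (fun x => |(F x - F' x) i|) K volume :=
    Measure.integrableOn_of_bounded hKfin hfm.aestronglyMeasurable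
      (Eventually.of_forall fun x => by rw [Real.norm_eq_abs, abs_abs]; exact habs x)
  have hout : ∫ x in K \ P, |(F x - F' x) i| ≤ 2 * R * volume.real (K \ P) :=
    (le_abs_self _).trans (by
      simpa using norm_setIntegral_le_of_norm_le_const (μ := volume)
        (f := fun x => |(F x - F' x) i|)
        (lt_of_le_of_lt (measure_mono sdiff_subset) hK.measure_lt_top)
        (fun x _ => by rw [Real.norm_eq_abs, abs_abs]; exact habs x))
  have hD : IsFiniteMeasure (volume.restrict (K ∩ P)) := isFiniteMeasure_restrict.mpr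
    (lt_of_le_of_lt (measure_mono inter_subset_left) hK.measure_lt_top).ne
  have hpt : ∀ᵐ x ∂volume.restrict (K ∩ P), |(F x - F' x) i| ≤
      G x / h + ((F (x + v) i - F x i) + (F' (x + v) i - F' x i)) := by
    have h1 := (ae_restrict_iff' hKm).mp hgood
    have h2 := (measurePreserving_add_right volume v).quasiMeasurePreserving.ae h1
    filter_upwards [ae_restrict_of_ae h2, ae_restrict_of_ae_restrict_of_subset inter_subset_left hgood,
      ae_restrict_mem (hKm.inter hPm)] with x hx' hx hxP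
    obtain ⟨hA', hB'⟩ := hx' hxP.2
    obtain ⟨hA0, hB0⟩ := hx
    have g1 := le_conj hK hψc (F x) hxP.2
    have g2 := le_conj hK hφc (F' x) hxP.2
    have k1 := hB' x
    have k2 := hA' x
    have k3 := hB0 (x + v)
    have k4 := hA0 (x + v)
    have z1 := le_conj hK hψc (F x) hxP.1
    have z2 := le_conj hK hφc (F' x) hxP.1
    have hvi : ∀ w : Space d, ⟪w, v⟫ = h * w i := fun w => by
      rw [hv, inner_smul_right, ← coord_eq_inner]
    rw [add_sub_cancel_left, hvi] at k3 k4
    rw [show x - (x + v) = -v by abel, inner_neg_right, hvi] at k1 k2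
    simp only [inner_add_left, real_inner_comm (F x) v, real_inner_comm (F' x) v, hvi] at g1 g2
    show |F x i - F' x i| ≤ _
    rw [← sub_le_iff_le_add, le_div_iff₀ hh]
    simp only [hG]
    rcases abs_cases (F x i - F' x i) with ⟨hab, -⟩ | ⟨hab, -⟩ <;> rw [hab] <;> linarith
  have hshift : ∀ {U : Space d → Space d}, Measurable U → (∀ x, ‖U x‖ ≤ R) →
      Integrable (fun x => U (x + v) i - U x i) (volume.restrict (K ∩ P)) := fun {U} hU hUR =>
    Integrable.of_bound (((hcm _ hU).comp (measurable_id.add_const v)).sub (hcm _ hU)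
      ).aestronglyMeasurable (R + R) (Eventually.of_forall fun x => by
        rw [Real.norm_eq_abs]
        exact (abs_sub _ _).trans (add_le_add (hcb hUR _) (hcb hUR _)))
  have hGi : Integrable G (volume.restrict (K ∩ P)) := IntegrableOn.mono_set hGint inter_subset_left
  have hin : ∫ x in K ∩ P, |(F x - F' x) i| ≤
      (∫ x in K ∩ P, G x) / h + ((∫ x in K ∩ P, (F (x + v) i - F x i)) +
        ∫ x in K ∩ P, (F' (x + v) i - F' x i)) := by
    refine (integral_mono_ae (ifull.mono_set inter_subset_left)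
      ((hGi.div_const h).fun_add ((hshift hF hFR).fun_add (hshift hF' hFR'))) hpt).trans (le_of_eq ?_)
    rw [integral_add (hGi.div_const h) ((hshift hF hFR).fun_add (hshift hF' hFR')),
      integral_div, integral_add (hshift hF hFR) (hshift hF' hFR')]
  have hG0 : ∀ᵐ x ∂volume.restrict K, 0 ≤ G x := by
    filter_upwards [ae_restrict_mem hKm] with x hx
    have h1 := le_conj hK hψc (F x) hx
    have h2 := le_conj hK hφc (F' x) hx
    simp only [hG]; linarith
  have hGP : (∫ x in K ∩ P, G x) / h ≤ M / h := div_le_div_of_nonneg_right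
    ((setIntegral_mono_set hGint hG0 inter_subset_left.eventuallyLE).trans hM) hh.le
  have hnorm : ‖v‖ = h := by simp [hv, norm_smul, abs_of_pos hh]
  have hv1 := volume_diff_translate hconv hK hr hball v
  have hv2 := volume_diff_translate hconv hK hr hball (-v)
  rw [norm_neg] at hv2
  rw [hnorm] at hv1 hv2
  have s1 := setIntegral_shift_le hK (hcm _ hF) (hcb hFR) v
  have s2 := setIntegral_shift_le hK (hcm _ hF') (hcb hFR') v
  have hsplit := integral_inter_add_sdiff (μ := volume) hPm ifull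
  have hm1 := mul_le_mul_of_nonneg_left hv1 hR
  have hm2 := mul_le_mul_of_nonneg_left hv2 hR
  rw [← hsplit]
  have hnn : 0 ≤ R * (d * (h / r) * volume.real K) := by positivity
  simp only [← hP] at s1 s2 hm1
  linarith

/-- The key estimate: the squared distance of two optimal maps against an arbitrary coupling. -/
lemma sq_dist_maps_le [NeZero d] {K : Set (Space d)} (hK : IsCompact K) (hconv : Convex ℝ K)
    (hint : (interior K).Nonempty) {Y : Set (Space d)} (hY : IsCompact Y) :
    ∃ C : ℝ, 0 ≤ C ∧ ∀ μ ν : Measure (Space d), IsProbabilityMeasure μ → IsProbabilityMeasure ν →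
      μ Yᶜ = 0 → ν Yᶜ = 0 → ∀ T S : Space d → Space d,
        IsOptimalMap (uniformOn K) T μ → IsOptimalMap (uniformOn K) S ν →
        ∀ π, IsCoupling π μ ν →
          (∫ x, ‖T x - S x‖ ^ 2 ∂uniformOn K) ≤ C * Real.sqrt (∫ p, ‖p.1 - p.2‖ ∂π) := by
  obtain ⟨RK, hRK⟩ := hK.isBounded.exists_norm_le
  obtain ⟨R', hR'⟩ := hY.isBounded.exists_norm_le
  set R := max R' 0 with hRdef
  have hR : 0 ≤ R := le_max_right _ _
  have hRY : ∀ y ∈ Y, ‖y‖ ≤ R := fun y hy => (hR' y hy).trans (le_max_left _ _)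
  obtain ⟨c, hc⟩ := hint
  obtain ⟨r, hr, hball⟩ : ∃ r, 0 < r ∧ closedBall c r ⊆ K := by
    obtain ⟨ε, hε, hεK⟩ := Metric.isOpen_iff.mp isOpen_interior c hc
    exact ⟨ε / 2, by positivity,
      (closedBall_subset_ball (by linarith)).trans (hεK.trans interior_subset)⟩
  have hcK : c ∈ K := hball (mem_closedBall_self hr.le)
  have hne : K.Nonempty := ⟨c, hcK⟩
  have hRK0 : 0 ≤ RK := (norm_nonneg c).trans (hRK c hcK)
  refine ⟨2 * R * (d * (2 * RK + 6 * R * (d / r))), by positivity, ?_⟩
  intro μ ν hμ hν hμY hνY T S hT hS π hπ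
  have hKm := hK.measurableSet
  have hKfin : volume K ≠ ⊤ := hK.measure_lt_top.ne
  have hVpos : 0 < volume K := lt_of_lt_of_le (isOpen_interior.measure_pos volume ⟨c, hc⟩)
    (measure_mono interior_subset)
  set V := volume.real K with hV
  have hV0 : 0 < V := ENNReal.toReal_pos hVpos.ne' hKfin
  have hk : (volume K)⁻¹ ≠ 0 := ENNReal.inv_ne_zero.mpr hKfin
  have huni : ∀ f : Space d → ℝ, ∫ x, f x ∂uniformOn K = V⁻¹ * ∫ x in K, f x := fun f => by
    rw [uniformOn, integral_smul_measure, ENNReal.toReal_inv, smul_eq_mul]; rfl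
  have : IsFiniteMeasure (volume.restrict K) := isFiniteMeasure_restrict.mpr hKfin
  have hmem : ∀ {U : Space d → Space d} {m : Measure (Space d)}, Measurable U →
      (uniformOn K).map U = m → m Yᶜ = 0 → ∀ᵐ x ∂volume.restrict K, ‖U x‖ ≤ R := by
    intro U m hU hm hm0
    have h : ∀ᵐ x ∂uniformOn K, U x ∈ Y := by
      refine ae_of_ae_map hU.aemeasurable ?_
      rw [hm]; exact hm0
    simp only [uniformOn, ae_iff, Measure.smul_apply, smul_eq_mul, mul_eq_zero, hk, false_or] at h
    have h : ∀ᵐ x ∂volume.restrict K, U x ∈ Y := ae_iff.mpr h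
    exact h.mono fun x hx => hRY _ hx
  have hopt : ∀ {U : Space d → Space d} {m : Measure (Space d)}, IsOptimalMap (uniformOn K) U m →
      ∀ U' : Space d → Space d, Measurable U' →
        (volume.restrict K).map U' = (volume.restrict K).map U →
        ∫ x in K, ‖x - U x‖ ^ 2 ≤ ∫ x in K, ‖x - U' x‖ ^ 2 := by
    intro U m hU U' hU' hmap
    have h := hU.2.2 U' hU' (by rw [← hU.2.1, uniformOn, Measure.map_smul, Measure.map_smul, hmap])
    rw [huni, huni] at h
    exact le_of_mul_le_mul_left h (inv_pos.mpr hV0)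
  obtain ⟨A, hAK, hAae, hAR, hAmono⟩ :=
    exists_cyclicMono hK hconv hT.1 hR (hmem hT.1 hT.2.1 hμY) (hopt hT)
  obtain ⟨B, hBK, hBae, hBR, hBmono⟩ :=
    exists_cyclicMono hK hconv hS.1 hR (hmem hS.1 hS.2.1 hνY) (hopt hS)
  have hres : volume.restrict K ≠ 0 := by
    intro h
    have := congrArg (fun m : Measure (Space d) => m univ) h
    simp only [Measure.restrict_apply_univ, Measure.coe_zero, Pi.zero_apply] at this
    exact hVpos.ne' this
  have : NeBot (ae (volume.restrict K)) := ae_neBot.mpr hres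
  obtain ⟨φ, hφlip, hφ⟩ := exists_potential hAmono hAae.exists hAR
  obtain ⟨ψ, hψlip, hψ⟩ := exists_potential hBmono hBae.exists hBR
  have hcont : ∀ {f : Space d → ℝ} {L : ℝ}, (∀ x y, |f x - f y| ≤ L * ‖x - y‖) → Continuous f :=
    fun {f L} h => (LipschitzWith.of_dist_le' (K := L) fun x y => by
      rw [Real.dist_eq, dist_eq_norm]; exact h x y).continuous
  have hφc := hcont hφlip
  have hψc := hcont hψlip
  set u : Space d → ℝ := fun y => conj K ψ y - conj K φ y with hu
  have hulip : ∀ y y', |u y - u y'| ≤ 2 * RK * ‖y - y'‖ := fun y y' => by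
    have := conj_lip hK hψc hne hRK y y'
    have := conj_lip hK hφc hne hRK y y'
    simp only [hu, abs_le] at *
    constructor <;> linarith
  have huc := hcont hulip
  set TF := clamp K R T with hTF
  set SF := clamp K R S with hSF
  have hTFm : Measurable TF := measurable_clamp hKm R hT.1
  have hSFm : Measurable SF := measurable_clamp hKm R hS.1
  have hclamp : ∀ᵐ x ∂volume.restrict K, TF x = T x ∧ SF x = S x := by
    filter_upwards [hmem hT.1 hT.2.1 hμY, hmem hS.1 hS.2.1 hνY, ae_restrict_mem hKm] with x h1 h2 h3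
    exact ⟨by simp [hTF, clamp, indicator_of_mem h3, h1], by simp [hSF, clamp, indicator_of_mem h3, h2]⟩
  set G : Space d → ℝ := fun x =>
    (conj K ψ (TF x) + ψ x - ⟪x, TF x⟫) + (conj K φ (SF x) + φ x - ⟪x, SF x⟫) with hG
  -- the gap integrates to at most the transport cost
  set W := ∫ p, ‖p.1 - p.2‖ ∂π with hW
  have hW0 : 0 ≤ W := integral_nonneg fun p => norm_nonneg _
  have : IsProbabilityMeasure π := by
    constructor
    have := congrArg (fun m : Measure (Space d) => m univ) hπ.1
    simpa [Measure.map_apply measurable_fst MeasurableSet.univ] using this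
  have hπY : ∀ᵐ p ∂π, ‖p.1‖ ≤ R ∧ ‖p.2‖ ≤ R := by
    have h1 : ∀ᵐ p ∂π, p.1 ∈ Y := ae_of_ae_map measurable_fst.aemeasurable (by rw [hπ.1]; exact hμY)
    have h2 : ∀ᵐ p ∂π, p.2 ∈ Y := ae_of_ae_map measurable_snd.aemeasurable (by rw [hπ.2]; exact hνY)
    filter_upwards [h1, h2] with p a b
    exact ⟨hRY _ a, hRY _ b⟩
  have iW : Integrable (fun p => ‖p.1 - p.2‖) π :=
    Integrable.of_bound (by fun_prop) (R + R) (hπY.mono fun p hp => by
      rw [norm_norm]; exact (norm_sub_le _ _).trans (add_le_add hp.1 hp.2))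
  have hGeq : ∀ᵐ x ∂volume.restrict K, G x = u (T x) - u (S x) := by
    filter_upwards [hclamp, hAae, hBae] with x hx hxA hxB
    have h1 := conj_subgrad hK hφc (hAK hxA) (hφ x hxA)
    have h2 := conj_subgrad hK hψc (hBK hxB) (hψ x hxB)
    simp only [hG, hu, hx.1, hx.2]
    linarith
  have iu : ∀ {U : Space d → Space d}, Measurable U → (∀ᵐ x ∂volume.restrict K, ‖U x‖ ≤ R) →
      Integrable (fun x => u (U x)) (volume.restrict K) := fun {U} hU hUR =>
    Integrable.of_bound (huc.measurable.comp hU).aestronglyMeasurable (|u 0| + 2 * RK * R)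
      (hUR.mono fun x hx => by
        have := hulip (U x) 0
        rw [sub_zero] at this
        have := mul_le_mul_of_nonneg_left hx (by positivity : 0 ≤ 2 * RK)
        rw [Real.norm_eq_abs]
        linarith [abs_sub_abs_le_abs_sub (u (U x)) (u 0)])
  have hGint : Integrable G (volume.restrict K) :=
    ((iu hT.1 (hmem hT.1 hT.2.1 hμY)).sub (iu hS.1 (hmem hS.1 hS.2.1 hνY))).congr
      (hGeq.mono fun x hx => hx.symm)
  have hGW : ∫ x in K, G x ≤ V * (2 * RK * W) := by
    have hu1 : ∀ {U : Space d → Space d} {m : Measure (Space d)}, Measurable U →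
        (uniformOn K).map U = m → ∫ x in K, u (U x) = V * ∫ y, u y ∂m := by
      intro U m hU hm
      rw [← hm, integral_map hU.aemeasurable huc.aestronglyMeasurable, huni,
        mul_inv_cancel_left₀ hV0.ne']
    rw [integral_congr_ae hGeq, integral_sub (iu hT.1 (hmem hT.1 hT.2.1 hμY))
      (iu hS.1 (hmem hS.1 hS.2.1 hνY)), hu1 hT.1 hT.2.1, hu1 hS.1 hS.2.1, ← mul_sub]
    refine mul_le_mul_of_nonneg_left ?_ hV0.le
    rw [← hπ.1, ← hπ.2, integral_map measurable_fst.aemeasurable huc.aestronglyMeasurable,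
      integral_map measurable_snd.aemeasurable huc.aestronglyMeasurable]
    have ip : ∀ f : Space d × Space d → Space d, Measurable f → (∀ᵐ p ∂π, ‖f p‖ ≤ R) →
        Integrable (fun p => u (f p)) π := fun f hf hfR =>
      Integrable.of_bound (huc.measurable.comp hf).aestronglyMeasurable (|u 0| + 2 * RK * R)
        (hfR.mono fun x hx => by
          have := hulip (f x) 0
          rw [sub_zero] at this
          have := mul_le_mul_of_nonneg_left hx (by positivity : 0 ≤ 2 * RK)
          rw [Real.norm_eq_abs]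
          linarith [abs_sub_abs_le_abs_sub (u (f x)) (u 0)])
    rw [← integral_sub (ip _ measurable_fst (hπY.mono fun p hp => hp.1))
      (ip _ measurable_snd (hπY.mono fun p hp => hp.2)), hW, ← integral_const_mul]
    refine integral_mono ((ip _ measurable_fst (hπY.mono fun p hp => hp.1)).sub
      (ip _ measurable_snd (hπY.mono fun p hp => hp.2))) (iW.const_mul _) fun p => ?_
    exact (le_abs_self _).trans (hulip p.1 p.2)
  -- one coordinate
  have hgood : ∀ᵐ x ∂volume.restrict K, (∀ y, φ x + ⟪TF x, y - x⟫ ≤ φ y) ∧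
      ∀ y, ψ x + ⟪SF x, y - x⟫ ≤ ψ y := by
    filter_upwards [hAae, hBae, hclamp] with x hxA hxB hx
    rw [hx.1, hx.2]
    exact ⟨hφ x hxA, hψ x hxB⟩
  have hcoord : ∀ (i : Fin d) (h : ℝ), 0 < h →
      ∫ x in K, |(TF x - SF x) i| ≤ V * (2 * RK * W / h + 6 * R * (d / r) * h) := by
    intro i h hh
    refine (coord_L1_le hK hconv hr hball hR hTFm hSFm (norm_clamp_le K hR T) (norm_clamp_le K hR S)
      hφc hψc hgood hGint hGW i hh).trans (le_of_eq ?_)
    rw [← hV]
    field_simp
  -- assembling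
  rw [huni]
  have hsw : ∀ i, V⁻¹ * ∫ x in K, |(TF x - SF x) i| ≤ (2 * RK + 6 * R * (d / r)) * Real.sqrt W := by
    intro i
    refine le_of_forall_pos_le_add fun ε hε => ?_
    set η := ε / (6 * R * (d / r) + 1) with hη
    have hηpos : 0 < η := by positivity
    have hs := Real.sqrt_nonneg W
    have := mul_le_mul_of_nonneg_left (hcoord i (Real.sqrt W + η) (by positivity))
      (inv_nonneg.mpr hV0.le)
    rw [inv_mul_cancel_left₀ hV0.ne'] at this
    have h1 : 2 * RK * W / (Real.sqrt W + η) ≤ 2 * RK * Real.sqrt W := by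
      rw [div_le_iff₀ (by positivity)]
      have e : 2 * RK * Real.sqrt W * (Real.sqrt W + η) = 2 * RK * W + 2 * RK * Real.sqrt W * η := by
        rw [mul_add, mul_assoc _ (Real.sqrt W), Real.mul_self_sqrt hW0]
      rw [e]
      exact le_add_of_nonneg_right (by positivity)
    have h2 : 6 * R * (d / r) * η ≤ ε := by
      rw [hη, mul_div_assoc', div_le_iff₀ (by positivity), mul_comm (6 * R * (d / r)) ε]
      exact mul_le_mul_of_nonneg_left (le_add_of_nonneg_right zero_le_one) hε.le
    rw [mul_add (6 * R * (d / r))] at this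
    linarith
  have hbd : ∀ᵐ x ∂volume.restrict K, ‖T x - S x‖ ^ 2 ≤ 2 * R * ∑ i, |(TF x - SF x) i| := by
    filter_upwards [hclamp] with x hx
    rw [← hx.1, ← hx.2]
    have h1 := norm_le_sum_abs (TF x - SF x)
    have h2 := norm_sub_le (TF x) (SF x)
    have := norm_clamp_le K hR T x
    have := norm_clamp_le K hR S x
    rw [sq]
    refine mul_le_mul ?_ h1 (norm_nonneg _) (by positivity)
    simp only [hTF, hSF] at *
    linarith
  have icoord : ∀ i, Integrable (fun x => |(TF x - SF x) i|) (volume.restrict K) := fun i => by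
    have hm : Measurable fun x => (TF x - SF x) i := by
      simp only [coord_eq_inner]; exact (hTFm.sub hSFm).inner measurable_const
    refine Integrable.of_bound hm.abs.aestronglyMeasurable (2 * R) (Eventually.of_forall fun x => ?_)
    rw [Real.norm_eq_abs, abs_abs]
    refine (abs_coord_le _ i).trans ((norm_sub_le _ _).trans ?_)
    have := norm_clamp_le K hR T x
    have := norm_clamp_le K hR S x
    simp only [hTF, hSF]; linarith
  calc V⁻¹ * ∫ x in K, ‖T x - S x‖ ^ 2
      ≤ V⁻¹ * ∫ x in K, 2 * R * ∑ i, |(TF x - SF x) i| := by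
        refine mul_le_mul_of_nonneg_left (integral_mono_of_nonneg
          (Eventually.of_forall fun x => by positivity)
          ((integrable_finsetSum _ fun i _ => icoord i).const_mul _) hbd) (inv_nonneg.mpr hV0.le)
    _ = 2 * R * ∑ i, V⁻¹ * ∫ x in K, |(TF x - SF x) i| := by
        rw [integral_const_mul, integral_finsetSum _ fun i _ => icoord i, Finset.mul_sum,
          Finset.mul_sum, Finset.mul_sum]
        exact Finset.sum_congr rfl fun i _ => by ring
    _ ≤ 2 * R * ∑ _i : Fin d, (2 * RK + 6 * R * (d / r)) * Real.sqrt W :=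
        mul_le_mul_of_nonneg_left (Finset.sum_le_sum fun i _ => hsw i) (by positivity)
    _ = _ := by simp; ring

theorem stable_W1 [NeZero d] : StableExponent d W1 (1/4) := by
  intro K hK hconv hint Y hY
  obtain ⟨C, hC0, hC⟩ := sq_dist_maps_le hK hconv hint hY
  refine ⟨Real.sqrt C, fun μ ν hμ hν hμY hνY T S hT hS => ?_⟩
  set I := ∫ x, ‖T x - S x‖ ^ 2 ∂uniformOn K
  have hI0 : 0 ≤ I := integral_nonneg fun x => by positivity
  have hne : {c | ∃ π, IsCoupling π μ ν ∧ c = ∫ p, ‖p.1 - p.2‖ ∂π}.Nonempty :=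
    ⟨_, μ.prod ν, ⟨by simp, by simp⟩, rfl⟩
  have h0 : 0 ≤ W1 μ ν := le_csInf hne (by rintro c ⟨π, -, rfl⟩; exact integral_nonneg fun p => norm_nonneg _)
  have hbound : I ≤ C * Real.sqrt (W1 μ ν) := by
    rcases eq_or_lt_of_le hC0 with hz | hpos
    · obtain ⟨c, π, hπ, -⟩ := hne
      have := hC μ ν hμ hν hμY hνY T S hT hS π hπ
      rw [← hz, zero_mul] at this ⊢
      exact this
    · have : (I / C) ^ 2 ≤ W1 μ ν := le_csInf hne (by
        rintro c ⟨π, hπ, rfl⟩
        have h := hC μ ν hμ hν hμY hνY T S hT hS π hπ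
        rw [← Real.sq_sqrt (integral_nonneg fun p => norm_nonneg _ : 0 ≤ ∫ p, ‖p.1 - p.2‖ ∂π)]
        exact pow_le_pow_left₀ (by positivity) (by rw [div_le_iff₀ hpos]; linarith) 2)
      have := Real.le_sqrt_of_sq_le this
      rw [div_le_iff₀ hpos] at this
      linarith
  calc Real.sqrt I ≤ Real.sqrt (C * Real.sqrt (W1 μ ν)) := Real.sqrt_le_sqrt hbound
    _ = _ := by
      rw [Real.sqrt_mul hC0, Real.sqrt_eq_rpow (Real.sqrt _), Real.sqrt_eq_rpow (W1 μ ν),
        ← Real.rpow_mul h0]
      norm_num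

lemma sq_integral_le {α : Type*} [MeasurableSpace α] {m : Measure α} [IsProbabilityMeasure m]
    {f : α → ℝ} (hf : Integrable f m) (hf2 : Integrable (fun x => f x ^ 2) m) :
    (∫ x, f x ∂m) ^ 2 ≤ ∫ x, f x ^ 2 ∂m := by
  set a := ∫ x, f x ∂m with ha
  have h : 0 ≤ ∫ x, (f x - a) ^ 2 ∂m := integral_nonneg fun x => sq_nonneg _
  have e : ∫ x, (f x - a) ^ 2 ∂m = ∫ x, f x ^ 2 ∂m - a ^ 2 := by
    have : ∀ x, (f x - a) ^ 2 = f x ^ 2 - (2 * a * f x - a ^ 2) := fun x => by ring
    simp only [this]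
    rw [integral_sub hf2 ((hf.const_mul _).sub' (integrable_const _)),
      integral_sub (hf.const_mul _) (integrable_const _), integral_const_mul, ← ha]
    simp; ring
  linarith

theorem stable_W2 [NeZero d] : StableExponent d W2 (1/4) := by
  intro K hK hconv hint Y hY
  obtain ⟨C, hC⟩ := stable_W1 K hK hconv hint Y hY
  obtain ⟨R, hR⟩ := hY.isBounded.exists_norm_le
  refine ⟨max C 0, fun μ ν hμ hν hμY hνY T S hT hS => ?_⟩
  refine (hC μ ν hμ hν hμY hνY T S hT hS).trans ?_
  have hne1 : {c | ∃ π, IsCoupling π μ ν ∧ c = ∫ p, ‖p.1 - p.2‖ ∂π}.Nonempty :=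
    ⟨_, μ.prod ν, ⟨by simp, by simp⟩, rfl⟩
  have h0 : 0 ≤ W1 μ ν := le_csInf hne1 (by
    rintro c ⟨π, -, rfl⟩; exact integral_nonneg fun p => norm_nonneg _)
  have hb1 : BddBelow {c | ∃ π, IsCoupling π μ ν ∧ c = ∫ p, ‖p.1 - p.2‖ ∂π} :=
    ⟨0, by rintro c ⟨π, -, rfl⟩; exact integral_nonneg fun p => norm_nonneg _⟩
  have hle : W1 μ ν ≤ W2 μ ν := by
    refine Real.le_sqrt_of_sq_le (le_csInf ⟨_, μ.prod ν, ⟨by simp, by simp⟩, rfl⟩ ?_)
    rintro c ⟨π, hπ, rfl⟩
    have : IsProbabilityMeasure π := by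
      constructor
      have := congrArg (fun m : Measure (Space d) => m univ) hπ.1
      simpa [Measure.map_apply measurable_fst MeasurableSet.univ] using this
    have h1 : ∀ᵐ p ∂π, p.1 ∈ Y := ae_of_ae_map measurable_fst.aemeasurable (by rw [hπ.1]; exact hμY)
    have h2 : ∀ᵐ p ∂π, p.2 ∈ Y := ae_of_ae_map measurable_snd.aemeasurable (by rw [hπ.2]; exact hνY)
    have hp : ∀ᵐ p ∂π, ‖p.1 - p.2‖ ≤ R + R := by
      filter_upwards [h1, h2] with p a b
      exact (norm_sub_le _ _).trans (add_le_add (hR _ a) (hR _ b))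
    have i1 : Integrable (fun p => ‖p.1 - p.2‖) π :=
      Integrable.of_bound (by fun_prop) (R + R) (hp.mono fun p h => by rwa [norm_norm])
    have i2 : Integrable (fun p => ‖p.1 - p.2‖ ^ 2) π :=
      Integrable.of_bound (by fun_prop) ((R + R) ^ 2) (hp.mono fun p h => by
        rw [norm_pow, norm_norm]; exact pow_le_pow_left₀ (norm_nonneg _) h 2)
    exact (pow_le_pow_left₀ h0 (csInf_le hb1 ⟨π, hπ, rfl⟩) 2).trans (sq_integral_le i1 i2)
  exact (mul_le_mul_of_nonneg_right (le_max_left _ _) (Real.rpow_nonneg h0 _)).trans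
    (mul_le_mul_of_nonneg_left (Real.rpow_le_rpow h0 hle (by norm_num)) (le_max_right _ _))

end Vale.Agent.P074
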